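import Vale.Agent.P253Z.Spec
import Vale.Agent.P272.K.C2.ChernLu
import Vale.Agent.P272.K.N.Hess

/-!
# P253Z, block B2: the Ricci form is positive
-/

open scoped Manifold ContDiff Bundle ENNReal Topology ComplexConjugate ComplexOrder Matrix
open Bundle IsManifold MeasureTheory Set Metric Filter Vale.Agent.P253.Mfd
open Vale.Agent.P272.K (Cm dz dzb cHess jacM Chart)
open Vale.Agent.P272.K.C2
open Vale.Agent.P253.R2.H451 (levi2)
open Complex (I)

noncomputable section

namespace Vale.Agent.P253Z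

namespace B2A

theorem two_le : (2 : WithTop ℕ∞) ≤ ((⊤ : ℕ∞) : WithTop ℕ∞) :=
  WithTop.coe_le_coe.2 (le_top : (2 : ℕ∞) ≤ ⊤)

set_option maxSynthPendingDepth 3 in
theorem rc_eq {E : Type*} [NormedAddCommGroup E] [NormedSpace ℂ E] [FiniteDimensional ℂ E]
    {G : E → E →L[ℝ] E →L[ℝ] ℝ} {U : Set E} {z : E} (h : LocalKahler G U) (hz : z ∈ U) (X a : E) :
    ContDiffAt ℝ 2 (fun y => G y a a) z ∧ Rc G z X a =
      G z (chris G z X a) (chris G z X a) - levi2 (fun y => G y a a) z X / 4 := by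
  have hsm : ContDiffAt ℝ 2 (fun y => G y a a) z :=
    (((h.smooth.contDiffAt (h.isOpen.mem_nhds hz)).clm_apply contDiffAt_const).clm_apply
      contDiffAt_const).of_le two_le
  have hd : DifferentiableAt ℝ (fderiv ℝ fun y => G y a a) z :=
    (hsm.fderiv_right (m := 1) (by norm_num)).differentiableAt (by norm_num)
  have key : ∀ u v, fderiv ℝ (fderiv ℝ fun y => G y a a) z u v =
      fderiv ℝ (fderiv ℝ G) z u v a a := fun u v => by
    have e : (fun y => fderiv ℝ (fun y => G y a a) y v) =ᶠ[𝓝 z] fun y => fderiv ℝ G y v a a := by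
      filter_upwards [h.isOpen.mem_nhds hz] with y hy
      rw [(h.hasFDerivAt_apply hy a a).fderiv]
      rfl
    have := congrArg (fun T => T u) ((hd.hasFDerivAt.clm_apply (hasFDerivAt_const v z)).unique
      ((h.hasFDerivAt_fderiv_apply hz v a a).congr_of_eventuallyEq e))
    simpa using this
  exact ⟨hsm, by rw [levi2, key, key, Rc]⟩

variable {n : ℕ}

theorem cplx (l : Cm n →L[ℝ] ℂ) (u : Cm n) :
    ∑ i, u i * (l (Pi.single i 1) - I * l (Pi.single i I)) = l u - I * l (I • u) := by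
  rw [P272.K.N.decompI u]
  conv_rhs => rw [P272.K.N.decomp u]
  have e : ∀ i, (∑ j, ((u j).re • (Pi.single j (1 : ℂ) : Cm n) +
      (u j).im • (Pi.single j I : Cm n))) i = u i := fun i => by rw [← P272.K.N.decomp u]
  simp only [e, map_sum, map_add, map_smul, Finset.mul_sum, ← Finset.sum_sub_distrib,
    Complex.real_smul]
  refine Finset.sum_congr rfl fun i _ => ?_
  conv_lhs => rw [← Complex.re_add_im (u i)]
  push_cast
  linear_combination (-(u i).im * l (Pi.single i I)) * Complex.I_mul_I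

/-- the Hermitian matrix of `G` -/
def mat (G : Cm n → Cm n →L[ℝ] Cm n →L[ℝ] ℝ) (y : Cm n) : Matrix (Fin n) (Fin n) ℂ :=
  Matrix.of fun j k => (G y (Pi.single j 1) (Pi.single k 1) : ℂ) -
    I * (G y (Pi.single j I) (Pi.single k 1) : ℂ)

variable {G : Cm n → Cm n →L[ℝ] Cm n →L[ℝ] ℝ} {U : Set (Cm n)} {z : Cm n}

theorem vecMul_mat (y a : Cm n) (j : Fin n) : ∑ i, a i * mat G y i j =
    (G y a (Pi.single j 1) : ℂ) - I * (G y (I • a) (Pi.single j 1) : ℂ) :=
  cplx (Complex.ofRealCLM.comp ((G y).flip (Pi.single j 1))) a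

/-- the Christoffel symbols in complex terms -/
theorem chris_mat (h : LocalKahler G U) (hz : z ∈ U) (hW : MD (mat G) z) (X a : Cm n) :
    a ᵥ* (∑ k, X k • DM k (mat G) z) = chris G z X a ᵥ* mat G z := by
  funext j
  set b : Cm n := Pi.single j 1 with hb
  have d : ∀ v, HasFDerivAt (fun y => (G y v b : ℂ))
      (Complex.ofRealCLM.comp (((fderiv ℝ G z).flip v).flip b)) z := fun v =>
    Complex.ofRealCLM.hasFDerivAt.comp z (h.hasFDerivAt_apply hz v b)
  have d2 := (d a).sub ((d (I • a)).const_mul I)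
  have e1 : ∀ k, ∑ i, a i * DM k (mat G) z i j =
      dz k (fun y => (G y a b : ℂ) - I * (G y (I • a) b : ℂ)) z := fun k => by
    simp only [hb, ← vecMul_mat]
    rw [dz_sum k _ fun i _ => (hW i j).const_mul _]
    exact Finset.sum_congr rfl fun i _ => (dz_const_mul k _ (hW i j)).symm
  have e2 : (a ᵥ* (∑ k, X k • DM k (mat G) z)) j = ∑ k, X k * ∑ i, a i * DM k (mat G) z i j := by
    simp only [Matrix.vecMul, dotProduct, Matrix.sum_apply, Matrix.smul_apply, smul_eq_mul,
      Finset.mul_sum]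
    rw [Finset.sum_comm]
    exact Finset.sum_congr rfl fun k _ => Finset.sum_congr rfl fun i _ => by ring
  have e3 := cplx (fderiv ℝ (fun y => (G y a b : ℂ) - I * (G y (I • a) b : ℂ)) z) X
  have e4 : (chris G z X a ᵥ* mat G z) j = _ := vecMul_mat z (chris G z X a) j
  have hI : ∀ v : Cm n, I • I • v = -v := fun v => by
    rw [smul_smul, Complex.I_mul_I, neg_one_smul]
  have k0 : ∀ u v w, fderiv ℝ G z u (I • v) w = -fderiv ℝ G z u v (I • w) := fun u v w => by
    rw [h.fderiv_eq hz, h.fderiv_eq hz, h.par z hz, h.par z hz, ← h.herm z hz (I • _) w,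
      ← h.herm z hz (I • v), hI, hI]
    simp only [map_neg, neg_apply]
    ring
  have k1 := h.fderiv_add_I hz X b a
  have k2 := h.fderiv_add_I hz X (I • b) a
  rw [h.fderiv_symm hz X, h.fderiv_symm hz (I • X), h.symm z hz] at k1 k2
  rw [hI, map_neg] at k2
  have k3 : G z (I • chris G z X a) b = -G z (chris G z X a) (I • b) := by
    rw [← h.herm z hz (I • _) b, hI, map_neg, neg_apply]
  rw [e2, e4, ← hb, k3]
  simp only [e1, dz, ← mul_div_assoc, ← Finset.sum_div]
  rw [e3]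
  erw [d2.fderiv]
  simp only [sub_apply, smul_apply,
    ContinuousLinearMap.comp_apply, ContinuousLinearMap.flip_apply, Complex.ofRealCLM_apply,
    smul_eq_mul, k0]
  have k1' := congrArg (fun t : ℝ => (t : ℂ)) k1
  have k2' := congrArg (fun t : ℝ => (t : ℂ)) k2
  push_cast at k1' k2' ⊢
  linear_combination (1 / 2 : ℂ) * k1' + (I / 2) * k2' -
    ((fderiv ℝ G z (I • X) a (I • b) : ℂ) / 2) * Complex.I_mul_I

theorem quad_eq (A : Matrix (Fin n) (Fin n) ℂ) (v : Cm n) :
    v ⬝ᵥ (A *ᵥ star v) = ∑ j, ∑ k, A j k * (v j * conj (v k)) := by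
  simp only [dotProduct, Matrix.mulVec, Finset.mul_sum]
  exact Finset.sum_congr rfl fun j _ => Finset.sum_congr rfl fun k _ => by
    rw [Pi.star_apply, Complex.star_def]; ring

theorem quad_real {A : Matrix (Fin n) (Fin n) ℂ} (hA : A.IsHermitian) (v : Cm n) :
    (((v ⬝ᵥ (A *ᵥ star v)).re : ℝ) : ℂ) = v ⬝ᵥ (A *ᵥ star v) := by
  have := hA.im_star_dotProduct_mulVec_self (star v)
  rw [star_star] at this
  exact Complex.ext rfl this.symm

/-- the bisectional curvature in complex terms -/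
theorem rm_eq (h : LocalKahler G U) (hz : z ∈ U) (hW : MC 2 (mat G) z)
    (hp : ∀ᶠ y in 𝓝 z, (mat G y).PosDef)
    (hq : ∀ᶠ y in 𝓝 z, ∀ v, G y v v = (∑ j, ∑ k, mat G y j k * (v j * conj (v k))).re)
    (hl : ∀ (N : Cm n → ℝ) (z v : Cm n), ContDiffAt ℝ 2 N z →
      levi2 N z v = 4 * (∑ j, ∑ k, cHess N z j k * (v j * conj (v k))).re) (X a : Cm n) :
    (a ⬝ᵥ ((∑ l, ∑ k, (X k * conj (X l)) • RM k l (mat G) z) *ᵥ star a)).re = Rc G z X a := by
  have one : (1 : WithTop ℕ∞) ≠ 0 := by norm_num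
  have hW1 : MC 1 (mat G) z := hW.mono (by norm_num)
  have hH : ∀ᶠ y in 𝓝 z, (mat G y).IsHermitian := hp.mono fun y hy => hy.isHermitian
  have h0 := isUnit_iff_ne_zero.2 (posDef_det_ne_zero hp.self_of_nhds)
  set S := ∑ k, X k • DM k (mat G) z with hS
  have hS' : Sᴴ = ∑ l, conj (X l) • DMb l (mat G) z := by
    rw [hS, Matrix.conjTranspose_sum]
    exact Finset.sum_congr rfl fun l _ => by
      rw [Matrix.conjTranspose_smul, DMb_of_isHermitian (hW1.md one) hH]; rfl
  have e1 : ∑ l, ∑ k, (X k * conj (X l)) • RM k l (mat G) z =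
      -(∑ l, ∑ k, (X k * conj (X l)) • D2 k l (mat G) z) + S * (mat G z)⁻¹ * Sᴴ := by
    rw [hS', hS]
    simp only [RM, smul_add, smul_neg, Finset.sum_add_distrib, Finset.sum_neg_distrib,
      Matrix.sum_mul, Matrix.mul_sum, Matrix.smul_mul, Matrix.mul_smul, Finset.smul_sum,
      smul_smul, mul_comm (conj (X _))]
  have e2 : a ⬝ᵥ ((S * (mat G z)⁻¹ * Sᴴ) *ᵥ star a) =
      chris G z X a ⬝ᵥ (mat G z *ᵥ star (chris G z X a)) := by
    rw [← Matrix.mulVec_mulVec, ← Matrix.mulVec_mulVec, Matrix.dotProduct_mulVec,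
      ← Matrix.star_vecMul, chris_mat h hz (hW1.md one), Matrix.star_vecMul,
      hH.self_of_nhds.eq, Matrix.mulVec_mulVec, Matrix.nonsing_inv_mul _ h0, Matrix.one_mulVec,
      Matrix.dotProduct_mulVec]
  obtain ⟨hsm, hR⟩ := rc_eq h hz X a
  have e3 : ∀ k l, cHess (fun y => G y a a) z k l =
      ∑ i, ∑ j, D2 k l (mat G) z i j * (a i * conj (a j)) := by
    intro k l
    have f1 : (fun y => ((G y a a : ℝ) : ℂ)) =ᶠ[𝓝 z]
        fun y => ∑ i, ∑ j, mat G y i j * (a i * conj (a j)) := by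
      filter_upwards [hq, hH] with y h1 h2
      rw [h1, ← quad_eq, quad_real h2]
    have f2 : dzb l (fun y => ∑ i, ∑ j, mat G y i j * (a i * conj (a j))) =ᶠ[𝓝 z]
        fun y => ∑ i, ∑ j, DMb l (mat G) y i j * (a i * conj (a j)) := by
      filter_upwards [MC.eventually (q := 1) hW1] with y h1
      have h2 := h1.md one
      rw [dzb_sum l _ fun i _ => DifferentiableAt.fun_sum fun j _ => (h2 i j).mul_const _]
      refine Finset.sum_congr rfl fun i _ => ?_
      rw [dzb_sum l _ fun j _ => (h2 i j).mul_const _]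
      exact Finset.sum_congr rfl fun j _ => dzb_mul_const l _ (h2 i j)
    have h2 := (hW.DMb (k := l) (m' := 1) (by norm_num)).md one
    rw [cHess_apply, dz_congr k ((dzb_eventuallyEq l f1).trans f2),
      dz_sum k _ fun i _ => DifferentiableAt.fun_sum fun j _ => (h2 i j).mul_const _]
    refine Finset.sum_congr rfl fun i _ => ?_
    rw [dz_sum k _ fun j _ => (h2 i j).mul_const _]
    exact Finset.sum_congr rfl fun j _ => dz_mul_const k _ (h2 i j)
  have e4 : a ⬝ᵥ ((∑ l, ∑ k, (X k * conj (X l)) • D2 k l (mat G) z) *ᵥ star a) =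
      ∑ k, ∑ l, cHess (fun y => G y a a) z k l * (X k * conj (X l)) := by
    rw [Finset.sum_comm]
    simp only [e3, ← quad_eq, Matrix.sum_mulVec, dotProduct_sum, Matrix.smul_mulVec,
      dotProduct_smul, smul_eq_mul, mul_comm (_ ⬝ᵥ _)]
  have e5 := hl _ z X hsm
  rw [e1, Matrix.add_mulVec, Matrix.neg_mulVec, dotProduct_add, dotProduct_neg, e2, e4,
    Complex.add_re, Complex.neg_re, quad_eq, ← hq.self_of_nhds, hR]
  linarith

end B2A

open B2A

variable {n : ℕ} {M : Type} [MetricSpace M] [ChartedSpace (Cm n) M]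
  [IsManifold 𝓘(ℂ, Cm n) 1 M] [IsManifold 𝓘(ℝ, Cm n) ∞ M]
  [RiemannianBundle (fun x : M => TangentSpace 𝓘(ℝ, Cm n) x)]
  [IsContMDiffRiemannianBundle 𝓘(ℝ, Cm n) ∞ (Cm n) (fun x : M => TangentSpace 𝓘(ℝ, Cm n) x)]

theorem b2 (hK : IsKahler (Cm n) M) (hp : ∀ x : M, PosBisectionalAt (Cm n) x) (hn : 1 ≤ n)
    (_a : B1a n M) (b : B1b n M) : B2 n M := by
  intro e he z hz
  have hU : ∀ᶠ y in 𝓝 z, y ∈ e.target := e.open_target.mem_nhds hz
  have hW : MC 2 (mat (chartG e)) z := fun j k =>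
    (b.wsm e he z hz j k).of_le two_le
  have hP : ∀ᶠ y in 𝓝 z, (mat (chartG e) y).PosDef := hU.mono fun y hy => b.wpos e he y hy
  have hv : ContDiffAt ℝ 2 (fun y => Real.log (vd e y)) z :=
    ((b.vd_sm e he z hz).of_le two_le).log
      (b.vd_pos e he z hz).ne'
  have hH : (ric e z).IsHermitian := cHess_isHermitian hv.neg
  have e1 : ric e z = ∑ l, ∑ k, (mat (chartG e) z)⁻¹ l k • RM k l (mat (chartG e)) z := by
    rw [ricci_identity hW hP (hU.mono fun y hy i j k => b.wcl e he y hy i j k)]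
    exact cHess_neg hv
  obtain ⟨C, hC⟩ := exists_factor hP.self_of_nhds.inv.posSemidef
  have hC0 : ∀ m, C m ≠ 0 := fun m h => by
    have h1 : C.det = 0 := Matrix.det_eq_zero_of_row_eq_zero m fun j => congrFun h j
    have h2 := posDef_det_ne_zero hP.self_of_nhds.inv
    rw [hC, Matrix.det_mul, h1, mul_zero] at h2
    exact h2 rfl
  have e2 : ric e z = ∑ m, ∑ l, ∑ k, (C m k * conj (C m l)) • RM k l (mat (chartG e)) z := by
    have e3 : ∀ l k, (mat (chartG e) z)⁻¹ l k = ∑ m, C m k * conj (C m l) := fun l k => by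
      rw [hC, Matrix.mul_apply]
      exact Finset.sum_congr rfl fun m _ => mul_comm _ _
    rw [e1]
    simp only [e3, Finset.sum_smul]
    exact (Finset.sum_congr rfl fun l _ => Finset.sum_comm).trans Finset.sum_comm
  refine Matrix.PosDef.of_dotProduct_mulVec_pos hH fun x hx => ?_
  refine Complex.pos_iff.2 ⟨?_, (hH.im_star_dotProduct_mulVec_self x).symm⟩
  have : Nonempty (Fin n) := ⟨⟨0, hn⟩⟩
  rw [e2, Matrix.sum_mulVec, dotProduct_sum, Complex.re_sum]
  refine Finset.sum_pos (fun m _ => ?_) Finset.univ_nonempty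
  have h1 := rm_eq (localKahler_chartG hK he) hz hW hP (hU.mono fun y hy => b.quad e he y hy)
    b.levi (C m) (star x)
  rw [star_star] at h1
  rw [h1]
  exact Rc_pos_chartG hK he hz (hp _) _ _ (hC0 m) (star_ne_zero.2 hx)

end Vale.Agent.P253Z
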