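import Vale.Agent.P253Z.B1a.Sec

/-!
# P253Z, block B1a: charts and sections
-/

open scoped Manifold ContDiff Bundle ENNReal Topology ComplexConjugate ComplexOrder
open Bundle IsManifold MeasureTheory Set Metric Filter Vale.Agent.P253.Mfd
open Vale.Agent.P272.K (Cm dz dzb cHess jacM Chart)

set_option linter.unusedSectionVars false

noncomputable section

namespace Vale.Agent.P253Z

variable {n : ℕ} {M : Type} [MetricSpace M] [ChartedSpace (Cm n) M]
  [IsManifold 𝓘(ℂ, Cm n) 1 M] [IsManifold 𝓘(ℝ, Cm n) ∞ M]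
  [RiemannianBundle (fun x : M => TangentSpace 𝓘(ℝ, Cm n) x)]
  [IsContMDiffRiemannianBundle 𝓘(ℝ, Cm n) ∞ (Cm n) (fun x : M => TangentSpace 𝓘(ℝ, Cm n) x)]
  [IsRiemannianManifold 𝓘(ℝ, Cm n) M] [CompleteSpace M] [ConnectedSpace M] [NoncompactSpace M]
  [MeasurableSpace M] [BorelSpace M] {μ : Measure M}

theorem b1a : B1a n M where
  chart := B1aP.chart
  hol := fun _ _ he he' _ hz hz' => B1aP.hol he he' hz hz'
  aff := fun _ he L b => B1aP.aff he L b
  restr := fun _ he _ hU => B1aP.restr he hU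
  jac_eq := fun _ _ he he' _ hx hx' => B1aP.jac_eq he he' hx hx'
  jac_self := fun e _ hx => B1aP.jac_self e hx
  jac_mul := fun _ _ _ he he' he'' _ hx hx' hx'' => B1aP.jac_mul he he' he'' hx hx' hx''
  jac_ne := fun _ _ he he' _ hx hx' => B1aP.jac_ne he he' hx hx'
  jac_an := fun _ _ he he' _ hz hz' => B1aP.jac_an he he' hz hz'
  co_self := B1aP.co_self
  co_ch := fun k s _ _ he he' _ hx hx' => B1aP.co_ch k s he he' hx hx'
  co_mul := fun k l s t _ he _ hz => B1aP.co_mul k l s t he hz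
  ext := fun k _ he σ => B1aP.ext k he σ
  sec_loc := B1aP.sec_loc
  smSec_loc := B1aP.smSec_loc
  sm_loc := B1aP.sm_loc
  sm_cont := B1aP.sm_cont
  sec_zero := B1aP.sec_zero
  sec_mul := B1aP.sec_mul
  ident := B1aP.ident
  psh := B1aP.psh

end Vale.Agent.P253Z
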