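import Vale.Agent.P253Z.Spec
import Vale.Agent.P253Z.B1b.Lin
import Vale.Agent.P253.Bdl.B2

/-!
# P253Z, block B1b: the metric in charts
-/

open scoped Manifold ContDiff Bundle ENNReal Topology ComplexConjugate ComplexOrder
open Bundle IsManifold MeasureTheory Set Metric Filter Vale.Agent.P253.Mfd
open Vale.Agent.P272.K (Cm dz dzb cHess jacM Chart)

set_option linter.unusedSectionVars false

noncomputable section

namespace Vale.Agent.P253Z

variable {n : ℕ} {M : Type} [MetricSpace M] [ChartedSpace (Cm n) M]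
  [IsManifold 𝓘(ℂ, Cm n) 1 M] [IsManifold 𝓘(ℝ, Cm n) ∞ M]
  [RiemannianBundle (fun x : M => TangentSpace 𝓘(ℝ, Cm n) x)]
  [IsContMDiffRiemannianBundle 𝓘(ℝ, Cm n) ∞ (Cm n) (fun x : M => TangentSpace 𝓘(ℝ, Cm n) x)]
  [IsRiemannianManifold 𝓘(ℝ, Cm n) M] [CompleteSpace M] [ConnectedSpace M] [NoncompactSpace M]
  [MeasurableSpace M] [BorelSpace M] {μ : Measure M}

namespace MC

variable {e e' : Chart n M} {z : Cm n} {x : M}

theorem hm_eq (e : Chart n M) (z : Cm n) : hm e z = hmat (chartG e z) := by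
  ext j k
  rw [hm, hmat, Matrix.of_apply, Matrix.of_apply, hf, single_I]
  rfl

theorem two_le : (2 : WithTop ℕ∞) ≤ ((⊤ : ℕ∞) : WithTop ℕ∞) :=
  WithTop.coe_le_coe.2 (le_top (a := (2 : ℕ∞)))

theorem wsm' (hK : IsKahler (Cm n) M) (he : Hc e) (hz : z ∈ e.target) (j k : Fin n) :
    ContDiffAt ℝ ∞ (fun y => hm e y j k) z := by
  simp only [hm_eq]
  exact hmat_smooth (localKahler_chartG hK he) hz j k

theorem wpos' (hK : IsKahler (Cm n) M) (he : Hc e) (hz : z ∈ e.target) : (hm e z).PosDef := by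
  have h := localKahler_chartG hK he
  rw [hm_eq]
  exact hmat_pos (h.herm z hz) (h.symm z hz) (h.pos z hz)

theorem tr_an (a : B1a n M) (he : Hc e) (he' : Hc e') (hx : x ∈ e.source) (hx' : x ∈ e'.source) :
    AnalyticAt ℂ (fun y => e' (e.symm y)) (e x) :=
  a.hol e e' he he' _ (e.map_source hx) (by rwa [e.left_inv hx])

theorem wch' (hK : IsKahler (Cm n) M) (a : B1a n M) (he : Hc e) (he' : Hc e')
    (hx : x ∈ e.source) (hx' : x ∈ e'.source) :
    hm e (e x) = pb (jacM e e' x) (hm e' (e' x)) := by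
  have hd := (tr_an a he he' hx hx').differentiableAt
  rw [hm_eq, hm_eq, pb]
  refine hmat_change ((localKahler_chartG hK he').herm _ (e'.map_source hx'))
    (fderiv ℂ (fun y => e' (e.symm y)) (e x)) (fun v w => ?_) fun p i =>
      P272.K.jmat_apply hd p i
  rw [← P272.K.fderivR_of_holo hd, ← P272.K.fderivR_of_holo hd]
  exact (chartG_change he he' hx hx' v w).symm

theorem vd_pos' (hK : IsKahler (Cm n) M) (he : Hc e) (hz : z ∈ e.target) : 0 < vd e z :=
  (Complex.pos_iff.1 (wpos' hK he hz).det_pos).1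

theorem vd_sm' (hK : IsKahler (Cm n) M) (he : Hc e) (hz : z ∈ e.target) :
    ContDiffAt ℝ ∞ (vd e) z :=
  Complex.reCLM.contDiff.contDiffAt.comp z (contDiffAt_det fun i j => wsm' hK he hz i j)

theorem vd_ch' (hK : IsKahler (Cm n) M) (a : B1a n M) (he : Hc e) (he' : Hc e')
    (hx : x ∈ e.source) (hx' : x ∈ e'.source) :
    vd e (e x) = ‖(jacM e e' x).det‖ ^ 2 * vd e' (e' x) := by
  rw [vd, vd, wch' hK a he he' hx hx', pb, det_pb]

theorem nrm_eq' (hK : IsKahler (Cm n) M) (a : B1a n M) (k : ℤ) (s : M → ℂ) (he : Hc e)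
    (hz : z ∈ e.target) : nrm n k s (e.symm z) = ‖co k s e z‖ ^ 2 * vd e z ^ (-k) := by
  have h1 := vd_ch' hK a he (a.chart (e.symm z)) (e.map_target hz) (mem_chart_source _ _)
  have h2 := a.jac_ne _ _ he (a.chart (e.symm z)) _ (e.map_target hz) (mem_chart_source _ _)
  rw [e.right_inv hz] at h1
  have h3 : ‖(jacM e (chartAt (Cm n) (e.symm z)) (e.symm z)).det‖ ^ 2 ≠ 0 :=
    pow_ne_zero _ (norm_ne_zero_iff.2 h2)
  rw [nrm, co, h1, norm_mul, norm_zpow, mul_pow, mul_zpow, ← zpow_natCast (_ ^ k), ← zpow_mul,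
    mul_comm k, zpow_mul, zpow_natCast, zpow_neg (_ ^ 2)]
  have h4 := zpow_ne_zero k h3
  field_simp

theorem nrm_wt' (hK : IsKahler (Cm n) M) (a : B1a n M) (k : ℤ) (ψ : M → ℝ) (s : M → ℂ)
    (he : Hc e) (hz : z ∈ e.target) :
    nrm n k s (e.symm z) * Real.exp (-ψ (e.symm z)) * vd e z =
      ‖co k s e z‖ ^ 2 * Real.exp (-wt k ψ e z) := by
  have h0 := vd_pos' hK he hz
  have h1 : Real.exp (-wt k ψ e z) = vd e z ^ (-k) * vd e z * Real.exp (-ψ (e.symm z)) := by
    rw [← zpow_add_one₀ h0.ne', ← Real.rpow_intCast, Real.rpow_def_of_pos h0, ← Real.exp_add, wt]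
    congr 1
    push_cast
    ring
  rw [nrm_eq' hK a k s he hz, h1]
  ring

theorem cont_of_chart (a : B1a n M) {f : M → ℝ}
    (h : ∀ e : Chart n M, Hc e → ∀ z ∈ e.target, ∃ g : Cm n → ℝ, ContinuousAt g z ∧
      ∀ y ∈ e.target, f (e.symm y) = g y) : Continuous f := by
  refine continuous_iff_continuousAt.2 fun x => ?_
  have hx := mem_chart_source (Cm n) x
  obtain ⟨g, hg, hfg⟩ := h _ (a.chart x) _ ((chartAt (Cm n) x).map_source hx)
  refine (hg.comp (f := chartAt (Cm n) x) ((chartAt (Cm n) x).continuousAt hx)).congr ?_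
  filter_upwards [(chartAt (Cm n) x).open_source.mem_nhds hx] with y hy
  rw [Function.comp, ← hfg _ ((chartAt (Cm n) x).map_source hy), (chartAt (Cm n) x).left_inv hy]

theorem log_sm (hK : IsKahler (Cm n) M) (he : Hc e) (hz : z ∈ e.target) :
    ContDiffAt ℝ ∞ (fun y => Real.log (vd e y)) z :=
  (vd_sm' hK he hz).log (vd_pos' hK he hz).ne'

theorem th_eq' (hK : IsKahler (Cm n) M) (k : ℤ) {ψ : M → ℝ} (hψ : Sm n ψ) (he : Hc e)
    (hz : z ∈ e.target) :
    th k ψ e z = ((1 - k : ℝ) : ℂ) • ric e z + cHess (fun y => ψ (e.symm y)) z := by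
  have h1 := (log_sm hK he hz).of_le two_le
  have h2 : wt k ψ e = fun y => ((1 - k : ℝ) * -Real.log (vd e y)) + ψ (e.symm y) := by
    funext y
    rw [wt]
    ring
  rw [th, h2, P272.K.cHess_add (contDiffAt_const.mul h1.neg) ((hψ e he z hz).of_le two_le),
    P272.K.cHess_const_mul _ h1.neg]
  rfl

theorem ev_both (hx : x ∈ e.source) (hx' : x ∈ e'.source) :
    ∀ᶠ y in 𝓝 (e x), y ∈ e.target ∧ e.symm y ∈ e'.source := by
  refine (e.open_target.eventually_mem (e.map_source hx)).and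
    ((e.continuousAt_symm (e.map_source hx)).eventually ?_)
  rw [e.left_inv hx]
  exact e'.open_source.mem_nhds hx'

theorem hess_ch (a : B1a n M) (he : Hc e) (he' : Hc e') (hx : x ∈ e.source) (hx' : x ∈ e'.source)
    {u : Cm n → ℝ} (hu : ContDiffAt ℝ 2 u (e' x)) :
    cHess (fun y => u (e' (e.symm y))) (e x) = pb (jacM e e' x) (cHess u (e' x)) := by
  have h1 := P272.K.cHess_comp (f := u) (τ := fun y => e' (e.symm y)) (z := e x)
    (by rwa [e.left_inv hx]) (tr_an a he he' hx hx').contDiffAt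
  rw [e.left_inv hx] at h1
  exact h1

theorem hess_tw {u : Cm n → ℝ} {τ : Cm n → Cm n} {F : Cm n → ℂ} (hτ : AnalyticAt ℂ τ z)
    (hu : ContDiffAt ℝ 2 u (τ z)) (hF : AnalyticAt ℂ F z) (h0 : F z ≠ 0) :
    cHess (fun y => u (τ y) - Real.log (‖F y‖ ^ 2)) z = cHess (fun y => u (τ y)) z := by
  have h6 : ContDiffAt ℝ 2 (fun y => u (τ y)) z :=
    hu.comp z ((hτ.contDiffAt (n := 2)).restrict_scalars ℝ)
  have h7 : ContDiffAt ℝ 2 (fun y => Real.log (‖F y‖ ^ 2)) z :=
    (((hF.contDiffAt (n := 2)).restrict_scalars ℝ).norm_sq ℂ).log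
      (pow_ne_zero _ (norm_ne_zero_iff.2 h0))
  rw [P272.K.cHess_sub h6 h7, P272.K.cHess_log_norm_sq hF.contDiffAt h0, sub_zero]

theorem ric_ch' (hK : IsKahler (Cm n) M) (a : B1a n M) (he : Hc e) (he' : Hc e')
    (hx : x ∈ e.source) (hx' : x ∈ e'.source) :
    ric e (e x) = pb (jacM e e' x) (ric e' (e' x)) := by
  have hz := e.map_source hx
  have hx2 : e.symm (e x) ∈ e'.source := by rwa [e.left_inv hx]
  have h1 : (fun y => -Real.log (vd e y)) =ᶠ[𝓝 (e x)] fun y =>
      -Real.log (vd e' (e' (e.symm y))) - Real.log (‖(jacM e e' (e.symm y)).det‖ ^ 2) := by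
    filter_upwards [ev_both hx hx'] with y hy
    have h2 := vd_ch' hK a he he' (e.map_target hy.1) hy.2
    rw [e.right_inv hy.1] at h2
    rw [h2, Real.log_mul (pow_ne_zero _ (norm_ne_zero_iff.2
      (a.jac_ne _ _ he he' _ (e.map_target hy.1) hy.2)))
      (vd_pos' hK he' (e'.map_source hy.2)).ne']
    ring
  have h3 := a.jac_an e e' he he' _ hz hx2
  have h4 : (jacM e e' (e.symm (e x))).det ≠ 0 := a.jac_ne _ _ he he' _ (e.map_target hz) hx2
  have h5 : ContDiffAt ℝ 2 (fun y => -Real.log (vd e' y)) (e' x) :=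
    ((log_sm hK he' (e'.map_source hx')).of_le two_le).neg
  have h6 := hess_ch (u := fun y => -Real.log (vd e' y)) a he he' hx hx' h5
  have h7 := hess_tw (u := fun y => -Real.log (vd e' y)) (tr_an a he he' hx hx')
    (by rwa [e.left_inv hx]) h3 h4
  exact ((P272.K.cHess_congr h1).trans h7).trans h6

theorem th_ch' (hK : IsKahler (Cm n) M) (a : B1a n M) (k : ℤ) {ψ : M → ℝ} (hψ : Sm n ψ)
    (he : Hc e) (he' : Hc e') (hx : x ∈ e.source) (hx' : x ∈ e'.source) :
    th k ψ e (e x) = pb (jacM e e' x) (th k ψ e' (e' x)) := by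
  have h1 : (fun y => ψ (e.symm y)) =ᶠ[𝓝 (e x)] fun y => ψ (e'.symm (e' (e.symm y))) := by
    filter_upwards [ev_both hx hx'] with y hy
    rw [e'.left_inv hy.2]
  rw [th_eq' hK k hψ he (e.map_source hx), th_eq' hK k hψ he' (e'.map_source hx'),
    ric_ch' hK a he he' hx hx', P272.K.cHess_congr h1,
    hess_ch (u := fun y => ψ (e'.symm y)) a he he' hx hx'
      ((hψ e' he' _ (e'.map_source hx')).of_le two_le)]
  simp only [pb, Matrix.mul_add, Matrix.add_mul, Matrix.mul_smul, Matrix.smul_mul]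

theorem ricDen_eq' (hK : IsKahler (Cm n) M) (a : B1a n M) (he : Hc e) (hz : z ∈ e.target) :
    ricDen n (e.symm z) = (ric e z).det.re / vd e z := by
  have h1 := vd_ch' hK a he (a.chart (e.symm z)) (e.map_target hz) (mem_chart_source _ _)
  have h2 := a.jac_ne _ _ he (a.chart (e.symm z)) _ (e.map_target hz) (mem_chart_source _ _)
  have h3 := ric_ch' hK a he (a.chart (e.symm z)) (e.map_target hz) (mem_chart_source _ _)
  rw [e.right_inv hz] at h1 h3
  rw [ricDen, h1, h3, pb, det_pb,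
    mul_div_mul_left _ _ (pow_ne_zero _ (norm_ne_zero_iff.2 h2))]

end MC

open MC

/-- **B1b** -/
theorem b1b (hK : IsKahler (Cm n) M) (a : B1a n M) : B1b n M where
  wsm _ he _ hz := wsm' hK he hz
  wpos _ he _ hz := wpos' hK he hz
  wcl e he z hz j k l := by
    simp only [hm_eq]
    exact hmat_closed (localKahler_chartG hK he) hz j k l
  wch _ _ he he' _ hx hx' := wch' hK a he he' hx hx'
  quad e he z hz v := by
    rw [hm_eq, ← hf_expand ((localKahler_chartG hK he).herm z hz), hf_re]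
    rfl
  vd_pos _ he _ hz := vd_pos' hK he hz
  vd_sm _ he _ hz := vd_sm' hK he hz
  vd_ch _ _ he he' _ hx hx' := vd_ch' hK a he he' hx hx'
  nrm_eq k s _ he _ hz := nrm_eq' hK a k s he hz
  nrm_wt k ψ s _ he _ hz := nrm_wt' hK a k ψ s he hz
  nrm_cont k s hs := cont_of_chart a fun e he z hz =>
    ⟨fun y => ‖co k s e y‖ ^ 2 * vd e y ^ (-k),
      ((hs e he z hz).continuousAt.norm.pow 2).mul
        ((vd_sm' hK he hz).continuousAt.zpow₀ _ (Or.inl (vd_pos' hK he hz).ne')),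
      fun y hy => nrm_eq' hK a k s he hy⟩
  levi _ _ v hN := MC.levi hN v
  herm _ _ hN := P272.K.cHess_isHermitian hN
  psd _ hH := MC.psd hH
  th_ch k _ hψ _ _ he he' _ hx hx' := th_ch' hK a k hψ he he' hx hx'
  th_eq k _ hψ _ he _ hz := th_eq' hK k hψ he hz
  ric_ch _ _ he he' _ hx hx' := ric_ch' hK a he he' hx hx'
  ricDen_eq _ he _ hz := ricDen_eq' hK a he hz
  ricDen_cont := cont_of_chart a fun e he z hz =>
    ⟨fun y => (ric e y).det.re / vd e y,
      (Complex.continuous_re.continuousAt.comp (contDiffAt_det (m := 0) fun i j =>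
        P272.K.C2.contDiffAt_cHess ((log_sm hK he hz).of_le two_le).neg (by norm_num)
          i j).continuousAt).div
        (vd_sm' hK he hz).continuousAt (vd_pos' hK he hz).ne',
      fun y hy => ricDen_eq' hK a he hy⟩

end Vale.Agent.P253Z
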