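import Vale.Agent.P253Z.Spec
import Vale.Agent.P253Z.FR.A

/-!
# P253Z, block FR: existence of frames
-/

open scoped Manifold ContDiff Bundle ENNReal Topology ComplexConjugate ComplexOrder
open Bundle IsManifold MeasureTheory Set Metric Filter Vale.Agent.P253.Mfd
open Vale.Agent.P272.K (Cm dz dzb cHess jacM Chart)

noncomputable section

namespace Vale.Agent.P253Z

variable {n : ℕ} {M : Type} [MetricSpace M] [ChartedSpace (Cm n) M]
  [IsManifold 𝓘(ℂ, Cm n) 1 M] [IsManifold 𝓘(ℝ, Cm n) ∞ M]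
  [RiemannianBundle (fun x : M => TangentSpace 𝓘(ℝ, Cm n) x)]
  [IsContMDiffRiemannianBundle 𝓘(ℝ, Cm n) ∞ (Cm n) (fun x : M => TangentSpace 𝓘(ℝ, Cm n) x)]
  [IsRiemannianManifold 𝓘(ℝ, Cm n) M] [CompleteSpace M] [ConnectedSpace M] [NoncompactSpace M]
  [MeasurableSpace M] [BorelSpace M] {μ : Measure M}

namespace FRa

omit [IsManifold 𝓘(ℂ, Cm n) 1 M] [IsManifold 𝓘(ℝ, Cm n) ∞ M]
  [RiemannianBundle (fun x : M => TangentSpace 𝓘(ℝ, Cm n) x)]
  [IsContMDiffRiemannianBundle 𝓘(ℝ, Cm n) ∞ (Cm n) (fun x : M => TangentSpace 𝓘(ℝ, Cm n) x)]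
  [IsRiemannianManifold 𝓘(ℝ, Cm n) M] [CompleteSpace M] [ConnectedSpace M] [NoncompactSpace M]
  [MeasurableSpace M] [BorelSpace M] in
/-- a small chart around `p` -/
theorem exists_chart (a : B1a n M) (p : M) {ρ : ℝ} (hρ : 0 < ρ) :
    ∃ e : Chart n M, Hc e ∧ p ∈ e.source ∧ e p = 0 ∧ closedBall 0 2 ⊆ e.target ∧
      ∀ z ∈ closedBall (0 : Cm n) 2, dist (e.symm z) p < ρ := by
  set e₀ : Chart n M := chartAt (Cm n) p with he₀
  have hp : p ∈ e₀.source := mem_chart_source _ p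
  have hO : IsOpen (e₀.target ∩ e₀.symm ⁻¹' ball p ρ) := e₀.isOpen_inter_preimage_symm isOpen_ball
  have hm : e₀ p ∈ e₀.target ∩ e₀.symm ⁻¹' ball p ρ :=
    ⟨e₀.map_source hp, by simp [e₀.left_inv hp, hρ]⟩
  obtain ⟨r, hr, hsub⟩ := Metric.isOpen_iff.mp hO _ hm
  have hr0 : ((r / 3 : ℝ) : ℂ) ≠ 0 := Complex.ofReal_ne_zero.mpr (by positivity)
  set L : Cm n ≃L[ℂ] Cm n :=
    (LinearEquiv.smulOfNeZero ℂ (Cm n) _ hr0).toContinuousLinearEquiv.symm with hL
  have hLs : ∀ z, L.symm z = ((r / 3 : ℝ) : ℂ) • z := fun z => rfl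
  obtain ⟨e, he, hs, ht, hf, hi, -⟩ := a.aff e₀ (a.chart p) L (e₀ p)
  have key : ∀ z ∈ closedBall (0 : Cm n) 2, L.symm z + e₀ p ∈ ball (e₀ p) r := by
    intro z hz
    rw [mem_closedBall_zero_iff] at hz
    rw [mem_ball, dist_eq_norm, add_sub_cancel_right, hLs, norm_smul, Complex.norm_real,
      Real.norm_eq_abs, abs_of_pos (by positivity)]
    nlinarith
  refine ⟨e, he, hs ▸ hp, by rw [hf]; simp, fun z hz => ?_, fun z hz => ?_⟩
  · rw [ht]; exact (hsub (key z hz)).1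
  · rw [hi]; exact (hsub (key z hz)).2

end FRa

open FRa in
theorem fr (a : B1a n M) (b : B1b n M) (h1 : WT n M) (h2 : RB n M) (h3 : HJ n μ) (h4 : GR n μ) :
    FR n μ := by
  intro p
  obtain ⟨κ, hκ, hW⟩ := h1 p
  obtain ⟨Λ, hΛ, hJ⟩ := h3
  obtain ⟨e, he, hpe, hep, hsub, hnear⟩ := exists_chart a p (ρ := 1 / 8) (by norm_num)
  obtain ⟨l, hl, hlow⟩ := unif (isCompact_closedBall (0 : Cm n) 2) (H := hm e)
    (fun j k z hz => (b.wsm e he z (hsub hz) j k).continuousAt.continuousWithinAt)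
    (fun z hz => b.wpos e he z (hsub hz))
  set q : ℝ := 2 * Λ / (κ * l) with hq
  have hq0 : 0 < q := by positivity
  obtain ⟨C, δ, -, hδ, hδ1, hS⟩ := hJ 1 (q * (5 / 4)) (1 / 2) (by norm_num)
  have hR : ∀ ν : ℕ, (2 : ℝ) ≤ ν + 2 := fun ν => by linarith [Nat.cast_nonneg (α := ℝ) ν]
  choose A W c hA hD hcc hc0 hcκ hL hW1 hW2 using fun ν : ℕ => hW (ν + 2) (hR ν)
  choose u hu hu1 hu2 using fun ν : ℕ => h2 (W ν) (c ν) (hcc ν) (hc0 ν) (hL ν)
  have hth : ∀ ν (e' : Chart n M) z, th 1 (fun x => q * u ν x) e' z =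
      (q : ℂ) • cHess (fun y => u ν (e'.symm y)) z := by
    intro ν e' z
    rw [← cHess_smul]
    unfold th
    congr 1
    funext y
    simp [wt]
  have hsm : ∀ ν, Sm n fun x => q * u ν x := fun ν e' he' z hz =>
    contDiffAt_const.mul (hu ν e' he' z hz)
  have hΩ : ∀ ν, ∃ Ω : M → ℂ, IsSec n 1 Ω ∧ L2 n μ 1 (fun x => q * u ν x) Ω ≤ ENNReal.ofReal C ∧
      ∀ z ∈ closedBall (0 : Cm n) δ, 1 / 2 ≤ ‖co 1 Ω e z‖ := by
    intro ν
    refine (hS 1 (fun x => q * u ν x) (hsm ν) (fun e' he' z hz => ?_)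
      (fun _ => e) (fun _ _ => 1) (fun _ _ => 1) (fun _ => he) (fun _ => hsub)
      (fun i j hij => absurd (Subsingleton.elim i j) hij) (fun _ z hz => ?_)).imp
      fun s ⟨hs, hs2, hs3⟩ => ⟨hs, hs2, fun z hz => ?_⟩
    · rw [hth]
      refine Matrix.PosSemidef.smul ?_ (Complex.zero_le_real.mpr hq0.le)
      have h5 := (hu2 ν e' he' z hz).add ((b.wpos e' he' z hz).posSemidef.smul
        (Complex.zero_le_real.mpr (half_pos (hc0 ν (e'.symm z))).le))
      rwa [sub_add_cancel] at h5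
    · have hz8 := hnear z hz
      have hk := hcκ ν (e.symm z) (mem_closedBall.mpr hz8.le)
      refine ⟨?_, analyticAt_const, analyticAt_const, one_ne_zero, by simp, ?_⟩
      · rw [hth]
        have h5 := (hu2 ν e he z (hsub hz)).smul (Complex.zero_le_real.mpr hq0.le)
        have h6 := (hlow z hz).smul (a := ((q * (c ν (e.symm z) / 2) : ℝ) : ℂ))
          (Complex.zero_le_real.mpr (mul_pos hq0 (half_pos (hc0 ν _))).le)
        have h7 : 0 ≤ q * (c ν (e.symm z) / 2) * l - Λ := by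
          have : q * (κ / 2) * l = Λ := by rw [hq]; field_simp
          rw [← this, sub_nonneg]
          gcongr
        have h8 := (Matrix.PosSemidef.one (n := Fin n) (R := ℂ)).smul
          (Complex.zero_le_real.mpr h7)
        convert (h5.add h6).add h8 using 1
        push_cast
        module
      · have h5 := hu1 ν (e.symm z)
        have h6 := hW1 ν (e.symm z)
        have h7 : |u ν (e.symm z)| ≤ 5 / 4 := by
          have := abs_add_le (u ν (e.symm z) - W ν (e.symm z)) (W ν (e.symm z))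
          rw [sub_add_cancel] at this
          linarith
        have h8 : wt 1 (fun x => q * u ν x) e z = q * u ν (e.symm z) := by simp [wt]
        rw [h8, norm_one, one_pow, Real.log_one, zero_sub, abs_neg, abs_mul, abs_of_pos hq0]
        exact mul_le_mul_of_nonneg_left h7 hq0.le
    · have h5 := (hs3 0).1 z hz
      simp only [div_one] at h5
      have h6 := norm_sub_norm_le (1 : ℂ) (co 1 s e z)
      rw [norm_sub_rev, norm_one] at h6
      linarith
  choose Ω hΩ1 hΩ2 hΩ3 using hΩ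
  have hδ2 : closedBall (0 : Cm n) δ ⊆ closedBall 0 2 := closedBall_subset_closedBall (by linarith)
  refine ⟨
    { C₂ := 2 * q + 2 * n
      C₂_pos := by positivity
      R := fun ν => ν + 2
      A := A
      A_top := tendsto_atTop_mono hA (Real.tendsto_log_atTop.comp
        (tendsto_atTop_add_const_right _ 2 tendsto_natCast_atTop_atTop))
      dom := hD
      Ω := Ω
      sec := hΩ1
      e := e
      he := he
      src := hpe
      ep := hep
      δ := δ
      δ_pos := hδ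
      sub := hδ2.trans hsub
      near := fun z hz => (hnear z (hδ2 hz)).le.trans (by norm_num)
      low := hΩ3
      l2 := fun m hm s hs => ?_ }⟩
  obtain ⟨C', hC'⟩ := h4 p m hm s hs C
  refine ⟨C' + m * (5 * q + 2 * n), fun ν x => ?_⟩
  have hA0 : 0 ≤ A ν := (Real.log_nonneg (by linarith [hR ν])).trans (hA ν)
  have ht0 : 0 ≤ tl p (ν + 2) x := le_max_right _ _
  have ht1 : dist x p - (ν + 2) ≤ tl p (ν + 2) x := le_max_left _ _
  refine (hC' (Ω ν) _ (hΩ1 ν) (a.sm_cont _ (hsm ν)) (hΩ2 ν) x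
    (q * (A ν + 5 + 2 * tl p (ν + 2) x)) (by positivity) fun y hy => ?_).trans ?_
  · refine mul_le_mul_of_nonneg_left ?_ hq0.le
    have h5 := (abs_le.mp (hu1 ν y)).2
    have h6 := hW2 ν y
    have h7 : tl p (ν + 2) y ≤ tl p (ν + 2) x + 1 := by
      refine max_le ?_ (by linarith)
      have := dist_triangle y x p
      rw [mem_ball] at hy
      linarith
    linarith
  · refine Real.exp_le_exp.mpr ?_
    have h5 := log_le (dist_nonneg (x := x) (y := p)) (hR ν) (hA ν) ht0 ht1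
    have hn : (0 : ℝ) ≤ n := Nat.cast_nonneg n
    have hm0 : (0 : ℝ) ≤ m := Nat.cast_nonneg m
    have h6 : q * (A ν + 5 + 2 * tl p (ν + 2) x) + 2 * n * Real.log (dist x p + 1) ≤
        (5 * q + 2 * n) + (2 * q + 2 * n) * (A ν + tl p (ν + 2) x) := by
      nlinarith [mul_le_mul_of_nonneg_left h5 hn, mul_nonneg hq0.le hA0]
    have h7 := mul_le_mul_of_nonneg_left h6 hm0
    linarith

end Vale.Agent.P253Z
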