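import Vale.Agent.P253Z.Spec

/-!
# P253Z: the order of vanishing of tame sections
-/

open scoped Manifold ContDiff Bundle ENNReal Topology ComplexConjugate ComplexOrder
open Bundle IsManifold MeasureTheory Set Metric Filter Vale.Agent.P253.Mfd
open Vale.Agent.P272.K (Cm dz dzb cHess jacM Chart)
open Vale.Agent.P253.R2.H618 (gb gb_mono)

noncomputable section

namespace Vale.Agent.P253Z

namespace OrdA

theorem schwarz {n k : ℕ} {G : Cm n → ℂ} {δ B : ℝ} (hδ : 0 < δ)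
    (hd : DifferentiableOn ℂ G (ball 0 δ)) (hB : ∀ z ∈ ball (0 : Cm n) δ, ‖G z‖ ≤ Real.exp B)
    (hk : 1 ≤ k) (hO : G =O[𝓝 0] fun z => ‖z‖ ^ k) {z : Cm n} (hz : z ∈ ball (0 : Cm n) (δ / 3)) :
    ‖G z‖ ≤ Real.exp (B - k) := by
  obtain ⟨j, rfl⟩ : ∃ j, k = j + 1 := ⟨k - 1, by omega⟩
  have h0 : G 0 = 0 := by
    obtain ⟨C, hC⟩ := hO.bound
    simpa using hC.self_of_nhds
  have h1 : (fun z : Cm n => ‖z‖ ^ (j + 1)) =o[𝓝 0] fun z => ‖z‖ ^ j :=
    (Asymptotics.isLittleO_pow_pow (Nat.lt_succ_self j)).comp_tendsto tendsto_norm_zero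
  have h2 := Complex.dist_le_mul_div_pow_of_mapsTo_ball_of_isLittleO (R₂ := Real.exp B) (n := j) hd
    (fun w hw => by simpa [h0] using hB w hw) (by simpa [h0] using hO.trans_isLittleO h1)
    (ball_subset_ball (by linarith) hz)
  rw [h0, dist_zero_right] at h2
  have h3 : dist z 0 / δ ≤ Real.exp (-1) := by
    rw [div_le_iff₀ hδ, Real.exp_neg, ← div_eq_inv_mul, le_div_iff₀ (Real.exp_pos 1)]
    nlinarith [mem_ball.1 hz, Real.exp_one_lt_d9, Real.exp_pos 1, dist_nonneg (x := z) (y := 0)]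
  refine h2.trans ?_
  rw [sub_eq_add_neg, Real.exp_add, ← mul_neg_one, Real.exp_nat_mul]
  gcongr

theorem log_max_le {x a b : ℝ} (hx : x ≤ Real.exp b) (h : a ≤ b) :
    Real.log (max x (Real.exp a)) ≤ b :=
  (Real.log_le_iff_le_exp ((Real.exp_pos a).trans_le (le_max_right _ _))).2
    (max_le hx (Real.exp_le_exp.2 h))

end OrdA

open OrdA

variable {n : ℕ} {M : Type} [MetricSpace M] [ChartedSpace (Cm n) M]
  [IsManifold 𝓘(ℂ, Cm n) 1 M] [IsManifold 𝓘(ℝ, Cm n) ∞ M]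
  [RiemannianBundle (fun x : M => TangentSpace 𝓘(ℝ, Cm n) x)]
  [IsContMDiffRiemannianBundle 𝓘(ℝ, Cm n) ∞ (Cm n) (fun x : M => TangentSpace 𝓘(ℝ, Cm n) x)]
  [IsRiemannianManifold 𝓘(ℝ, Cm n) M] [CompleteSpace M] [ConnectedSpace M] [NoncompactSpace M]
  [MeasurableSpace M] [BorelSpace M] {μ : Measure M}

theorem ord (a : B1a n M) (h : TC n M) : ORD n μ := by
  intro p F
  have := properSpace_riemannian (Cm n) M
  have hδ := F.δ_pos
  have hC := F.C₂_pos
  have hp := F.e.open_source.mem_nhds F.src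
  have hc := F.e.continuousAt F.src
  rw [ContinuousAt, F.ep] at hc
  obtain ⟨ε, e0, e1, hε⟩ : ∃ ε > (0 : ℝ), ε ≤ 1 ∧ ∀ x, dist x p ≤ ε →
      x ∈ F.e.source ∧ F.e x ∈ ball (0 : Cm n) (F.δ / 3) := by
    obtain ⟨r, r0, hr⟩ := Metric.nhds_basis_closedBall.eventually_iff.1
      (Eventually.and hp (hc.eventually (ball_mem_nhds 0 (by positivity : 0 < F.δ / 3))))
    exact ⟨min r 1, by positivity, min_le_right _ _, fun x hx => hr (hx.trans (min_le_left _ _))⟩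
  have g1 : gb (ε ^ 2) ≤ gb ((3 / 2) ^ 2) := gb_mono (by positivity) (by nlinarith)
  have g2 : gb ((3 / 2) ^ 2) < gb (2 ^ 2) := by
    have := Real.log_le_log (x := (3 / 2) ^ 2) (y := 2 ^ 2) (by norm_num) (by norm_num)
    unfold gb
    linarith
  have g3 := sub_pos.2 (g1.trans_lt g2)
  obtain ⟨θ, hθ⟩ : ∃ θ, θ = 1 - (gb ((3 / 2) ^ 2) - gb (ε ^ 2)) / (gb (2 ^ 2) - gb (ε ^ 2)) :=
    ⟨_, rfl⟩
  have t0 : 0 < θ := by
    rw [hθ, sub_pos, div_lt_one g3]
    exact sub_lt_sub_right g2 _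
  have t1 : θ ≤ 1 := hθ ▸ sub_le_self _ (div_nonneg (sub_nonneg.2 g1) g3.le)
  obtain ⟨C₃, hC₃⟩ := exists_nat_gt (16 * F.C₂ / θ)
  rw [div_lt_iff₀ t0] at hC₃
  refine ⟨C₃, fun m hm s ⟨hs, C, hT⟩ hO => ?_⟩
  by_contra hs0
  have m1 : (1 : ℝ) ≤ m := by exact_mod_cast hm
  have hk : 16 * F.C₂ * m < ((C₃ * m : ℕ) : ℝ) * θ := by
    push_cast
    nlinarith
  have k0 : (0 : ℝ) < (C₃ * m : ℕ) :=
    (mul_pos_iff_of_pos_right t0).1 ((by positivity : 0 < 16 * F.C₂ * m).trans hk)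
  have hj : ∀ z ∈ F.e.target, (jacM F.e (chartAt (Cm n) (F.e.symm z)) (F.e.symm z)).det ≠ 0 :=
    fun z hz => a.jac_ne _ _ F.he (a.chart _) _ (F.e.map_target hz) (mem_chart_source _ _)
  obtain ⟨z₁, hz₁, hz⟩ : ∃ z ∈ closedBall (0 : Cm n) F.δ, co (-m) s F.e z ≠ 0 := by
    by_contra hn
    refine hs0 (a.ident _ s hs p ?_)
    filter_upwards [hp, hc.eventually (closedBall_mem_nhds 0 hδ)] with y h1 h2
    rw [← F.e.left_inv h1]
    exact (mul_eq_zero.1 (not_not.1 fun h3 => hn ⟨_, h2, h3⟩)).resolve_left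
      (zpow_ne_zero _ (hj _ (F.e.map_source h1)))
  obtain ⟨a₀, ha₀⟩ : ∃ a₀, a₀ = ‖co (-m) s F.e z₁‖ * (1 / 2) ^ m := ⟨_, rfl⟩
  have a0 : 0 < a₀ := ha₀ ▸ mul_pos (norm_pos_iff.2 hz) (by positivity)
  obtain ⟨ν, hν, hν'⟩ := ((F.A_top.eventually_ge_atTop ((C - Real.log a₀) / (F.C₂ * m))).and
    (F.A_top.eventually_ge_atTop 0)).exists
  rw [div_le_iff₀ (by positivity)] at hν
  have one : ∀ c : ℂ, IsSec n 0 fun _ : M => c := fun c => (a.sec_zero _).2 mdifferentiable_const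
  have hΩ : ∀ j : ℕ, IsSec n j (F.Ω ν ^ j) := fun j => by
    induction j with
    | zero => exact one 1
    | succ j ih => exact_mod_cast pow_succ (F.Ω ν) j ▸ a.sec_mul _ _ _ _ ih (F.sec ν)
  have hf : IsSec n 0 (s * F.Ω ν ^ m) := neg_add_cancel (m : ℤ) ▸ a.sec_mul _ _ _ _ hs (hΩ m)
  have ef : ∀ z ∈ F.e.target, (s * F.Ω ν ^ m) (F.e.symm z) =
      co (-m) s F.e z * co 1 (F.Ω ν) F.e z ^ m := fun z hz => by
    have := hj z hz
    simp only [co, Pi.mul_apply, Pi.pow_apply, zpow_neg, zpow_natCast, zpow_one, mul_pow]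
    field_simp
  obtain ⟨x₁, hx₁, hmax⟩ := (isCompact_closedBall p (3 / 2)).exists_isMaxOn
    ⟨p, mem_closedBall_self (by norm_num)⟩ ((a.sec_zero _).1 hf).continuous.norm.continuousOn
  obtain ⟨S, hS⟩ : ∃ S, S = ‖(s * F.Ω ν ^ m) x₁‖ := ⟨_, rfl⟩
  rw [isMaxOn_iff, ← hS] at hmax
  have aS : a₀ ≤ S := by
    refine le_trans ?_ (hmax _ ((F.near z₁ hz₁).trans (by norm_num)))
    rw [ef z₁ (F.sub hz₁), norm_mul, norm_pow, ha₀]
    gcongr
    exact F.low ν z₁ hz₁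
  have S0 := a0.trans_le aS
  obtain ⟨g, hg⟩ : ∃ g : M → ℂ, g = (fun _ => ((S⁻¹ : ℝ) : ℂ)) * (s * F.Ω ν ^ m) := ⟨_, rfl⟩
  have sg : IsSec n 0 g := hg ▸ a.sec_mul 0 0 _ _ (one _) hf
  have ng : ∀ x, ‖g x‖ = ‖(s * F.Ω ν ^ m) x‖ / S := fun x => by
    rw [hg, Pi.mul_apply, norm_mul, Complex.norm_real, Real.norm_of_nonneg (inv_pos.2 S0).le,
      div_eq_inv_mul]
  have b2 : ∀ x, dist x p ≤ 2 → ‖g x‖ ≤ Real.exp (16 * F.C₂ * m) := fun x hx => by
    have := F.dom ν _ (4 * F.C₂ * m) (a.psh g sg 1 one_pos)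
      (fun x => Real.log_nonneg (le_max_right _ _))
      (fun x hx => by rw [max_eq_right (ng x ▸ (div_le_one S0).2 (hmax x hx)), Real.log_one])
      (by positivity) (fun x => by
        have t : 0 ≤ tl p (F.R ν) x := le_max_right _ _
        have u := mul_nonneg (by positivity : 0 ≤ F.C₂ * m) t
        have v := mul_nonneg (by positivity : 0 ≤ F.C₂ * m) hν'
        rw [← Real.exp_zero]
        refine log_max_le ?_ (by linarith)
        rw [ng, div_le_iff₀ S0]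
        refine (hT ν x).trans (le_trans ?_ (mul_le_mul_of_nonneg_left aS (Real.exp_pos _).le))
        rw [← Real.exp_log a0, ← Real.exp_add]
        exact Real.exp_le_exp.2 (by linarith)) x hx
    rw [Real.log_le_iff_le_exp (one_pos.trans_le (le_max_right _ _))] at this
    exact (le_max_left _ _).trans (this.trans_eq (by ring_nf))
  have z0 : (0 : Cm n) ∈ F.e.target := F.sub (mem_closedBall_self hδ.le)
  have b1 : ∀ x, dist x p ≤ ε → ‖g x‖ ≤ Real.exp (16 * F.C₂ * m - (C₃ * m : ℕ)) := fun x hx => by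
    rw [← F.e.left_inv (hε x hx).1]
    refine schwarz (G := fun z => g (F.e.symm z)) hδ (fun z hz => ?_)
      (fun z hz => b2 _ ((F.near z (ball_subset_closedBall hz)).trans one_le_two))
      (by exact_mod_cast k0) ?_ (hε x hx).2
    · have := (sg F.e F.he z (F.sub (ball_subset_closedBall hz))).differentiableAt
      unfold co at this
      simpa using this.differentiableWithinAt
    · have h1 := (hO.mul (((F.sec ν F.e F.he 0 z0).continuousAt.pow m).isBigO_one ℝ)).const_mul_left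
        ((S⁻¹ : ℝ) : ℂ)
      simp only [mul_one] at h1
      refine h1.congr' ?_ EventuallyEq.rfl
      filter_upwards [F.e.open_target.mem_nhds z0] with z hz
      rw [hg, Pi.mul_apply, ef z hz, Pi.pow_apply]
  have n1 : ‖g x₁‖ = 1 := by rw [ng, ← hS, div_self S0.ne']
  rcases le_total (dist x₁ p) ε with h1 | h1
  · have := b1 x₁ h1
    rw [n1, Real.one_le_exp_iff] at this
    nlinarith
  · have h2 := h p _ ε 2 (16 * F.C₂ * m - (C₃ * m : ℕ)) (16 * F.C₂ * m)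
      (a.psh g sg _ (Real.exp_pos (16 * F.C₂ * m - (C₃ * m : ℕ)))) e0 (by linarith) (by linarith)
      (fun x hx => log_max_le (b1 x hx.le) le_rfl)
      (fun x hx => log_max_le (b2 x hx.le) (by linarith)) x₁ h1
      ((mem_closedBall.1 hx₁).trans (by norm_num))
    have h3 : (gb (dist x₁ p ^ 2) - gb (ε ^ 2)) / (gb (2 ^ 2) - gb (ε ^ 2)) ≤ 1 - θ := by
      rw [hθ, sub_sub_cancel]
      exact div_le_div_of_nonneg_right (sub_le_sub_right (gb_mono (pow_pos (e0.trans_le h1) 2)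
        (pow_le_pow_left₀ dist_nonneg hx₁ 2)) _) g3.le
    have h4 := Real.log_nonneg (n1.ge.trans
      (le_max_left _ (Real.exp (16 * F.C₂ * m - (C₃ * m : ℕ)))))
    nlinarith

end Vale.Agent.P253Z
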