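import Vale.Agent.P253Z.Defs
import Vale.Agent.P253.R2.H451.GenDefs
import Vale.Agent.P253.R2.H618.Scal
import Mathlib.AlgebraicTopology.FundamentalGroupoid.FundamentalGroup

/-!
# P253Z: statements of the blocks

See notes/P253_T1.md. Every statement is about one manifold `M`; the standing hypotheses are `Ctx`.
-/

open scoped Manifold ContDiff Bundle ENNReal Topology ComplexConjugate ComplexOrder
open Bundle IsManifold MeasureTheory Set Metric Filter Vale.Agent.P253.Mfd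
open Vale.Agent.P272.K (Cm dz dzb cHess jacM Chart)
open Vale.Agent.P253.R2.H451 (ContPsh WeakLevi levi2)
open Vale.Agent.P253.R2.H618 (gb)

noncomputable section

namespace Vale.Agent.P253Z

variable {n : ℕ} {M : Type} [MetricSpace M] [ChartedSpace (Cm n) M]

/-! ### auxiliary definitions -/

variable (n) in
/-- `ψ` is smooth -/
def Sm (ψ : M → ℝ) : Prop :=
  ∀ e : Chart n M, Hc e → ∀ z ∈ e.target, ContDiffAt ℝ ∞ (fun y => ψ (e.symm y)) z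

variable (n) in
/-- `s` is a smooth section of `K^k` -/
def SmSec (k : ℤ) (s : M → ℂ) : Prop :=
  ∀ e : Chart n M, Hc e → ∀ z ∈ e.target, ContDiffAt ℝ ∞ (co k s e) z

/-- the matrix `conj (∂̄_j g) ∂̄_k g` -/
def bb (g : Cm n → ℂ) (z : Cm n) : Matrix (Fin n) (Fin n) ℂ :=
  Matrix.of fun j k => conj (dzb j g z) * dzb k g z

/-- the pull-back `Sᵀ H S̄` -/
def pb (S H : Matrix (Fin n) (Fin n) ℂ) : Matrix (Fin n) (Fin n) ℂ :=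
  S.transpose * H * S.map (starRingEnd ℂ)

/-- `(d(x, p) - R)⁺` -/
def tl (p : M) (R : ℝ) (x : M) : ℝ := max (dist x p - R) 0

variable (n) in
/-- domination: plurisubharmonic functions below the gauge are small on `B(p, 2)` -/
def Dom (p : M) (R A : ℝ) : Prop :=
  ∀ (w : M → ℝ) (l : ℝ), ContPsh (Cm n) w → (∀ x, 0 ≤ w x) → (∀ x ∈ closedBall p (3 / 2), w x = 0) →
    0 < l → (∀ x, w x ≤ l * (A / 2 + tl p R x)) → ∀ x ∈ closedBall p 2, w x ≤ 4 * l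

variable (n M) in
/-- the complement of the zeros of a section of `-NK` is a domain in the smooth part of an affine
hypersurface, etale over `ℂⁿ` -/
def Emb : Prop :=
  ∃ (N : ℕ) (σ : M → ℂ) (Φ : M → Cm n) (g : M → ℂ) (P : Polynomial (MvPolynomial (Fin n) ℂ)),
    IsSec n (-N) σ ∧ σ ≠ 0 ∧ InjOn (fun x => (Φ x, g x)) {x | σ x ≠ 0} ∧ ∀ x, σ x ≠ 0 →
      MDifferentiableAt 𝓘(ℂ, Cm n) 𝓘(ℂ, Cm n) Φ x ∧ MDifferentiableAt 𝓘(ℂ, Cm n) 𝓘(ℂ, ℂ) g x ∧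
      Function.Bijective (mfderiv 𝓘(ℂ, Cm n) 𝓘(ℂ, Cm n) Φ x) ∧
      (P.map (MvPolynomial.eval (Φ x))).eval (g x) = 0 ∧
      (P.derivative.map (MvPolynomial.eval (Φ x))).eval (g x) ≠ 0

variable [RiemannianBundle (fun x : M => TangentSpace 𝓘(ℝ, Cm n) x)]

/-- the weight in the chart `e`: `|s|² e^{-ψ} dμ = |co k s e|² e^{-wt k ψ e} dλ` -/
def wt (k : ℤ) (ψ : M → ℝ) (e : Chart n M) (z : Cm n) : ℝ :=
  (k - 1) * Real.log (vd e z) + ψ (e.symm z)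

/-- the curvature `(1 - k) Ric + i∂∂̄ψ` of `K^(k-1)` with the weight `ψ` -/
def th (k : ℤ) (ψ : M → ℝ) (e : Chart n M) (z : Cm n) : Matrix (Fin n) (Fin n) ℂ :=
  cHess (wt k ψ e) z

variable [MeasurableSpace M]

variable (n) in
/-- the square of the weighted `L²` norm -/
def L2 (μ : Measure M) (k : ℤ) (ψ : M → ℝ) (s : M → ℂ) : ℝ≥0∞ :=
  ∫⁻ x, ENNReal.ofReal (nrm n k s x * Real.exp (-ψ x)) ∂μ

variable (n) in
/-- square integrable holomorphic sections of `-mK` -/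
def InH (μ : Measure M) (m : ℕ) (s : M → ℂ) : Prop :=
  IsSec n (-m) s ∧ ∫⁻ x, ENNReal.ofReal (nrm n (-m) s x) ∂μ < ⊤

variable (n) in
/-- the space of square integrable holomorphic sections of `-mK` -/
def HL (μ : Measure M) (m : ℕ) : Submodule ℂ (M → ℂ) := Submodule.span ℂ {s | InH n μ m s}

variable (n) in
/-- the standing hypotheses -/
structure Ctx (μ : Measure M) : Prop where
  npos : 1 ≤ n
  kahler : IsKahler (Cm n) M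
  pos : ∀ x : M, PosBisectionalAt (Cm n) x
  vol : IsVol n μ

variable (n) in
/-- a family of holomorphic `n`-forms which turn sections of `-mK` into functions below the gauge -/
structure Fr (μ : Measure M) (p : M) where
  C₂ : ℝ
  C₂_pos : 0 < C₂
  R : ℕ → ℝ
  A : ℕ → ℝ
  A_top : Tendsto A atTop atTop
  dom : ∀ ν, Dom n p (R ν) (A ν)
  Ω : ℕ → M → ℂ
  sec : ∀ ν, IsSec n 1 (Ω ν)
  e : Chart n M
  he : Hc e
  src : p ∈ e.source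
  ep : e p = 0
  δ : ℝ
  δ_pos : 0 < δ
  sub : closedBall 0 δ ⊆ e.target
  near : ∀ z ∈ closedBall (0 : Cm n) δ, dist (e.symm z) p ≤ 1
  low : ∀ ν, ∀ z ∈ closedBall (0 : Cm n) δ, 1 / 2 ≤ ‖co 1 (Ω ν) e z‖
  l2 : ∀ m : ℕ, 1 ≤ m → ∀ s, InH n μ m s → ∃ C : ℝ, ∀ ν x,
    ‖s x * Ω ν x ^ m‖ ≤ Real.exp (C + C₂ * m * (A ν + tl p (R ν) x))

/-- tame sections of `-mK` -/
def Fr.Tame {μ : Measure M} {p : M} (F : Fr n μ p) (m : ℕ) : Submodule ℂ (M → ℂ) where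
  carrier := {s | IsSec n (-m) s ∧ ∃ C : ℝ, ∀ ν x,
    ‖s x * F.Ω ν x ^ m‖ ≤ Real.exp (C + F.C₂ * m * (F.A ν + tl p (F.R ν) x))}
  zero_mem' := ⟨fun e _ z _ => by
    have : co (-m) (0 : M → ℂ) e = fun _ => 0 := by funext z; simp [co]
    rw [this]; exact analyticAt_const, 0, fun ν x => by simp [(Real.exp_pos _).le]⟩
  add_mem' := by
    rintro a b ⟨ha, C, hC⟩ ⟨hb, D, hD⟩
    refine ⟨fun e he z hz => ?_, max C D + 1, fun ν x => ?_⟩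
    · have : co (-m) (a + b) e = co (-m) a e + co (-m) b e := by funext z; simp [co, mul_add]
      rw [this]; exact (ha e he z hz).add (hb e he z hz)
    · set X := F.C₂ * m * (F.A ν + tl p (F.R ν) x)
      have h1 : Real.exp (C + X) ≤ Real.exp (max C D + X) := by gcongr; exact le_max_left _ _
      have h2 : Real.exp (D + X) ≤ Real.exp (max C D + X) := by gcongr; exact le_max_right _ _
      have h3 : Real.exp (max C D + 1 + X) = Real.exp (max C D + X) * Real.exp 1 := by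
        rw [← Real.exp_add]; congr 1; ring
      have h4 : (2 : ℝ) ≤ Real.exp 1 := by linarith [Real.add_one_le_exp (1 : ℝ)]
      have h5 := Real.exp_pos (max C D + X)
      calc ‖(a + b) x * F.Ω ν x ^ m‖ = ‖a x * F.Ω ν x ^ m + b x * F.Ω ν x ^ m‖ := by
            rw [Pi.add_apply, add_mul]
        _ ≤ _ := norm_add_le _ _
        _ ≤ _ := by rw [h3]; nlinarith [hC ν x, hD ν x]
  smul_mem' := by
    rintro c a ⟨ha, C, hC⟩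
    refine ⟨fun e he z hz => ?_, C + ‖c‖, fun ν x => ?_⟩
    · have : co (-m) (c • a) e = fun z => c * co (-m) a e z := by
        funext z; simp [co]; ring
      rw [this]; exact analyticAt_const.mul (ha e he z hz)
    · set X := F.C₂ * m * (F.A ν + tl p (F.R ν) x)
      have h3 : Real.exp (C + ‖c‖ + X) = Real.exp ‖c‖ * Real.exp (C + X) := by
        rw [← Real.exp_add]; congr 1; ring
      have h4 : ‖c‖ ≤ Real.exp ‖c‖ := by linarith [Real.add_one_le_exp ‖c‖]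
      rw [h3, Pi.smul_apply, smul_eq_mul, mul_assoc, norm_mul]
      exact mul_le_mul h4 (hC ν x) (norm_nonneg _) (Real.exp_pos _).le

/-! ### the blocks -/

variable (n M) in
/-- **B1a**: charts and sections -/
structure B1a : Prop where
  chart : ∀ x : M, Hc (chartAt (Cm n) x)
  hol : ∀ e e' : Chart n M, Hc e → Hc e' → ∀ z ∈ e.target, e.symm z ∈ e'.source →
    AnalyticAt ℂ (fun y => e' (e.symm y)) z
  aff : ∀ e : Chart n M, Hc e → ∀ (L : Cm n ≃L[ℂ] Cm n) (b : Cm n), ∃ e' : Chart n M, Hc e' ∧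
    e'.source = e.source ∧ e'.target = {z | L.symm z + b ∈ e.target} ∧
    (∀ x, e' x = L (e x - b)) ∧ (∀ z, e'.symm z = e.symm (L.symm z + b)) ∧
    ∀ x ∈ e.source, jacM e e' x = LinearMap.toMatrix' (L : Cm n →ₗ[ℂ] Cm n)
  restr : ∀ e : Chart n M, Hc e → ∀ U, IsOpen U → Hc (e.restr U)
  jac_eq : ∀ e e' : Chart n M, Hc e → Hc e' → ∀ x ∈ e.source, x ∈ e'.source → jacM e e' x =
    LinearMap.toMatrix' (fderiv ℂ (fun y => e' (e.symm y)) (e x) : Cm n →ₗ[ℂ] Cm n)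
  jac_self : ∀ e : Chart n M, ∀ x ∈ e.source, jacM e e x = 1
  jac_mul : ∀ e e' e'' : Chart n M, Hc e → Hc e' → Hc e'' → ∀ x ∈ e.source, x ∈ e'.source →
    x ∈ e''.source → jacM e e'' x = jacM e' e'' x * jacM e e' x
  jac_ne : ∀ e e' : Chart n M, Hc e → Hc e' → ∀ x ∈ e.source, x ∈ e'.source →
    (jacM e e' x).det ≠ 0
  jac_an : ∀ e e' : Chart n M, Hc e → Hc e' → ∀ z ∈ e.target, e.symm z ∈ e'.source →
    AnalyticAt ℂ (fun y => (jacM e e' (e.symm y)).det) z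
  co_self : ∀ (k : ℤ) (s : M → ℂ) (x : M), co k s (chartAt (Cm n) x) (chartAt (Cm n) x x) = s x
  co_ch : ∀ (k : ℤ) (s : M → ℂ) (e e' : Chart n M), Hc e → Hc e' → ∀ x ∈ e.source, x ∈ e'.source →
    co k s e (e x) = (jacM e e' x).det ^ k * co k s e' (e' x)
  co_mul : ∀ (k l : ℤ) (s t : M → ℂ) (e : Chart n M), Hc e → ∀ z ∈ e.target,
    co (k + l) (s * t) e z = co k s e z * co l t e z
  /-- the section with the coefficient `σ` in the chart `e`, zero outside -/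
  ext : ∀ (k : ℤ) (e : Chart n M), Hc e → ∀ σ : Cm n → ℂ, ∃ s : M → ℂ,
    (∀ x ∉ e.source, s x = 0) ∧ ∀ z ∈ e.target, co k s e z = σ z
  sec_loc : ∀ (k : ℤ) (s : M → ℂ), (∀ x, ∃ e : Chart n M, Hc e ∧ x ∈ e.source ∧
    AnalyticAt ℂ (co k s e) (e x)) → IsSec n k s
  smSec_loc : ∀ (k : ℤ) (s : M → ℂ), (∀ x, ∃ e : Chart n M, Hc e ∧ x ∈ e.source ∧
    ContDiffAt ℝ ∞ (co k s e) (e x)) → SmSec n k s
  sm_loc : ∀ ψ : M → ℝ, (∀ x, ∃ e : Chart n M, Hc e ∧ x ∈ e.source ∧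
    ContDiffAt ℝ ∞ (fun y => ψ (e.symm y)) (e x)) → Sm n ψ
  sm_cont : ∀ ψ : M → ℝ, Sm n ψ → Continuous ψ
  sec_zero : ∀ f : M → ℂ, IsSec n 0 f ↔ MDifferentiable 𝓘(ℂ, Cm n) 𝓘(ℂ, ℂ) f
  sec_mul : ∀ (k l : ℤ) (s t : M → ℂ), IsSec n k s → IsSec n l t → IsSec n (k + l) (s * t)
  ident : ∀ (k : ℤ) (s : M → ℂ), IsSec n k s → ∀ x, (∀ᶠ y in 𝓝 x, s y = 0) → s = 0
  /-- `log max (|f|, a)` is plurisubharmonic -/
  psh : ∀ f : M → ℂ, IsSec n 0 f → ∀ a : ℝ, 0 < a →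
    ContPsh (Cm n) fun x => Real.log (max ‖f x‖ a)

variable (n M) in
/-- **B1b**: the metric in charts -/
structure B1b : Prop where
  wsm : ∀ e : Chart n M, Hc e → ∀ z ∈ e.target, ∀ j k, ContDiffAt ℝ ∞ (fun y => hm e y j k) z
  wpos : ∀ e : Chart n M, Hc e → ∀ z ∈ e.target, (hm e z).PosDef
  wcl : ∀ e : Chart n M, Hc e → ∀ z ∈ e.target, ∀ j k l,
    dz l (fun y => hm e y j k) z = dz j (fun y => hm e y l k) z
  wch : ∀ e e' : Chart n M, Hc e → Hc e' → ∀ x ∈ e.source, x ∈ e'.source →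
    hm e (e x) = pb (jacM e e' x) (hm e' (e' x))
  quad : ∀ e : Chart n M, Hc e → ∀ z ∈ e.target, ∀ v : Cm n,
    chartMetric e z v v = (∑ j, ∑ k, hm e z j k * (v j * conj (v k))).re
  vd_pos : ∀ e : Chart n M, Hc e → ∀ z ∈ e.target, 0 < vd e z
  vd_sm : ∀ e : Chart n M, Hc e → ∀ z ∈ e.target, ContDiffAt ℝ ∞ (vd e) z
  vd_ch : ∀ e e' : Chart n M, Hc e → Hc e' → ∀ x ∈ e.source, x ∈ e'.source →
    vd e (e x) = ‖(jacM e e' x).det‖ ^ 2 * vd e' (e' x)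
  nrm_eq : ∀ (k : ℤ) (s : M → ℂ) (e : Chart n M), Hc e → ∀ z ∈ e.target,
    nrm n k s (e.symm z) = ‖co k s e z‖ ^ 2 * vd e z ^ (-k)
  nrm_wt : ∀ (k : ℤ) (ψ : M → ℝ) (s : M → ℂ) (e : Chart n M), Hc e → ∀ z ∈ e.target,
    nrm n k s (e.symm z) * Real.exp (-ψ (e.symm z)) * vd e z =
      ‖co k s e z‖ ^ 2 * Real.exp (-wt k ψ e z)
  nrm_cont : ∀ (k : ℤ) (s : M → ℂ), SmSec n k s → Continuous (nrm n k s)
  levi : ∀ (N : Cm n → ℝ) (z v : Cm n), ContDiffAt ℝ 2 N z →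
    levi2 N z v = 4 * (∑ j, ∑ k, cHess N z j k * (v j * conj (v k))).re
  herm : ∀ (N : Cm n → ℝ) (z : Cm n), ContDiffAt ℝ 2 N z → (cHess N z).IsHermitian
  psd : ∀ H : Matrix (Fin n) (Fin n) ℂ, H.IsHermitian →
    (H.PosSemidef ↔ ∀ v : Cm n, 0 ≤ (∑ j, ∑ k, H j k * (v j * conj (v k))).re)
  th_ch : ∀ (k : ℤ) (ψ : M → ℝ), Sm n ψ → ∀ e e' : Chart n M, Hc e → Hc e' → ∀ x ∈ e.source,
    x ∈ e'.source → th k ψ e (e x) = pb (jacM e e' x) (th k ψ e' (e' x))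
  th_eq : ∀ (k : ℤ) (ψ : M → ℝ), Sm n ψ → ∀ e : Chart n M, Hc e → ∀ z ∈ e.target,
    th k ψ e z = ((1 - k : ℝ) : ℂ) • ric e z + cHess (fun y => ψ (e.symm y)) z
  ric_ch : ∀ e e' : Chart n M, Hc e → Hc e' → ∀ x ∈ e.source, x ∈ e'.source →
    ric e (e x) = pb (jacM e e' x) (ric e' (e' x))
  ricDen_eq : ∀ e : Chart n M, Hc e → ∀ z ∈ e.target,
    ricDen n (e.symm z) = (ric e z).det.re / vd e z
  ricDen_cont : Continuous (ricDen n : M → ℝ)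

variable (n M) in
/-- **B2**: the Ricci form is positive -/
def B2 : Prop := ∀ e : Chart n M, Hc e → ∀ z ∈ e.target, (ric e z).PosDef

variable (n) in
/-- **B3**: the volume -/
structure B3 (μ : Measure M) : Prop where
  fin : ∀ K, IsCompact K → μ K < ⊤
  pos : ∀ U, IsOpen U → U.Nonempty → 0 < μ U
  loc : ∀ e : Chart n M, Hc e → ∀ S : Set (Cm n), MeasurableSet S → S ⊆ e.target →
    ∀ f : M → ℝ≥0∞, Measurable f →
    ∫⁻ x in e.symm '' S, f x ∂μ = ∫⁻ z in S, f (e.symm z) * ENNReal.ofReal (vd e z)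
  /-- the weighted norm on a piece of a chart -/
  l2 : ∀ (k : ℤ) (ψ : M → ℝ) (s : M → ℂ), Continuous ψ → SmSec n k s → ∀ e : Chart n M, Hc e →
    ∀ S : Set (Cm n), MeasurableSet S → S ⊆ e.target →
    ∫⁻ z in S, ENNReal.ofReal (‖co k s e z‖ ^ 2 * Real.exp (-wt k ψ e z)) ≤ L2 n μ k ψ s ∧
    ((∀ x ∉ e.symm '' S, s x = 0) →
      L2 n μ k ψ s = ∫⁻ z in S, ENNReal.ofReal (‖co k s e z‖ ^ 2 * Real.exp (-wt k ψ e z)))
  add : ∀ (k : ℤ) (ψ : M → ℝ) (s t : M → ℂ), Continuous ψ → SmSec n k s → SmSec n k t →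
    L2 n μ k ψ (s + t) ≤ 2 * L2 n μ k ψ s + 2 * L2 n μ k ψ t
  mem : ∀ m s, s ∈ HL n μ m ↔ InH n μ m s

variable (n M) in
/-- **EXH**: a smooth exhaustion with bounded gradient -/
def EXH : Prop :=
  ∃ (η : M → ℝ) (K : ℝ), Sm n η ∧ (∀ x, 0 ≤ η x) ∧ (∀ c, IsCompact {x | η x ≤ c}) ∧
    ∀ e : Chart n M, Hc e → ∀ z ∈ e.target, ((K : ℂ) • hm e z -
      Matrix.of fun j k => dz j (fun y => (η (e.symm y) : ℂ)) z *
        conj (dz k (fun y => (η (e.symm y) : ℂ)) z)).PosSemidef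

variable (n) in
/-- **BG**: volume comparison -/
def BG (μ : Measure M) : Prop :=
  ∃ C : ℝ, 1 ≤ C ∧ ∀ (x : M) (s t : ℝ), 0 < s → s ≤ t →
    μ.real (ball x t) ≤ C * (t / s) ^ (2 * n) * μ.real (ball x s)

variable (n M) in
/-- **TC**: three circles -/
def TC : Prop :=
  ∀ (p : M) (u : M → ℝ) (a b α β : ℝ), ContPsh (Cm n) u → 0 < a → a < b → α ≤ β →
    (∀ x, dist x p = a → u x ≤ α) → (∀ x, dist x p = b → u x ≤ β) →
    ∀ x, a ≤ dist x p → dist x p ≤ b →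
      u x ≤ α + (β - α) * ((gb (dist x p ^ 2) - gb (a ^ 2)) / (gb (b ^ 2) - gb (a ^ 2)))

variable (n M) in
/-- **SUP**: the sup-convolution of a plurisubharmonic function -/
def SUP : Prop :=
  ∀ p : M, ∃ κ : ℝ, 0 < κ ∧ ∀ (v : M → ℝ) (A : ℝ), ContPsh (Cm n) v → (∀ x, 0 ≤ v x) →
    (∀ x ∈ closedBall p (3 / 2), v x = 0) → (∃ y ∈ closedBall p 2, 4 ≤ v y) →
    (∀ x, v x ≤ A + dist x p) →
    ContPsh (Cm n) (fun x => ⨆ y, (v y - 6 / 5 * dist x y)) ∧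
    WeakLevi (Cm n) (fun x => ⨆ y, (v y - 6 / 5 * dist x y)) (fun _ => κ) (ball p (1 / 4))

variable (n M) in
/-- **BUS**: the Busemann function -/
def BUS : Prop :=
  ∀ p : M, ∃ b c : M → ℝ, ContPsh (Cm n) b ∧ (∀ x, |b x| ≤ dist x p) ∧ Continuous c ∧
    (∀ x, 0 < c x) ∧ WeakLevi (Cm n) b c univ

variable (n M) in
/-- **WT**: the weights -/
def WT : Prop :=
  ∀ p : M, ∃ κ : ℝ, 0 < κ ∧ ∀ R : ℝ, 2 ≤ R → ∃ (A : ℝ) (W c : M → ℝ), Real.log R ≤ A ∧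
    Dom n p R A ∧ Continuous c ∧ (∀ x, 0 < c x) ∧ (∀ x ∈ closedBall p (1 / 8), κ ≤ c x) ∧
    WeakLevi (Cm n) W c univ ∧ (∀ x, |W x| ≤ 2 * dist x p) ∧ ∀ x, W x ≤ A + 2 + 2 * tl p R x

variable (n M) in
/-- **RB**: Richberg -/
def RB : Prop :=
  ∀ u c : M → ℝ, Continuous c → (∀ x, 0 < c x) → WeakLevi (Cm n) u c univ →
    ∃ u' : M → ℝ, Sm n u' ∧ (∀ x, |u' x - u x| ≤ 1) ∧ ∀ e : Chart n M, Hc e → ∀ z ∈ e.target,
      (cHess (fun y => u' (e.symm y)) z - ((c (e.symm z) / 2 : ℝ) : ℂ) • hm e z).PosSemidef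

variable (n) in
/-- **HOR**: Hörmander's theorem for sections of `K^k` -/
def HOR (μ : Measure M) : Prop :=
  ∀ (k : ℤ) (ψ : M → ℝ), Sm n ψ → (∀ e : Chart n M, Hc e → ∀ z ∈ e.target, (th k ψ e z).PosSemidef) →
    ∀ s₀ : M → ℂ, SmSec n k s₀ → L2 n μ k ψ s₀ < ⊤ → ∀ (Λ : M → ℝ) (C₀ : ℝ), (∀ x, 0 ≤ Λ x) →
    0 ≤ C₀ → (∀ x, ∃ e : Chart n M, Hc e ∧ x ∈ e.source ∧
      (((Λ x * Real.exp (wt k ψ e (e x)) * vd e (e x) : ℝ) : ℂ) • th k ψ e (e x) -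
        bb (co k s₀ e) (e x)).PosSemidef) →
    ∫⁻ x, ENNReal.ofReal (Λ x) ∂μ ≤ ENNReal.ofReal C₀ →
    ∃ s : M → ℂ, IsSec n k s ∧ L2 n μ k ψ (s - s₀) ≤ ENNReal.ofReal C₀

variable (n) in
/-- **HJ**: sections with approximately given jets at finitely many points -/
def HJ (μ : Measure M) : Prop :=
  ∃ Λ : ℝ, 0 < Λ ∧ ∀ (N : ℕ) (B η : ℝ), 0 < η → ∃ C δ : ℝ, 0 < C ∧ 0 < δ ∧ δ ≤ 1 ∧
    ∀ (k : ℤ) (ψ : M → ℝ), Sm n ψ →
    (∀ e : Chart n M, Hc e → ∀ z ∈ e.target, (th k ψ e z).PosSemidef) →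
    ∀ (e : Fin N → Chart n M) (h g : Fin N → Cm n → ℂ), (∀ i, Hc (e i)) →
    (∀ i, closedBall 0 2 ⊆ (e i).target) →
    (∀ i j, i ≠ j → Disjoint ((e i).symm '' closedBall 0 2) ((e j).symm '' closedBall 0 2)) →
    (∀ i, ∀ z ∈ closedBall (0 : Cm n) 2, (th k ψ (e i) z - (Λ : ℂ) • 1).PosSemidef ∧
      AnalyticAt ℂ (h i) z ∧ AnalyticAt ℂ (g i) z ∧ h i z ≠ 0 ∧ ‖g i z‖ ≤ 2 ∧
      |Real.log (‖h i z‖ ^ 2) - wt k ψ (e i) z| ≤ B) →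
    ∃ s : M → ℂ, IsSec n k s ∧ L2 n μ k ψ s ≤ ENNReal.ofReal C ∧ ∀ i,
      (∀ z ∈ closedBall (0 : Cm n) δ, ‖co k s (e i) z / h i z - g i z‖ ≤ η) ∧
      ‖fderiv ℂ (fun z => co k s (e i) z / h i z - g i z) 0‖ ≤ η

variable (n M) in
/-- **SCH**: the local Schwarz lemma -/
def SCH : Prop :=
  ∃ C : ℝ, 0 < C ∧ ∀ f : M → ℂ, IsSec n 0 f → ∀ (x : M) (r A : ℝ), 0 < r →
    (∀ y ∈ ball x r, ‖f y‖ ≤ A) → ∀ y ∈ ball x (r / 2), ‖f y - f x‖ ≤ C * A * dist y x / r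

variable (n) in
/-- **MV**: the mean value inequality -/
def MV (μ : Measure M) : Prop :=
  ∃ C : ℝ, 0 < C ∧ ∀ f : M → ℂ, IsSec n 0 f → ∀ (x : M) (r q : ℝ), 0 < r → 0 < q → q ≤ 1 →
    ENNReal.ofReal (‖f x‖ ^ q) * μ (ball x r) ≤
      ENNReal.ofReal (C * (1 / q) ^ (2 * n)) * ∫⁻ y in ball x r, ENNReal.ofReal (‖f y‖ ^ q) ∂μ

variable (n) in
/-- **GR**: growth of `s Ω^m` -/
def GR (μ : Measure M) : Prop :=
  ∀ (p : M) (m : ℕ), 1 ≤ m → ∀ s, InH n μ m s → ∀ C₁ : ℝ, ∃ C : ℝ, ∀ (Ω : M → ℂ) (ψ : M → ℝ),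
    IsSec n 1 Ω → Continuous ψ → L2 n μ 1 ψ Ω ≤ ENNReal.ofReal C₁ → ∀ (x : M) (T : ℝ), 0 ≤ T →
    (∀ y ∈ ball x 1, ψ y ≤ T) →
    ‖s x * Ω x ^ m‖ ≤ Real.exp (C + m * (T + 2 * n * Real.log (dist x p + 1)))

variable (n) in
/-- **FR**: existence of frames -/
def FR (μ : Measure M) : Prop := ∀ p : M, Nonempty (Fr n μ p)

variable (n) in
/-- **ORD**: the order of vanishing of tame sections -/
def ORD (μ : Measure M) : Prop :=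
  ∀ (p : M) (F : Fr n μ p), ∃ C₃ : ℕ, ∀ m : ℕ, 1 ≤ m → ∀ s ∈ F.Tame m,
    (co (-m) s F.e =O[𝓝 0] fun z => ‖z‖ ^ (C₃ * m)) → s = 0

/-- **JET**: counting jets -/
def JET : Prop :=
  ∀ (n k : ℕ) (V : Type) [AddCommGroup V] [Module ℂ V] (T : V →ₗ[ℂ] (Cm n → ℂ)),
    (∀ v, AnalyticAt ℂ (T v) 0) → (∀ v, (T v =O[𝓝 0] fun z => ‖z‖ ^ k) → v = 0) →
    Module.Finite ℂ V ∧ Module.finrank ℂ V ≤ k ^ n

variable (n) in
/-- **PK1**: peak sections -/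
def PK1 (μ : Measure M) : Prop :=
  ∃ c : ℝ, 0 < c ∧ ∀ x : M, ∀ᶠ m : ℕ in atTop, ∃ s, IsSec n (-m) s ∧
    ∫⁻ y, ENNReal.ofReal (nrm n (-m) s y) ∂μ ≤ 1 ∧ c * m ^ n * ricDen n x ≤ nrm n (-m) s x

variable (n) in
/-- **PK2**: separation of points -/
def PK2 (μ : Measure M) : Prop :=
  ∀ x y : M, x ≠ y → ∃ m : ℕ, 1 ≤ m ∧ ∃ a b, InH n μ m a ∧ InH n μ m b ∧ a x = 0 ∧ a y ≠ 0 ∧
    b x ≠ 0 ∧ b y ≠ 0

variable (n) in
/-- **PK3**: local coordinates -/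
def PK3 (μ : Measure M) : Prop :=
  ∀ x : M, ∃ e : Chart n M, Hc e ∧ x ∈ e.source ∧ ∃ m : ℕ, 1 ≤ m ∧
    ∃ (s₀ : M → ℂ) (s : Fin n → M → ℂ), InH n μ m s₀ ∧ (∀ i, InH n μ m (s i)) ∧ s₀ x ≠ 0 ∧
      Function.Bijective (fderiv ℂ (fun z i => s i (e.symm z) / s₀ (e.symm z)) (e x))

variable (n) in
/-- **BER**: the Bergman function -/
def BER (μ : Measure M) : Prop :=
  (∃ C : ℝ, ∀ m : ℕ, 1 ≤ m → Module.Finite ℂ (HL n μ m) ∧
    (Module.finrank ℂ (HL n μ m) : ℝ) ≤ C * m ^ n) → PK1 n μ →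
  ∫⁻ x, ENNReal.ofReal (ricDen n x) ∂μ < ⊤ ∧
    ∃ c : ℝ, 0 < c ∧ ∀ᶠ m : ℕ in atTop, c * m ^ n ≤ Module.finrank ℂ (HL n μ m)

variable (n) in
/-- **ISO**: bounded orbits -/
def ISO (μ : Measure M) : Prop :=
  ∫⁻ x, ENNReal.ofReal (ricDen n x) ∂μ < ⊤ →
    ∀ x : M, ∃ R : ℝ, ∀ φ : M ≃ M, HolIso n φ → dist (φ x) x ≤ R

variable (n M) in
/-- **V**: Siegel-Thimm -/
def VS : Prop :=
  ∀ T : ℕ → Submodule ℂ (M → ℂ), (∀ m, ∀ s ∈ T m, IsSec n (-m) s) → 1 ∈ T 0 →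
    (∀ m l, ∀ s ∈ T m, ∀ t ∈ T l, s * t ∈ T (m + l)) →
    (∃ C : ℝ, ∀ m : ℕ, 1 ≤ m → Module.Finite ℂ (T m) ∧
      (Module.finrank ℂ (T m) : ℝ) ≤ C * m ^ n) →
    (∀ x y : M, x ≠ y → ∃ m : ℕ, 1 ≤ m ∧ ∃ a ∈ T m, ∃ b ∈ T m, a x = 0 ∧ a y ≠ 0 ∧
      b x ≠ 0 ∧ b y ≠ 0) →
    (∃ (x : M) (e : Chart n M), Hc e ∧ x ∈ e.source ∧ ∃ m : ℕ, 1 ≤ m ∧
      ∃ (s₀ : M → ℂ) (s : Fin n → M → ℂ), s₀ ∈ T m ∧ (∀ i, s i ∈ T m) ∧ s₀ x ≠ 0 ∧
      Function.Bijective (fderiv ℂ (fun z i => s i (e.symm z) / s₀ (e.symm z)) (e x))) →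
    Emb n M

variable (n M) in
/-- **COV**: the universal covering -/
def COV : Prop :=
  ∃ (N : Type) (_ : MetricSpace N) (_ : ChartedSpace (Cm n) N) (_ : IsManifold 𝓘(ℂ, Cm n) 1 N)
    (_ : IsManifold 𝓘(ℝ, Cm n) ∞ N)
    (_ : RiemannianBundle fun x : N => TangentSpace 𝓘(ℝ, Cm n) x)
    (_ : IsContMDiffRiemannianBundle 𝓘(ℝ, Cm n) ∞ (Cm n) fun x : N => TangentSpace 𝓘(ℝ, Cm n) x)
    (_ : IsRiemannianManifold 𝓘(ℝ, Cm n) N), CompleteSpace N ∧ ConnectedSpace N ∧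
    NoncompactSpace N ∧ IsKahler (Cm n) N ∧ (∀ y : N, PosBisectionalAt (Cm n) y) ∧
    ∀ x : M, ∃ (y : N) (ι : FundamentalGroup M x → N ≃ N), (∀ γ, HolIso n (ι γ)) ∧
      ∀ R : ℝ, {γ | dist (ι γ y) y ≤ R}.Finite

end Vale.Agent.P253Z
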