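import Vale.Agent.P253Z.Spec
import Vale.Agent.P253.Bdl.B2
import Vale.Agent.P284.H286.K.Meas

/-!
# P253Z, block B3: the volume
-/

open scoped Manifold ContDiff Bundle ENNReal Topology ComplexConjugate ComplexOrder
open Bundle IsManifold MeasureTheory Set Metric Filter Vale.Agent.P253.Mfd
open Vale.Agent.P272.K (Cm dz dzb cHess jacM Chart)

noncomputable section

namespace Vale.Agent.P253Z

namespace B3Aux

variable {n : ℕ} {M : Type} [MetricSpace M] [ChartedSpace (Cm n) M]

omit [ChartedSpace (Cm n) M] in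
theorem meas_symm_image [MeasurableSpace M] [BorelSpace M] (e : Chart n M) {S : Set (Cm n)}
    (hS : MeasurableSet S) (hs : S ⊆ e.target) : MeasurableSet (e.symm '' S) := by
  classical
  have hg : Measurable (e.source.piecewise e fun _ => (0 : Cm n)) :=
    ContinuousOn.measurable_piecewise e.continuousOn continuousOn_const
      e.open_source.measurableSet
  rw [e.symm_image_eq_source_inter_preimage hs]
  have : e.source ∩ e ⁻¹' S = e.source ∩ (e.source.piecewise e fun _ => (0 : Cm n)) ⁻¹' S := by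
    ext x
    refine and_congr_right fun hx => ?_
    rw [mem_preimage, mem_preimage, piecewise_eq_of_mem _ _ _ hx]
  rw [this]
  exact e.open_source.measurableSet.inter (hg hS)

theorem smSec_of {k : ℤ} {s : M → ℂ} (h : IsSec n k s) : SmSec n k s := fun e he z hz =>
  ((h e he z hz).contDiffAt).restrict_scalars ℝ

theorem co_add (k : ℤ) (s t : M → ℂ) (e : Chart n M) : co k (s + t) e = co k s e + co k t e := by
  funext z
  simp [co, mul_add]

theorem co_smul (k : ℤ) (c : ℂ) (s : M → ℂ) (e : Chart n M) :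
    co k (c • s) e = fun z => c * co k s e z := by
  funext z
  simp only [co, Pi.smul_apply, smul_eq_mul]
  ring

variable [RiemannianBundle (fun x : M => TangentSpace 𝓘(ℝ, Cm n) x)]

theorem vd_contOn (b : B1b n M) {e : Chart n M} (he : Hc e) : ContinuousOn (vd e) e.target :=
  fun z hz => (b.vd_sm e he z hz).continuousAt.continuousWithinAt

theorem nrm_add (a : B1a n M) (b : B1b n M) (k : ℤ) (s t : M → ℂ) (x : M) :
    nrm n k (s + t) x ≤ 2 * nrm n k s x + 2 * nrm n k t x := by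
  have h0 : 0 ≤ vd (chartAt (Cm n) x) (chartAt (Cm n) x x) ^ (-k) :=
    zpow_nonneg (b.vd_pos _ (a.chart x) _ (mem_chart_target _ x)).le _
  have h1 : ‖s x + t x‖ ^ 2 ≤ 2 * ‖s x‖ ^ 2 + 2 * ‖t x‖ ^ 2 := by
    have h2 := pow_le_pow_left₀ (norm_nonneg _) (norm_add_le (s x) (t x)) 2
    nlinarith [sq_nonneg (‖s x‖ - ‖t x‖)]
  unfold nrm
  rw [Pi.add_apply]
  nlinarith [mul_le_mul_of_nonneg_right h1 h0]

variable [MeasurableSpace M] [BorelSpace M] {μ : Measure M}

theorem loc (hv : IsVol n μ) (e : Chart n M) (he : Hc e) (S : Set (Cm n)) (hS : MeasurableSet S)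
    (hs : S ⊆ e.target) (f : M → ℝ≥0∞) (hf : Measurable f) :
    ∫⁻ x in e.symm '' S, f x ∂μ = ∫⁻ z in S, f (e.symm z) * ENNReal.ofReal (vd e z) := by
  have hm := meas_symm_image e hS hs
  have h0 : ∀ x ∉ e.source, (e.symm '' S).indicator f x = 0 := fun x hx => by
    refine indicator_of_notMem ?_ _
    rintro ⟨z, hz, rfl⟩
    exact hx (e.map_target (hs hz))
  rw [← lintegral_indicator hm, hv e he _ (hf.indicator hm) h0]
  conv_rhs => rw [← inter_eq_self_of_subset_left hs, ← setLIntegral_indicator hS]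
  refine setLIntegral_congr_fun e.open_target.measurableSet fun z hz => ?_
  by_cases hzS : z ∈ S
  · rw [indicator_of_mem hzS, indicator_of_mem (mem_image_of_mem _ hzS)]
  · have h2 : e.symm z ∉ e.symm '' S := fun ⟨y, hy, h⟩ =>
      hzS (e.symm.injOn (hs hy) hz h ▸ hy)
    rw [indicator_of_notMem hzS, indicator_of_notMem h2, zero_mul]

theorem meas_eq (hv : IsVol n μ) (e : Chart n M) (he : Hc e) (S : Set (Cm n))
    (hS : MeasurableSet S) (hs : S ⊆ e.target) :
    μ (e.symm '' S) = ∫⁻ z in S, ENNReal.ofReal (vd e z) := by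
  have h := loc hv e he S hS hs (fun _ => 1) measurable_const
  simpa using h

theorem fin (hv : IsVol n μ) (a : B1a n M) (b : B1b n M) (K : Set M) (hK : IsCompact K) :
    μ K < ⊤ := by
  refine hK.measure_lt_top_of_nhdsWithin fun x _ => ?_
  let e : Chart n M := chartAt (Cm n) x
  have hx : e x ∈ e.target := mem_chart_target _ x
  obtain ⟨r, hr, hs⟩ := nhds_basis_closedBall.mem_iff.1 (e.open_target.mem_nhds hx)
  refine ⟨e.symm '' closedBall (e x) r, mem_nhdsWithin_of_mem_nhds ?_, ?_⟩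
  · have h := e.symm.image_mem_nhds hx (closedBall_mem_nhds (e x) hr)
    rwa [e.left_inv (mem_chart_source _ x)] at h
  · rw [meas_eq hv e (a.chart x) _ measurableSet_closedBall hs]
    obtain ⟨C, hC⟩ := (isCompact_closedBall (e x) r).bddAbove_image
      ((vd_contOn b (a.chart x)).mono hs)
    refine setLIntegral_lt_top_of_le_nnreal measure_closedBall_lt_top.ne
      ⟨C.toNNReal, fun z hz => ?_⟩
    exact ENNReal.ofReal_le_ofReal (hC (mem_image_of_mem _ hz))

theorem pos (hv : IsVol n μ) (a : B1a n M) (b : B1b n M) (U : Set M) (hU : IsOpen U)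
    (hne : U.Nonempty) : 0 < μ U := by
  obtain ⟨x, hx⟩ := hne
  let e : Chart n M := chartAt (Cm n) x
  have hS : IsOpen (e.target ∩ e.symm ⁻¹' U) := e.isOpen_inter_preimage_symm hU
  have hxS : e x ∈ e.target ∩ e.symm ⁻¹' U := ⟨mem_chart_target _ x, by
    rw [mem_preimage, e.left_inv (mem_chart_source _ x)]; exact hx⟩
  have hsub : e.symm '' (e.target ∩ e.symm ⁻¹' U) ⊆ U := by
    rintro _ ⟨z, hz, rfl⟩
    exact hz.2
  refine lt_of_lt_of_le ?_ (measure_mono hsub)
  rw [meas_eq hv e (a.chart x) _ hS.measurableSet inter_subset_left, pos_iff_ne_zero]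
  intro h0
  have hm : AEMeasurable (fun z => ENNReal.ofReal (vd e z))
      (volume.restrict (e.target ∩ e.symm ⁻¹' U)) :=
    (((vd_contOn b (a.chart x)).mono inter_subset_left).aemeasurable
      hS.measurableSet).ennreal_ofReal
  have h1 := (ae_restrict_iff' hS.measurableSet).1 ((lintegral_eq_zero_iff' hm).1 h0)
  have h2 : volume (e.target ∩ e.symm ⁻¹' U) = 0 := by
    refine measure_eq_zero_iff_ae_notMem.2 (h1.mono fun z hz hzS => ?_)
    exact (ENNReal.ofReal_pos.2 (b.vd_pos e (a.chart x) z hzS.1)).ne' (hz hzS)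
  exact (hS.measure_pos volume ⟨_, hxS⟩).ne' h2

theorem meas_nrm (b : B1b n M) {k : ℤ} {ψ : M → ℝ} {s : M → ℂ} (hψ : Continuous ψ)
    (hs : SmSec n k s) : Measurable fun x => ENNReal.ofReal (nrm n k s x * Real.exp (-ψ x)) :=
  ((b.nrm_cont k s hs).mul (Real.continuous_exp.comp hψ.neg)).measurable.ennreal_ofReal

theorem l2 (hv : IsVol n μ) (b : B1b n M) (k : ℤ) (ψ : M → ℝ) (s : M → ℂ) (hψ : Continuous ψ)
    (hs : SmSec n k s) (e : Chart n M) (he : Hc e) (S : Set (Cm n)) (hS : MeasurableSet S)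
    (hsub : S ⊆ e.target) :
    ∫⁻ z in S, ENNReal.ofReal (‖co k s e z‖ ^ 2 * Real.exp (-wt k ψ e z)) ≤ L2 n μ k ψ s ∧
    ((∀ x ∉ e.symm '' S, s x = 0) →
      L2 n μ k ψ s = ∫⁻ z in S, ENNReal.ofReal (‖co k s e z‖ ^ 2 * Real.exp (-wt k ψ e z))) := by
  have h1 : ∫⁻ x in e.symm '' S, ENNReal.ofReal (nrm n k s x * Real.exp (-ψ x)) ∂μ =
      ∫⁻ z in S, ENNReal.ofReal (‖co k s e z‖ ^ 2 * Real.exp (-wt k ψ e z)) := by
    rw [loc hv e he S hS hsub _ (meas_nrm b hψ hs)]
    refine setLIntegral_congr_fun hS fun z hz => ?_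
    rw [← ENNReal.ofReal_mul' (b.vd_pos e he z (hsub hz)).le, b.nrm_wt k ψ s e he z (hsub hz)]
  rw [← h1]
  refine ⟨setLIntegral_le_lintegral _ _, fun h0 => (setLIntegral_eq_of_support_subset ?_).symm⟩
  intro x hx
  by_contra hn
  refine hx ?_
  simp [nrm, h0 x hn]

theorem add (a : B1a n M) (b : B1b n M) (k : ℤ) (ψ : M → ℝ) (s t : M → ℂ) (hψ : Continuous ψ)
    (hs : SmSec n k s) (ht : SmSec n k t) :
    L2 n μ k ψ (s + t) ≤ 2 * L2 n μ k ψ s + 2 * L2 n μ k ψ t := by
  unfold L2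
  rw [← lintegral_const_mul _ (meas_nrm b hψ hs), ← lintegral_const_mul _ (meas_nrm b hψ ht),
    ← lintegral_add_left ((meas_nrm b hψ hs).const_mul _)]
  refine lintegral_mono fun x => ?_
  have h1 := mul_le_mul_of_nonneg_right (nrm_add a b k s t x) (Real.exp_pos (-ψ x)).le
  refine (ENNReal.ofReal_le_ofReal h1).trans ?_
  rw [add_mul, mul_assoc, mul_assoc]
  refine ENNReal.ofReal_add_le.trans ?_
  rw [ENNReal.ofReal_mul zero_le_two, ENNReal.ofReal_mul zero_le_two, ENNReal.ofReal_ofNat]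

theorem mem (a : B1a n M) (b : B1b n M) (m : ℕ) (s : M → ℂ) : s ∈ HL n μ m ↔ InH n μ m s := by
  refine ⟨fun h => ?_, fun h => Submodule.subset_span h⟩
  induction h using Submodule.span_induction with
  | mem x hx => exact hx
  | zero =>
    refine ⟨fun e _ z _ => ?_, by simp [nrm]⟩
    have : co (-m) (0 : M → ℂ) e = fun _ => 0 := by funext z; simp [co]
    rw [this]
    exact analyticAt_const
  | add s t _ _ hs ht =>
    refine ⟨fun e he z hz => ?_, ?_⟩
    · rw [co_add]
      exact (hs.1 e he z hz).add (ht.1 e he z hz)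
    · have h := add (μ := μ) a b (-m) (fun _ => 0) s t continuous_const (smSec_of hs.1)
        (smSec_of ht.1)
      simp only [L2, neg_zero, Real.exp_zero, mul_one] at h
      exact h.trans_lt (ENNReal.add_lt_top.2 ⟨ENNReal.mul_lt_top ENNReal.ofNat_lt_top hs.2,
        ENNReal.mul_lt_top ENNReal.ofNat_lt_top ht.2⟩)
  | smul c s _ hs =>
    refine ⟨fun e he z hz => ?_, ?_⟩
    · rw [co_smul]
      exact analyticAt_const.mul (hs.1 e he z hz)
    · have h : ∀ x, ENNReal.ofReal (nrm n (-m) (c • s) x) =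
          ENNReal.ofReal (‖c‖ ^ 2) * ENNReal.ofReal (nrm n (-m) s x) := fun x => by
        rw [← ENNReal.ofReal_mul (sq_nonneg _), nrm, nrm, Pi.smul_apply, norm_smul, mul_pow,
          mul_assoc]
      simp only [h]
      rw [lintegral_const_mul' _ _ ENNReal.ofReal_ne_top]
      exact ENNReal.mul_lt_top ENNReal.ofReal_lt_top hs.2

end B3Aux

variable {n : ℕ} {M : Type} [MetricSpace M] [ChartedSpace (Cm n) M]
  [IsManifold 𝓘(ℂ, Cm n) 1 M] [IsManifold 𝓘(ℝ, Cm n) ∞ M]
  [RiemannianBundle (fun x : M => TangentSpace 𝓘(ℝ, Cm n) x)]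
  [IsContMDiffRiemannianBundle 𝓘(ℝ, Cm n) ∞ (Cm n) (fun x : M => TangentSpace 𝓘(ℝ, Cm n) x)]
  [IsRiemannianManifold 𝓘(ℝ, Cm n) M] [CompleteSpace M] [ConnectedSpace M] [NoncompactSpace M]
  [MeasurableSpace M] [BorelSpace M] {μ : Measure M}

set_option linter.unusedSectionVars false in
theorem b3 (hv : IsVol n μ) (a : B1a n M) (b : B1b n M) : B3 n μ :=
  ⟨B3Aux.fin hv a b, B3Aux.pos hv a b, B3Aux.loc hv, B3Aux.l2 hv b, B3Aux.add a b, B3Aux.mem a b⟩

set_option linter.unusedSectionVars false in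
theorem exists_vol (a : B1a n M) (b : B1b n M) : ∃ μ : Measure M, IsVol n μ := by
  have : ProperSpace M := properSpace_riemannian (Cm n) M
  obtain ⟨μ, h⟩ := Vale.Agent.P284.H286.K.measStmt n M {e : Chart n M // Hc e} (fun e => e.1)
    (fun e => vd e.1) (fun x => ⟨⟨_, a.chart x⟩, mem_chart_source _ x⟩)
    (fun i j z hz hz' => a.hol i.1 j.1 i.2 j.2 z hz hz') (fun i => B3Aux.vd_contOn b i.2)
    (fun i => b.vd_pos i.1 i.2) fun i j => b.vd_ch i.1 j.1 i.2 j.2
  exact ⟨μ, fun e he => h ⟨e, he⟩⟩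

end Vale.Agent.P253Z
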