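import Vale.Agent.P253Z.Spec

/-!
# P253Z, block BER: the Bergman function
-/

open scoped Manifold ContDiff Bundle ENNReal Topology ComplexConjugate ComplexOrder
open Bundle IsManifold MeasureTheory Set Metric Filter Vale.Agent.P253.Mfd
open Vale.Agent.P272.K (Cm dz dzb cHess jacM Chart)

noncomputable section

namespace Vale.Agent.P253Z

namespace Ber

/-- an orthonormal basis bounds all linear forms -/
theorem exists_onb {V : Type} [AddCommGroup V] [Module ℂ V] [Module.Finite ℂ V]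
    (c : InnerProductSpace.Core ℂ V) : ∃ b : Fin (Module.finrank ℂ V) → V,
      (∀ i, c.inner (b i) (b i) = 1) ∧ ∀ (s : V) (ℓ : V →ₗ[ℂ] ℂ),
        ‖ℓ s‖ ^ 2 ≤ (∑ i, ‖ℓ (b i)‖ ^ 2) * (c.inner s s).re := by
  let _ : NormedAddCommGroup V := @InnerProductSpace.Core.toNormedAddCommGroup ℂ V _ _ _ c
  let _ : InnerProductSpace ℂ V := InnerProductSpace.ofCore c.toCore
  set b := stdOrthonormalBasis ℂ V with hb
  refine ⟨b, fun i => ?_, fun s ℓ => ?_⟩
  · have h := b.orthonormal.1 i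
    have h2 : inner ℂ (b i) (b i) = ((‖b i‖ : ℝ) : ℂ) ^ 2 := inner_self_eq_norm_sq_to_K (b i)
    rw [h, Complex.ofReal_one, one_pow] at h2
    exact h2
  · have h1 : ℓ s = ∑ i, inner ℂ (b i) s * ℓ (b i) := by
      conv_lhs => rw [← b.sum_repr' s, map_sum]
      simp
    have h2 : ‖ℓ s‖ ≤ ∑ i, ‖ℓ (b i)‖ * ‖inner ℂ (b i) s‖ := by
      rw [h1]
      exact (norm_sum_le _ _).trans (le_of_eq (Finset.sum_congr rfl fun i _ => by
        rw [norm_mul, mul_comm]))
    have h3 : (c.inner s s).re = ∑ i, ‖inner ℂ (b i) s‖ ^ 2 := by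
      rw [b.sum_sq_norm_inner_right]
      exact (norm_sq_eq_re_inner (𝕜 := ℂ) s).symm
    rw [h3]
    exact (pow_le_pow_left₀ (norm_nonneg _) h2 2).trans (Finset.sum_mul_sq_le_sq_mul_sq _ _ _)

theorem polar (u v : ℂ) (ρ : ℝ) : conj u * v * ρ =
    (((‖u + v‖ ^ 2 * ρ : ℝ) : ℂ) - ((‖u + (-1 : ℂ) • v‖ ^ 2 * ρ : ℝ) : ℂ) +
      Complex.I * (((‖u + (-Complex.I) • v‖ ^ 2 * ρ : ℝ) : ℂ) -
        ((‖u + Complex.I • v‖ ^ 2 * ρ : ℝ) : ℂ))) / 4 := by
  simp only [← Complex.normSq_eq_norm_sq, Complex.ofReal_mul, Complex.normSq_eq_conj_mul_self,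
    smul_eq_mul, map_add, map_mul, map_neg, map_one, Complex.conj_I]
  linear_combination ((conj u * v - u * conj v) * ρ / 2) * Complex.I_mul_I

variable {n : ℕ} {M : Type} [MetricSpace M] [ChartedSpace (Cm n) M]
  [RiemannianBundle (fun x : M => TangentSpace 𝓘(ℝ, Cm n) x)]
  [MeasurableSpace M] [BorelSpace M] {μ : Measure M}

/-- the Bergman function -/
theorem berg (a : B1a n M) (b : B1b n M) (v : B3 n μ) (m : ℕ) [Module.Finite ℂ (HL n μ m)] :
    ∃ B : M → ℝ, Continuous B ∧ ∫⁻ x, ENNReal.ofReal (B x) ∂μ = Module.finrank ℂ (HL n μ m) ∧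
      ∀ s, IsSec n (-m) s → ∫⁻ x, ENNReal.ofReal (nrm n (-m) s x) ∂μ ≤ 1 →
        ∀ x, nrm n (-m) s x ≤ B x := by
  set ρ : M → ℝ := fun x => vd (chartAt (Cm n) x) (chartAt (Cm n) x x) ^ (-(-m : ℤ)) with hρ
  have ρ0 : ∀ x, 0 < ρ x := fun x =>
    zpow_pos (b.vd_pos _ (a.chart x) _ (mem_chart_target _ x)) _
  have e : ∀ s x, nrm n (-m) s x = ‖s x‖ ^ 2 * ρ x := fun _ _ => rfl
  have n0 : ∀ s x, 0 ≤ nrm n (-m) s x := fun s x => mul_nonneg (sq_nonneg _) (ρ0 x).le
  have nc : ∀ s : HL n μ m, Continuous (nrm n (-m) s.1) := fun s =>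
    b.nrm_cont _ _ fun e he z hz =>
      (((v.mem m s).1 s.2).1 e he z hz).contDiffAt.restrict_scalars ℝ
  have ni : ∀ s : HL n μ m, Integrable (nrm n (-m) s.1) μ := fun s =>
    ⟨(nc s).aestronglyMeasurable,
      (hasFiniteIntegral_iff_ofReal (Eventually.of_forall (n0 _))).2 ((v.mem m s).1 s.2).2⟩
  have hi : ∀ s t : HL n μ m, Integrable (fun x => conj (s.1 x) * t.1 x * ρ x) μ := fun s t => by
    simp only [polar]
    exact (((ni (s + t)).ofReal.sub (ni (s + (-1 : ℂ) • t)).ofReal).add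
      (((ni (s + (-Complex.I) • t)).ofReal.sub (ni (s + Complex.I • t)).ofReal).const_mul
        Complex.I)).div_const 4
  have hs : ∀ s : HL n μ m, ∫ x, conj (s.1 x) * s.1 x * ρ x ∂μ =
      ((∫ x, nrm n (-m) s.1 x ∂μ : ℝ) : ℂ) := fun s => by
    rw [← integral_complex_ofReal]
    refine integral_congr_ae (Eventually.of_forall fun x => ?_)
    simp only [e, Complex.conj_mul']
    push_cast
    rfl
  let c : InnerProductSpace.Core ℂ (HL n μ m) :=
    { inner := fun s t => ∫ x, conj (s.1 x) * t.1 x * ρ x ∂μ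
      conj_inner_symm := fun s t => by
        rw [← integral_conj]
        refine integral_congr_ae (Eventually.of_forall fun x => ?_)
        simp only [map_mul, Complex.conj_conj, Complex.conj_ofReal]
        ring
      re_inner_nonneg := fun s => by
        rw [hs]
        exact integral_nonneg (n0 _)
      add_left := fun s t u => by
        rw [← integral_add (hi s u) (hi t u)]
        refine integral_congr_ae (Eventually.of_forall fun x => ?_)
        simp only [Submodule.coe_add, Pi.add_apply, map_add]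
        ring
      smul_left := fun s t r => by
        rw [← integral_const_mul]
        refine integral_congr_ae (Eventually.of_forall fun x => ?_)
        simp only [Submodule.coe_smul, Pi.smul_apply, smul_eq_mul, map_mul]
        ring
      definite := fun s h => by
        rw [hs, Complex.ofReal_eq_zero, integral_eq_zero_iff_of_nonneg (n0 _) (ni s)] at h
        ext x
        by_contra hx
        have h1 : IsOpen {x | nrm n (-m) s.1 x ≠ 0} := isOpen_ne_fun (nc s) continuous_const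
        exact (v.pos _ h1 ⟨x, (mul_pos (pow_pos (norm_pos_iff.2 hx) 2) (ρ0 x)).ne'⟩).ne' h }
  obtain ⟨β, h1, h2⟩ := exists_onb c
  have h3 : ∀ i, ∫ x, nrm n (-m) (β i).1 x ∂μ = 1 := fun i => by
    have := h1 i
    change ∫ x, _ ∂μ = _ at this
    rw [hs] at this
    exact_mod_cast this
  refine ⟨fun x => ∑ i, nrm n (-m) (β i).1 x, continuous_finsetSum _ fun i _ => nc _, ?_,
    fun s hs1 hs2 x => ?_⟩
  · rw [← ofReal_integral_eq_lintegral_ofReal (integrable_finsetSum _ fun i _ => ni _)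
      (Eventually.of_forall fun x => Finset.sum_nonneg fun i _ => n0 _ _),
      integral_finsetSum _ fun i _ => ni _]
    simp [h3]
  · let s' : HL n μ m := ⟨s, (v.mem m s).2 ⟨hs1, hs2.trans_lt ENNReal.one_lt_top⟩⟩
    have h4 := h2 s' ((LinearMap.proj x).comp (HL n μ m).subtype)
    have h5 : (c.inner s' s').re ≤ 1 := by
      change (∫ x, _ ∂μ : ℂ).re ≤ _
      rw [hs, Complex.ofReal_re, ← ENNReal.ofReal_le_one,
        ofReal_integral_eq_lintegral_ofReal (ni s') (Eventually.of_forall (n0 _))]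
      exact hs2
    simp only [e, ← Finset.sum_mul]
    refine mul_le_mul_of_nonneg_right (h4.trans ?_) (ρ0 x).le
    exact mul_le_of_le_one_right (by positivity) h5

end Ber

variable {n : ℕ} {M : Type} [MetricSpace M] [ChartedSpace (Cm n) M]
  [IsManifold 𝓘(ℂ, Cm n) 1 M] [IsManifold 𝓘(ℝ, Cm n) ∞ M]
  [RiemannianBundle (fun x : M => TangentSpace 𝓘(ℝ, Cm n) x)]
  [IsContMDiffRiemannianBundle 𝓘(ℝ, Cm n) ∞ (Cm n) (fun x : M => TangentSpace 𝓘(ℝ, Cm n) x)]
  [IsRiemannianManifold 𝓘(ℝ, Cm n) M] [CompleteSpace M] [ConnectedSpace M] [NoncompactSpace M]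
  [MeasurableSpace M] [BorelSpace M] {μ : Measure M}

set_option linter.unusedSectionVars false in
theorem ber (a : B1a n M) (b : B1b n M) (r : B2 n M) (v : B3 n μ) : BER n μ := by
  rintro ⟨C, hC⟩ ⟨c, hc, hP⟩
  have h0 : ∀ m : ℕ, ∃ B : M → ℝ, Continuous B ∧ (1 ≤ m →
      ∫⁻ x, ENNReal.ofReal (B x) ∂μ = Module.finrank ℂ (HL n μ m) ∧
      ∀ s, IsSec n (-m) s → ∫⁻ x, ENNReal.ofReal (nrm n (-m) s x) ∂μ ≤ 1 →
        ∀ x, nrm n (-m) s x ≤ B x) := fun m => by
    by_cases hm : 1 ≤ m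
    · have := (hC m hm).1
      obtain ⟨B, h1, h2⟩ := Ber.berg a b v m
      exact ⟨B, h1, fun _ => h2⟩
    · exact ⟨0, continuous_const, fun h => absurd h hm⟩
  choose B hB hB' using h0
  set d : ℕ → ℝ := fun m => (Module.finrank ℂ (HL n μ m) : ℝ) / (c * m ^ n) with hd
  have p : ∀ m : ℕ, 1 ≤ m → 0 < c * (m : ℝ) ^ n := fun m hm => by positivity
  have h1 : ∫⁻ x, ENNReal.ofReal (ricDen n x) ∂μ ≤
      liminf (fun m => ENNReal.ofReal (d m)) atTop := by
    have h2 := lintegral_liminf_le (μ := μ) (u := atTop)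
      (f := fun (m : ℕ) x => ENNReal.ofReal (B m x / (c * m ^ n)))
      fun m => ((hB m).div_const _).measurable.ennreal_ofReal
    refine (lintegral_mono fun x => le_liminf_of_le (h := ?_)).trans
      (h2.trans (le_of_eq (liminf_congr ?_)))
    · filter_upwards [hP x, eventually_ge_atTop 1] with m ⟨s, k1, k2, k3⟩ hm
      refine ENNReal.ofReal_le_ofReal ((le_div_iff₀' (p m hm)).2 ?_)
      exact k3.trans ((hB' m hm).2 s k1 k2 x)
    · filter_upwards [eventually_ge_atTop 1] with m hm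
      simp only [hd, ENNReal.ofReal_div_of_pos (p m hm), div_eq_mul_inv (ENNReal.ofReal _)]
      rw [lintegral_mul_const _ (hB m).measurable.ennreal_ofReal, (hB' m hm).1,
        ENNReal.ofReal_natCast]
  have h3 : ∫⁻ x, ENNReal.ofReal (ricDen n x) ∂μ < ⊤ := by
    refine (h1.trans (liminf_le_of_frequently_le' (x := ENNReal.ofReal (C / c))
      (Eventually.frequently ?_))).trans_lt ENNReal.ofReal_lt_top
    filter_upwards [eventually_ge_atTop 1] with m hm
    refine ENNReal.ofReal_le_ofReal ((div_le_iff₀ (p m hm)).2 ((hC m hm).2.trans (le_of_eq ?_)))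
    field_simp
  have h4 : 0 < ∫⁻ x, ENNReal.ofReal (ricDen n (M := M) x) ∂μ := by
    rw [lintegral_pos_iff_support b.ricDen_cont.measurable.ennreal_ofReal]
    refine (v.pos univ isOpen_univ univ_nonempty).trans_le (measure_mono fun x _ => ?_)
    have k1 := (r _ (a.chart x) _ (mem_chart_target _ x)).det_pos
    exact (ENNReal.ofReal_pos.2 (div_pos (Complex.pos_iff.1 k1).1
      (b.vd_pos _ (a.chart x) _ (mem_chart_target _ x)))).ne'
  obtain ⟨t, t0, t1, t2⟩ := ENNReal.lt_iff_exists_real_btwn.1 h4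
  refine ⟨h3, t * c, mul_pos (ENNReal.ofReal_pos.1 t1) hc, ?_⟩
  filter_upwards [eventually_lt_of_lt_liminf (t2.trans_le h1), eventually_ge_atTop 1] with m h hm
  rw [mul_assoc, ← le_div_iff₀ (p m hm)]
  exact ((ENNReal.ofReal_lt_ofReal_iff_of_nonneg t0).1 h).le

end Vale.Agent.P253Z
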