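import Vale.Agent.P253Z.BG.Ric
import Vale.Agent.P253Z.BG.Vol
import Vale.Agent.P210.R2.H912.Wlcg
import Vale.Agent.P210.R2.H168.Mcp
import Vale.Agent.P210.R2.H999.Vol

/-!
# P253Z, block BG: volume comparison
-/

open scoped Manifold ContDiff Bundle ENNReal Topology
open Bundle IsManifold MeasureTheory Set Metric Vale.Agent.P253.Mfd
open Vale.Agent.P272.K (Cm)
open Vale.Agent.P210.R2

noncomputable section

namespace Vale.Agent.P253Z

variable {n : ℕ} {M : Type} [MetricSpace M] [ChartedSpace (Cm n) M]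
  [IsManifold 𝓘(ℂ, Cm n) 1 M] [IsManifold 𝓘(ℝ, Cm n) ∞ M]
  [RiemannianBundle (fun x : M => TangentSpace 𝓘(ℝ, Cm n) x)]
  [IsContMDiffRiemannianBundle 𝓘(ℝ, Cm n) ∞ (Cm n) (fun x : M => TangentSpace 𝓘(ℝ, Cm n) x)]
  [IsRiemannianManifold 𝓘(ℝ, Cm n) M] [CompleteSpace M] [ConnectedSpace M] [NoncompactSpace M]
  [MeasurableSpace M] [BorelSpace M] {μ : Measure M}

set_option linter.unusedSectionVars false in
set_option linter.unusedVariables false in
theorem bg (c : Ctx n μ) (a : B1a n M) (b : B1b n M) : BG n μ := by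
  have : ProperSpace M := H53.properSpace_riemannian (Cm n) M
  have hn := c.npos
  have hf : Module.finrank ℝ (Cm n) = 2 * n := by
    rw [Module.finrank_pi_fintype]
    simp [mul_comm]
  obtain ⟨ν, hν⟩ := H999.vol (Cm n) M (by omega)
  obtain ⟨k, rfl⟩ := BGa.vol_eq b c.vol hν
  have hk : (0 : ℝ) < k := by
    have h := (H934.cala (Cm n) M (by omega) _ hν).2.1 univ isOpen_univ univ_nonempty
    refine NNReal.coe_pos.2 (pos_iff_ne_zero.2 fun h0 => ?_)
    simp [h0] at h
  refine ⟨Real.exp 1, Real.one_le_exp zero_le_one, fun x s t hs hst => ?_⟩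
  have ht := hs.trans_le hst
  have h := H168.bg (H168.mcp H912.wlc H934.cala H34.calb) H934.cala (2 * n) (by omega) (Cm n) M
    (by omega) hf _ (1 / t ^ 2) hν (by positivity) (BGa.ricGE c.kahler c.pos (by positivity)) x s t
    hs hst
  rw [one_div_mul_cancel (by positivity), measureReal_nnreal_smul_apply,
    measureReal_nnreal_smul_apply] at h
  refine le_of_mul_le_mul_left (h.trans (le_of_eq ?_)) hk
  ring

end Vale.Agent.P253Z
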