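import Vale.Agent.P253Z.Spec
import Vale.Agent.P253.R2.H451.Bus5

/-! P253Z, block BUS: the Busemann function is strictly plurisubharmonic. -/

open scoped Manifold ContDiff Bundle Topology
open Bundle IsManifold MeasureTheory Set Metric Filter Complex Vale.Agent.P253.Mfd
open Vale.Agent.P253.Mfd.LocalKahler Vale.Agent.P253.R2.H451
open Vale.Agent.P272.K (Cm)

set_option maxSynthPendingDepth 3
set_option linter.unusedSectionVars false

noncomputable section

namespace Vale.Agent.P253Z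

namespace Bu

theorem two_le : (2 : WithTop ℕ∞) ≤ ∞ := WithTop.coe_le_coe.2 (le_top (a := (2 : ℕ∞)))

/-- the Levi form of a composite with a holomorphic map -/
theorem levi2_comp {F F' : Type*} [NormedAddCommGroup F] [NormedSpace ℂ F] [NormedAddCommGroup F']
    [NormedSpace ℂ F'] {V : Set F} {T : F → F'} {q : F' → ℝ} {p : F} (hV : IsOpen V)
    (hT : ContDiffOn ℂ ∞ T V) (hp : p ∈ V) (hq : ContDiffAt ℝ 2 q (T p)) (k : F) :
    levi2 (q ∘ T) p k = levi2 q (T p) (fderiv ℝ T p k) := by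
  have hr : ContDiffAt ℝ 2 T p := ((hT.restrict_scalars ℝ).contDiffAt (hV.mem_nhds hp)).of_le two_le
  have h1 : fderiv ℝ (q ∘ T) =ᶠ[𝓝 p] fun y => (fderiv ℝ q (T y)).comp (fderiv ℝ T y) := by
    filter_upwards [hr.eventually (by simp), hr.continuousAt.eventually (hq.eventually (by simp))]
      with y h1 h2 using fderiv_comp y (h2.differentiableAt (by simp)) (h1.differentiableAt (by simp))
  have h2 := ((hq.fderiv_right (m := 1) le_rfl).differentiableAt (by simp)).hasFDerivAt.comp p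
    (hr.differentiableAt (by simp)).hasFDerivAt
  have h3 := ((hr.fderiv_right (m := 1) le_rfl).differentiableAt (by simp)).hasFDerivAt
  have h4 : ∀ k, fderiv ℝ (fderiv ℝ (q ∘ T)) p k k =
      fderiv ℝ (fderiv ℝ q) (T p) (fderiv ℝ T p k) (fderiv ℝ T p k) +
        fderiv ℝ q (T p) (fderiv ℝ (fderiv ℝ T) p k k) := fun k => by
    rw [h1.fderiv_eq.trans (h2.clm_comp h3).fderiv, add_comm]
    rfl
  have hs : IsSymmSndFDerivAt ℝ T p := hr.isSymmSndFDerivAt (by simp)
  rw [levi2, levi2, h4, h4, fderiv_real_smul_I hV (hT.differentiableOn (by simp)) hp,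
    fderiv2_real_smul_I hV hT hp, hs.eq k (I • k), fderiv2_real_smul_I hV hT hp, smul_smul,
    I_mul_I, neg_one_smul, map_neg]
  ring

variable {E : Type*} [NormedAddCommGroup E] [NormedSpace ℂ E] [FiniteDimensional ℂ E]

theorem levi2_qf {G : E → E →L[ℝ] E →L[ℝ] ℝ} {U : Set E} (h : LocalKahler G U) {p : E × E}
    (hp : p.1 ∈ U) (k : E × E) : levi2 (qf G) p k =
      4 * G p.1 (k.2 + chris G p.1 k.1 p.2) (k.2 + chris G p.1 k.1 p.2) - 4 * Rc G p.1 k.1 p.2 := by
  have hs := h.star hp k.1 p.2 k.2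
  rw [levi2, h.fderiv2_qf hp, h.fderiv2_qf hp, Prod.smul_fst, Prod.smul_snd, h.herm _ hp]
  linarith

/-- the curvature under a holomorphic isometry -/
theorem Rc_le {G G' : E → E →L[ℝ] E →L[ℝ] ℝ} {U U' V : Set E} (h : LocalKahler G U)
    (h' : LocalKahler G' U') (hV : IsOpen V) {τ : E → E} (hτ : ContDiffOn ℂ ∞ τ V) {z : E}
    (hz : z ∈ V) (hU : z ∈ U) (hU' : τ z ∈ U')
    (hG : ∀ w ∈ V, ∀ a, G' (τ w) (fderiv ℝ τ w a) (fderiv ℝ τ w a) = G w a a) (X a : E) :
    Rc G z X a ≤ Rc G' (τ z) (fderiv ℝ τ z X) (fderiv ℝ τ z a) := by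
  have hd : ∀ w ∈ V, HasFDerivAt τ ((fderiv ℂ τ w).restrictScalars ℝ) w := fun w hw =>
    ((hτ.contDiffAt (hV.mem_nhds hw)).differentiableAt (by simp)).hasFDerivAt.restrictScalars ℝ
  let T : E × E → E × E := fun p => (τ p.1, fderiv ℂ τ p.1 p.2)
  have hW := hV.prod (isOpen_univ (X := E))
  have hp : (z, a) ∈ V ×ˢ (univ : Set E) := ⟨hz, trivial⟩
  have hT : ContDiffOn ℂ ∞ T (V ×ˢ univ) := (hτ.comp contDiffOn_fst fun _ hp => hp.1).prodMk
    (((hτ.fderiv_of_isOpen hV le_rfl).comp contDiffOn_fst fun _ hp => hp.1).clm_apply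
      contDiffOn_snd)
  have h1 : qf G =ᶠ[𝓝 (z, a)] qf G' ∘ T := by
    filter_upwards [hW.mem_nhds hp] with p hp
    rw [qf, ← hG _ hp.1, (hd _ hp.1).fderiv]
    rfl
  have h2 := levi2_comp hW hT hp (q := qf G') ((h'.contDiffOn_qf.contDiffAt
    ((h'.isOpen.prod isOpen_univ).mem_nhds ⟨hU', trivial⟩)).of_le two_le)
    (X, -chris G z X a)
  have h3 := (((hT.restrict_scalars ℝ).contDiffAt (hW.mem_nhds hp)).differentiableAt
    (by simp)).hasFDerivAt.fst.unique ((hd z hz).comp (f := Prod.fst) (z, a) hasFDerivAt_fst)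
  have h4 : (fderiv ℝ T (z, a) (X, -chris G z X a)).1 = fderiv ℝ τ z X := by
    rw [(hd z hz).fderiv]
    exact congrArg (fun L => L (X, -chris G z X a)) h3
  rw [levi2, ← h1.fderiv.fderiv_eq, ← levi2, levi2_qf h hU, levi2_qf h' hU', h4] at h2
  have h5 : ∀ v, 0 ≤ G' (τ z) v v := fun v => by
    rcases eq_or_ne v 0 with rfl | hv
    · simp
    · exact (h'.pos _ hU' v hv).le
  rw [(hd z hz).fderiv] at h2 ⊢
  simp only [neg_add_cancel, map_zero, T] at h2
  have h6 := h5 ((fderiv ℝ T (z, a) (X, -chris G z X a)).2 +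
    chris G' (τ z) (fderiv ℂ τ z X) (fderiv ℂ τ z a))
  simp only [ContinuousLinearMap.coe_restrictScalars', T] at h2 h6 ⊢
  linarith

variable {M : Type*} [MetricSpace M] [ChartedSpace E M]
  [IsManifold 𝓘(ℂ, E) 1 M] [IsManifold 𝓘(ℝ, E) ∞ M]
  [RiemannianBundle (fun x : M => TangentSpace 𝓘(ℝ, E) x)]
  [IsContMDiffRiemannianBundle 𝓘(ℝ, E) ∞ E (fun x : M => TangentSpace 𝓘(ℝ, E) x)]

/-- a lower bound for the curvature in one chart holds in all the charts -/
theorem bisGe_of_chart (hK : IsKahler E M) {e : OpenPartialHomeomorph M E}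
    (he : e ∈ maximalAtlas 𝓘(ℂ, E) 1 M) {x : M} (hx : x ∈ e.source) {κ : ℝ}
    (h : ∀ X a, κ * chartG e (e x) X X * chartG e (e x) a a ≤ Rc (chartG e) (e x) X a) :
    BisectionalGe E x (2 * κ) := by
  intro e' he' hx'
  have hz := e'.map_source hx'
  obtain ⟨Γ, hΓ, -⟩ := (hK e' he' _ hz).2
  have hs : Function.Surjective (fderiv ℝ (e' ∘ e.symm) (e x)) :=
    LinearMap.surjective_of_injective (f := (fderiv ℝ (e' ∘ e.symm) (e x)).toLinearMap)
      ((injective_iff_map_eq_zero _).2 fun v hv => by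
        by_contra h0
        have h1 := chartG_pos (mem_maximalAtlas_real he) (e.map_source hx) v h0
        rw [← chartG_change he he' hx hx', show fderiv ℝ (e' ∘ e.symm) (e x) v = 0 from hv] at h1
        simp at h1)
  refine ⟨Γ, hΓ, fun u v => ?_⟩
  obtain ⟨a, rfl⟩ := hs u
  obtain ⟨X, rfl⟩ := hs v
  have h1 := Rc_le (localKahler_chartG hK he) (localKahler_chartG hK he')
    (e.symm.trans e').open_source (transition_complex he he') (z := e x) (by simp [hx, hx'])
    (e.map_source hx) (by simpa [hx] using hz) (fun w hw a => by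
      have h2 := chartG_change he he' (e.map_target hw.1) hw.2 a a
      rwa [e.right_inv hw.1] at h2) X a
  rw [Function.comp_apply, e.left_inv hx] at h1
  rw [sectNum_eq (mem_maximalAtlas_real he') hz hΓ, sectNum_eq (mem_maximalAtlas_real he') hz hΓ,
    (localKahler_chartG hK he').secG_add hz, ← chartG_apply, ← chartG_apply,
    chartG_change he he' hx hx', chartG_change he he' hx hx']
  linarith [h X a]

variable [IsRiemannianManifold 𝓘(ℝ, E) M]

/-- a uniform lower bound for the curvature on a compact set -/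
theorem exists_bisGe (hK : IsKahler E M) (hp : ∀ x : M, PosBisectionalAt E x) {K : Set M}
    (hc : IsCompact K) : ∃ κ > 0, ∀ x ∈ K, BisectionalGe E x κ := by
  refine hc.induction_on (p := fun S => ∃ κ > 0, ∀ x ∈ S, BisectionalGe E x κ)
    ⟨1, one_pos, fun _ h => h.elim⟩ (fun _ _ h ⟨κ, h1, h2⟩ => ⟨κ, h1, fun x hx => h2 x (h hx)⟩)
    (fun _ _ ⟨κ, h1, h2⟩ ⟨κ', h3, h4⟩ => ⟨min κ κ', lt_min h1 h3, fun x hx => hx.elim
      (fun h => (h2 x h).mono (min_le_left _ _)) fun h => (h4 x h).mono (min_le_right _ _)⟩)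
    fun x _ => ?_
  have hx := mem_chart_source E x
  have he : chartAt E x ∈ maximalAtlas 𝓘(ℂ, E) 1 M := chart_mem_maximalAtlas x
  have hz := (chartAt E x).map_source hx
  obtain ⟨κ, hκ, δ, hδ, -, h⟩ := (localKahler_chartG hK he).exists_kappa hz
    (Rc_pos_chartG hK he hz (hp _))
  exact ⟨_, mem_nhdsWithin_of_mem_nhds (inter_mem (chart_source_mem_nhds E x)
    (((chartAt E x).continuousAt hx).preimage_mem_nhds (closedBall_mem_nhds _ hδ))), 2 * κ,
    by positivity, fun y hy => bisGe_of_chart hK he hy.1 (h _ hy.2)⟩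

/-- an integrable decay function below a positive sequence -/
theorem exists_decay (κ : ℕ → ℝ) (hκ : ∀ j, 0 < κ j) :
    ∃ k, IsDecay k ∧ IntegrableOn k (Ioi 0) ∧ ∀ t, 0 ≤ t → k t ≤ κ ⌈t⌉₊ := by
  let g : ℝ → ℝ := fun s => ∑ j ∈ Finset.range (⌈s⌉₊ + 1), (κ j)⁻¹
  have g0 : ∀ s, 0 ≤ g s := fun s => Finset.sum_nonneg fun j _ => (inv_pos.2 (hκ j)).le
  have gm : Monotone g := fun s t h => Finset.sum_le_sum_of_subset_of_nonneg
    (Finset.range_mono (by gcongr)) fun j _ _ => (inv_pos.2 (hκ j)).le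
  have hi : ∀ a b, IntervalIntegrable g volume a b := fun a b => gm.intervalIntegrable
  let χ : ℝ → ℝ := fun t => ∫ s in (0 : ℝ)..t, g s
  have χc : Continuous χ := intervalIntegral.continuous_primitive hi 0
  have χd : ∀ a b, a ≤ b → χ a + (b - a) * g a ≤ χ b := fun a b h => by
    have h1 := intervalIntegral.integral_mono_on h intervalIntegrable_const (hi a b)
      fun s hs => gm hs.1
    rw [intervalIntegral.integral_const, ← intervalIntegral.integral_interval_sub_left (hi 0 b)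
      (hi 0 a)] at h1
    exact le_sub_iff_add_le'.1 h1
  have χm : Monotone χ := fun a b h => by nlinarith [χd a b h, g0 a]
  have χ0 : ∀ t, 0 ≤ t → 0 ≤ χ t := fun t h => intervalIntegral.integral_nonneg h fun s _ => g0 s
  have kc : Continuous fun t => Real.exp (-(t + χ (t + 1))) := by fun_prop
  refine ⟨_, ⟨kc, fun _ _ => Real.exp_pos _, fun a _ b _ h => Real.exp_le_exp.2 ?_⟩,
    (integrableOn_exp_neg_Ioi 0).mono' kc.aestronglyMeasurable
      (ae_restrict_of_forall_mem measurableSet_Ioi fun t ht => ?_), fun t ht => ?_⟩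
  · linarith [χm (add_le_add_left h 1)]
  · rw [Real.norm_of_nonneg (Real.exp_pos _).le, Real.exp_le_exp]
    linarith [χ0 (t + 1) (by linarith [mem_Ioi.1 ht])]
  · have h1 : (κ ⌈t⌉₊)⁻¹ ≤ g t := Finset.single_le_sum (f := fun j => (κ j)⁻¹)
      (fun j _ => (inv_pos.2 (hκ j)).le) (Finset.self_mem_range_succ _)
    rw [Real.exp_neg, inv_le_comm₀ (Real.exp_pos _) (hκ _)]
    linarith [Real.add_one_le_exp (t + χ (t + 1)), χd t (t + 1) (by linarith), χ0 t ht]

end Bu

variable {n : ℕ} {M : Type} [MetricSpace M] [ChartedSpace (Cm n) M]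
  [IsManifold 𝓘(ℂ, Cm n) 1 M] [IsManifold 𝓘(ℝ, Cm n) ∞ M]
  [RiemannianBundle (fun x : M => TangentSpace 𝓘(ℝ, Cm n) x)]
  [IsContMDiffRiemannianBundle 𝓘(ℝ, Cm n) ∞ (Cm n) (fun x : M => TangentSpace 𝓘(ℝ, Cm n) x)]
  [IsRiemannianManifold 𝓘(ℝ, Cm n) M] [CompleteSpace M] [ConnectedSpace M] [NoncompactSpace M]
  [MeasurableSpace M] [BorelSpace M] {μ : Measure M}

theorem bus (c : Ctx n μ) : BUS n M := by
  intro p
  have : ProperSpace M := properSpace_riemannian (Cm n) M
  choose κ hκ h using fun j : ℕ => Bu.exists_bisGe c.kahler c.pos (isCompact_closedBall p j)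
  obtain ⟨k, hk, hi, hle⟩ := Bu.exists_decay κ hκ
  have hc : ∀ x, BisectionalGe (Cm n) x (k (dist p x)) := fun x =>
    (h _ x (mem_closedBall'.2 (Nat.le_ceil _))).mono (hle _ dist_nonneg)
  obtain ⟨h1, h2, h3⟩ := busemann_levi c.kahler (fun x e he hx => by
    simpa using (hc x).mono (hk.2.1 _ dist_nonneg).le e he hx) p hk hi hc
  refine ⟨_, _, h1, fun x => ?_, h2.1.comp (continuous_const.dist continuous_id),
    fun x => h2.2.1 _ dist_nonneg, h3⟩
  obtain ⟨U, b, -, hb, hx⟩ := exists_bus_eq p x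
  rw [dist_comm, abs_le]
  exact ⟨neg_dist_le_busemann p x,
    hx ▸ le_of_tendsto (hb x) (Eventually.of_forall fun q => busf_le p x q)⟩

end Vale.Agent.P253Z
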