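import Vale.Agent.P253Z.COV.A

/-!
# P253Z, block COV: the universal covering
-/

open scoped Manifold ContDiff Bundle Topology
open Bundle IsManifold Set Metric Filter Vale.Agent.P253.Mfd
open Vale.Agent.P272.K (Cm)

set_option maxSynthPendingDepth 3
set_option linter.unusedSectionVars false

noncomputable section

namespace Vale.Agent.P253Z

open Vale.Agent.P211Z

namespace Cov

variable {E : Type} [NormedAddCommGroup E] [NormedSpace ℂ E] [FiniteDimensional ℂ E]
  {M : Type} [MetricSpace M] [ChartedSpace E M]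
  [IsManifold 𝓘(ℂ, E) 1 M] [IsManifold 𝓘(ℝ, E) ∞ M]
  [RiemannianBundle (fun x : M => TangentSpace 𝓘(ℝ, E) x)]
  [IsContMDiffRiemannianBundle 𝓘(ℝ, E) ∞ E (fun x : M => TangentSpace 𝓘(ℝ, E) x)]

variable (E M) in
theorem exists_univ [ConnectedSpace M] :
    ∃ (N : Type) (_ : MetricSpace N) (_ : ChartedSpace E N) (_ : IsManifold 𝓘(ℂ, E) 1 N)
      (_ : IsManifold 𝓘(ℝ, E) ∞ N)
      (_ : RiemannianBundle fun p : N => TangentSpace 𝓘(ℝ, E) p)
      (_ : IsContMDiffRiemannianBundle 𝓘(ℝ, E) ∞ E fun p : N => TangentSpace 𝓘(ℝ, E) p)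
      (_ : IsRiemannianManifold 𝓘(ℝ, E) N) (φ : N → M),
      SimplyConnectedSpace N ∧ IsRiemannianCovering E φ ∧
        IsLocalDiffeomorph 𝓘(ℂ, E) 𝓘(ℂ, E) 1 φ ∧ Vale.Agent.P300.IsGaloisCovering φ := by
  have : FiniteDimensional ℝ E := FiniteDimensional.complexToReal E
  obtain ⟨N, tN, φ, h2, hsc, hcov, hsurj, hgal⟩ := Vale.Agent.P300.H903.exists_topUC (F := E) M
  let cN : ChartedSpace E N := Vale.Agent.P300.H903.pullCharted hcov.isLocalHomeomorph
  have mN : IsManifold 𝓘(ℝ, E) ∞ N := Vale.Agent.P300.H903.pullManifold hcov.isLocalHomeomorph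
  have mC : IsManifold 𝓘(ℂ, E) 1 N := Vale.Agent.P300.H903.pullManifold hcov.isLocalHomeomorph
  have hφ : IsLocalDiffeomorph 𝓘(ℝ, E) 𝓘(ℝ, E) ∞ φ :=
    Vale.Agent.P300.H903.pullLocalDiffeo hcov.isLocalHomeomorph
  have hC : IsLocalDiffeomorph 𝓘(ℂ, E) 𝓘(ℂ, E) 1 φ :=
    Vale.Agent.P300.H903.pullLocalDiffeo hcov.isLocalHomeomorph
  let rN : RiemannianBundle fun p : N => TangentSpace 𝓘(ℝ, E) p :=
    ⟨(pmetric hφ).toRiemannianMetric⟩
  have sN : IsContMDiffRiemannianBundle 𝓘(ℝ, E) ∞ E fun p : N => TangentSpace 𝓘(ℝ, E) p :=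
    ⟨(pmetric hφ).inner, (pmetric hφ).contMDiff, fun _ _ _ => rfl⟩
  have : IsContinuousRiemannianBundle E fun p : N => TangentSpace 𝓘(ℝ, E) p :=
    ⟨(pmetric hφ).inner, (pmetric hφ).contMDiff.continuous, fun _ _ _ => rfl⟩
  have : ProperSpace E := FiniteDimensional.proper_real E
  have : LocallyCompactSpace N := ChartedSpace.locallyCompactSpace E N
  let eN : EMetricSpace N := EMetricSpace.ofRiemannianMetric 𝓘(ℝ, E) N
  have hfin : ∀ x y : N, edist x y ≠ ⊤ := by
    intro x y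
    have h1 : IsClopen (Metric.eball y ⊤) := ⟨Metric.isClosed_eball_top, Metric.isOpen_eball⟩
    have h3 := h1.eq_univ ⟨y, Metric.mem_eball_self (by simp)⟩
    have h4 : x ∈ Metric.eball y ⊤ := h3 ▸ mem_univ x
    exact ne_of_lt h4
  exact ⟨N, EMetricSpace.toMetricSpace hfin, cN, mC, mN, rN, sN, ⟨fun _ _ => rfl⟩, φ, hsc,
    ⟨hcov, hsurj, hφ, fun y v w => (pinner_apply (φ := φ) y v w).symm⟩, hC, hgal⟩

end Cov

variable {n : ℕ} {M : Type} [MetricSpace M] [ChartedSpace (Cm n) M]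
  [IsManifold 𝓘(ℂ, Cm n) 1 M] [IsManifold 𝓘(ℝ, Cm n) ∞ M]
  [RiemannianBundle (fun x : M => TangentSpace 𝓘(ℝ, Cm n) x)]
  [IsContMDiffRiemannianBundle 𝓘(ℝ, Cm n) ∞ (Cm n) (fun x : M => TangentSpace 𝓘(ℝ, Cm n) x)]
  [IsRiemannianManifold 𝓘(ℝ, Cm n) M] [CompleteSpace M] [ConnectedSpace M] [NoncompactSpace M]

open Cov in
theorem cov (hK : IsKahler (Cm n) M) (hp : ∀ x : M, PosBisectionalAt (Cm n) x) : COV n M := by
  obtain ⟨N, _, _, _, _, _, _, _, φ, hsc, hφ, hC, hgal⟩ := exists_univ (Cm n) M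
  have : ProperSpace M := properSpace_riemannian (Cm n) M
  have : CompleteSpace N := complete_of_cov hφ.covering
    (dist_map_le hφ.localDiffeo.contMDiff hφ.isometric) (isPreconnected_ball_riem (Cm n))
  have : ProperSpace N := properSpace_riemannian (Cm n) N
  refine ⟨N, _, _, ‹_›, ‹_›, _, ‹_›, ‹_›, ‹_›, inferInstance, ⟨fun h => ?_⟩, kahler_up hφ hC hK,
    fun y => pos_up hφ hC (hp _), fun x => ?_⟩
  · have h1 := h.image hφ.covering.continuous
    rw [image_univ, hφ.surjective.range_eq] at h1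
    exact noncompact_univ M h1
  · obtain ⟨y, hy⟩ := hφ.surjective x
    let e : φ ⁻¹' {x} := ⟨y, hy⟩
    have hex : ∀ γ : FundamentalGroup M x, ∃ δ : N ≃ₜ N, (∀ v, φ (δ v) = φ v) ∧
        δ y = (hφ.covering.monodromy (x := x) (y := x) γ e).1 := fun γ =>
      hgal _ _ (hy.trans (hφ.covering.monodromy (x := x) (y := x) γ e).2.symm)
    choose δ hδ hδy using hex
    refine ⟨y, fun γ => (δ γ).toEquiv, fun γ => ⟨deck_holo hC (δ γ).continuous (hδ γ),
      deck_holo hC (δ γ).symm.continuous fun v => ?_, deck_isom hφ (δ γ).continuous (hδ γ)⟩,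
      fun R => ?_⟩
    · rw [← hδ γ]
      exact congrArg φ ((δ γ).apply_symm_apply v)
    · have h1 : (φ ⁻¹' {x} ∩ closedBall y R).Finite :=
        ((isCompact_closedBall y R).inter_left
          (isClosed_singleton.preimage hφ.covering.continuous)).finite
          ⟨DiscreteTopology.of_subset (hφ.covering x).discreteTopology_fiber inter_subset_left⟩
      refine Set.Finite.of_finite_image (f := fun γ => δ γ y) (h1.subset ?_) ?_
      · rintro _ ⟨γ, hγ, rfl⟩
        exact ⟨(hδ γ y).trans hy, hγ⟩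
      · intro γ _ γ' _ h
        simp only [hδy] at h
        exact monodromy_inj hφ.covering e (Subtype.ext h)

end Vale.Agent.P253Z
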