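import Vale.Agent.P253Z.Spec
import Vale.Agent.P253Z.EXH.Moll
import Vale.Agent.P253.R2.H618.Rad

/-! P253Z, block EXH: a smooth exhaustion with bounded gradient. -/

open scoped Manifold ContDiff Bundle ENNReal Topology ComplexConjugate ComplexOrder
open Bundle IsManifold MeasureTheory Set Metric Filter Vale.Agent.P253.Mfd
open Vale.Agent.P272.K (Cm dz dzb cHess jacM Chart)
open Vale.Agent.P253.R2.H618 (dist_le_near norm_le_near metric_near G_nonneg)

set_option linter.unusedSectionVars false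

noncomputable section

namespace Vale.Agent.P253Z

variable {n : ℕ} {M : Type} [MetricSpace M] [ChartedSpace (Cm n) M]
  [IsManifold 𝓘(ℂ, Cm n) 1 M] [IsManifold 𝓘(ℝ, Cm n) ∞ M]
  [RiemannianBundle (fun x : M => TangentSpace 𝓘(ℝ, Cm n) x)]
  [IsContMDiffRiemannianBundle 𝓘(ℝ, Cm n) ∞ (Cm n) (fun x : M => TangentSpace 𝓘(ℝ, Cm n) x)]
  [IsRiemannianManifold 𝓘(ℝ, Cm n) M] [CompleteSpace M] [ConnectedSpace M] [NoncompactSpace M]

namespace Exh

theorem contDiffOn_chart {e : Chart n M} (he : Hc e) {θ : M → ℝ}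
    (h : ContMDiff 𝓘(ℝ, Cm n) 𝓘(ℝ) ∞ θ) : ContDiffOn ℝ ∞ (fun y => θ (e.symm y)) e.target :=
  contMDiffOn_iff_contDiffOn.1 (h.comp_contMDiffOn
    (contMDiffOn_symm_of_mem_maximalAtlas (mem_maximalAtlas_real he)))

theorem local_data (hK : IsKahler (Cm n) M) {f : M → ℝ} (hf : ∀ x y, |f x - f y| ≤ dist x y)
    (x : M) : ∃ U, IsOpen U ∧ x ∈ U ∧
      (∀ θ : M → ℝ, ContMDiff 𝓘(ℝ, Cm n) 𝓘(ℝ) ∞ θ → ∃ L, 0 ≤ L ∧ ∀ y ∈ U, PL θ y L) ∧
      ∀ δ > 0, ∃ g : M → ℝ, ContMDiffOn 𝓘(ℝ, Cm n) 𝓘(ℝ) ∞ g U ∧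
        ∀ y ∈ U, |g y - f y| ≤ δ ∧ PL g y 8 := by
  set e := chartAt (Cm n) x
  have he : Hc e := chart_mem_maximalAtlas x
  have hx : x ∈ e.source := mem_chart_source _ x
  have hL := localKahler_chartG hK he
  obtain ⟨δ₁, h1, hb, hd⟩ := dist_le_near hK he hx one_pos
  obtain ⟨δ₂, h2, hm⟩ := Metric.eventually_nhds_iff_ball.1
    (metric_near hL (e.map_source hx) one_pos)
  obtain ⟨m, hm0, hlow⟩ := hL.exists_lower isCompact_singleton
    (singleton_subset_iff.2 (e.map_source hx))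
  obtain ⟨r, hr, hr1, hr2⟩ : ∃ r > 0, 2 * r < δ₁ ∧ r < δ₂ :=
    ⟨min δ₁ δ₂ / 3, by positivity, by linarith [min_le_left δ₁ δ₂, lt_min h1 h2],
      by linarith [min_le_right δ₁ δ₂, lt_min h1 h2]⟩
  have hU := e.isOpen_inter_preimage (isOpen_ball (x := e x) (ε := r))
  have key : ∀ y ∈ e.source ∩ e ⁻¹' ball (e x) r, ∀ᶠ y' in 𝓝 y,
      y' ∈ e.source ∩ e ⁻¹' ball (e x) r ∧
        √(chartG e (e x) (e y' - e y) (e y' - e y)) ≤ 4 * dist y' y := fun y hy => by
    obtain ⟨δ, hδ, -, h3⟩ := norm_le_near hK he hy.1 one_pos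
    filter_upwards [hU.mem_nhds hy, ball_mem_nhds y hδ] with y' h4 h5
    refine ⟨h4, (Real.sqrt_le_sqrt ((hm _ (ball_subset_ball hr2.le hy.2)).2 _).1).trans ?_⟩
    rw [Real.sqrt_mul (by positivity), Real.sqrt_sq (by positivity), dist_comm]
    linarith [h3 y' h5]
  refine ⟨_, hU, ⟨hx, mem_ball_self hr⟩, fun θ hθ => ?_, fun δ hδ => ?_⟩
  · obtain ⟨L, hL⟩ := ((contDiffOn_chart he hθ).mono
      ((closedBall_subset_ball (by linarith)).trans hb)).exists_lipschitzOnWith (by simp)
      (convex_closedBall (e x) r) (isCompact_closedBall _ _)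
    refine ⟨L * (4 / √m), by positivity, fun y hy => (key y hy).mono fun y' h3 => ?_⟩
    have h4 := hL.dist_le_mul _ (ball_subset_closedBall h3.1.2) _ (ball_subset_closedBall hy.2)
    have h5 := (Real.sqrt_le_sqrt (hlow _ rfl (e y' - e y))).trans h3.2
    rw [Real.sqrt_mul hm0.le, Real.sqrt_sq (norm_nonneg _), ← le_div_iff₀' (by positivity)] at h5
    rw [e.left_inv h3.1.1, e.left_inv hy.1, dist_eq_norm (e y')] at h4
    refine h4.trans ?_
    rw [mul_assoc, div_mul_eq_mul_div]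
    gcongr
  · have hc : Continuous f := (LipschitzWith.of_dist_le_mul (K := 1) fun a b => by
      simpa [Real.dist_eq] using hf a b).continuous
    obtain ⟨G, g1, g2, g3⟩ := mollify (F := fun a => f (e.symm a))
      (N := fun v => (1 + 1) * √(chartG e (e x) v v)) (z := e x) hr hδ
      (hc.comp_continuousOn (e.continuousOn_symm.mono ((closedBall_subset_ball hr1).trans hb)))
      fun a ha b hb' => (hf _ _).trans
        (hd a (ball_subset_ball hr1.le ha) b (ball_subset_ball hr1.le hb'))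
    refine ⟨fun y => G (e y), g1.contMDiff.comp_contMDiffOn ((contMDiffOn_of_mem_maximalAtlas
      (mem_maximalAtlas_real he)).mono inter_subset_left), fun y hy => ⟨?_, ?_⟩⟩
    · simpa only [e.left_inv hy.1] using g2 _ hy.2
    · refine (key y hy).mono fun y' h3 => ?_
      rw [abs_sub_comm]
      linarith [g3 _ hy.2 _ h3.1.2, h3.2]

theorem fderiv_le (hK : IsKahler (Cm n) M) {e : Chart n M} (he : Hc e) {z : Cm n}
    (hz : z ∈ e.target) {η : M → ℝ} (hd : DifferentiableAt ℝ (fun y => η (e.symm y)) z) {K : ℝ}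
    (hK0 : 0 ≤ K) (h : PL η (e.symm z) K) (v : Cm n) :
    fderiv ℝ (fun y => η (e.symm y)) z v ^ 2 ≤ (2 * K) ^ 2 * chartG e z v v := by
  obtain ⟨δ, hδ, -, h1⟩ := dist_le_near hK he (e.map_target hz) one_pos
  rw [e.right_inv hz] at h1
  have h0 := G_nonneg (localKahler_chartG hK he) hz v
  have h2 : HasDerivAt (fun t : ℝ => z + t • v) v 0 := by
    simpa using ((hasDerivAt_id (0 : ℝ)).smul_const v).const_add z
  have h3 : Tendsto (fun t : ℝ => z + t • v) (𝓝 0) (𝓝 z) := by simpa using h2.continuousAt.tendsto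
  have h4 := (hd.hasFDerivAt.comp_hasDerivAt_of_eq 0 h2 (by simp)).le_of_lip'
    (C := 2 * K * √(chartG e z v v)) (by positivity) (by
      filter_upwards [((e.continuousAt_symm hz).tendsto.comp h3).eventually h,
        h3.eventually (ball_mem_nhds z hδ)] with t h5 h6
      have h7 := h1 z (mem_ball_self hδ) _ h6
      simp only [add_sub_cancel_left, map_smul, smul_apply, smul_eq_mul, ← mul_assoc] at h7
      rw [Real.sqrt_mul (mul_self_nonneg t), Real.sqrt_mul_self_eq_abs, dist_comm] at h7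
      simp only [Function.comp_apply, zero_smul, add_zero, sub_zero, Real.norm_eq_abs] at h5 ⊢
      nlinarith [mul_le_mul_of_nonneg_left h7 hK0])
  rw [← Real.sq_sqrt h0, ← mul_pow, ← sq_abs]
  exact pow_le_pow_left₀ (abs_nonneg _) h4 2

theorem sum_dz {u : Cm n → ℝ} {z : Cm n} (h : DifferentiableAt ℝ u z) (v : Cm n) :
    ∑ j, dz j (fun y => (u y : ℂ)) z * v j =
      (fderiv ℝ u z v - Complex.I * fderiv ℝ u z (Complex.I • v)) / 2 := by
  have e : ∀ w, fderiv ℝ (fun y => (u y : ℂ)) z w = fderiv ℝ u z w := fun w =>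
    DFunLike.congr_fun (Complex.ofRealCLM.hasFDerivAt.comp z h.hasFDerivAt).fderiv w
  have e1 : ∀ w : Cm n, fderiv ℝ u z w = ∑ j, ((w j).re * fderiv ℝ u z (Pi.single j 1) +
      (w j).im * fderiv ℝ u z (Pi.single j Complex.I)) := fun w => by
    conv_lhs => rw [← Finset.univ_sum_single w, map_sum]
    refine Finset.sum_congr rfl fun j _ => ?_
    rw [← smul_eq_mul, ← smul_eq_mul, ← map_smul, ← map_smul, ← map_add, ← Pi.single_smul,
      ← Pi.single_smul, ← Pi.single_add]
    simp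
  rw [e1 v, e1 (Complex.I • v)]
  push_cast
  rw [Finset.mul_sum, ← Finset.sum_sub_distrib, Finset.sum_div]
  refine Finset.sum_congr rfl fun j _ => ?_
  rw [dz, e, e]
  conv_lhs => rw [← Complex.re_add_im (v j)]
  simp only [Pi.smul_apply, smul_eq_mul, Complex.I_mul_re, Complex.I_mul_im]
  push_cast
  linear_combination (-(v j).im * (fderiv ℝ u z (Pi.single j Complex.I) : ℂ) / 2) * Complex.I_mul_I

end Exh

open Exh in
theorem exh (hK : IsKahler (Cm n) M) (_a : B1a n M) (b : B1b n M) : EXH n M := by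
  have := properSpace_riemannian (Cm n) M
  obtain ⟨p⟩ : Nonempty M := inferInstance
  obtain ⟨η, h1, h2⟩ := glue (local_data hK (f := fun x => dist x p + 1) fun x y => by
    simpa using abs_dist_sub_le x y p)
  have hs : Sm n η := fun e he z hz =>
    (contDiffOn_chart he h1).contDiffAt (e.open_target.mem_nhds hz)
  refine ⟨η, (2 * (8 + 1)) ^ 2, hs, fun x => ?_, fun c => ?_, fun e he z hz => ?_⟩
  · linarith [(abs_le.1 (h2 x).1).1, dist_nonneg (x := x) (y := p)]
  · refine (isCompact_closedBall p c).of_isClosed_subset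
      (isClosed_le h1.continuous continuous_const) fun x hx => ?_
    exact mem_closedBall.2 (by linarith [(abs_le.1 (h2 x).1).1, show η x ≤ c from hx])
  have hd := (hs e he z hz).differentiableAt (by simp)
  have h3 := fderiv_le hK he hz hd (by norm_num) (h2 _).2
  refine (b.psd _ (Matrix.IsHermitian.sub ((b.wpos e he z hz).1.smul (by simp [IsSelfAdjoint]))
    (Matrix.IsHermitian.ext fun j k => by simp [mul_comm]))).2 fun v => ?_
  have h4 := h3 v
  have h5 := h3 (Complex.I • v)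
  rw [(localKahler_chartG hK he).herm z hz, chartG_apply, b.quad e he z hz] at h5
  rw [chartG_apply, b.quad e he z hz] at h4
  have h6 := sum_dz hd v
  have h7 : ∀ (K : ℝ) (w : Cm n), ∑ j, ∑ k, ((K : ℂ) • hm e z -
      Matrix.of fun j k => w j * conj (w k)) j k * (v j * conj (v k)) =
      K * ∑ j, ∑ k, hm e z j k * (v j * conj (v k)) -
        (∑ j, w j * v j) * conj (∑ j, w j * v j) := fun K w => by
    rw [map_sum, Finset.sum_mul_sum]
    simp only [Finset.mul_sum, ← Finset.sum_sub_distrib]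
    exact Finset.sum_congr rfl fun j _ => Finset.sum_congr rfl fun k _ => by simp; ring
  rw [h7 _ fun j => dz j (fun y => (η (e.symm y) : ℂ)) z, h6, Complex.mul_conj, Complex.sub_re,
    Complex.re_ofReal_mul, Complex.ofReal_re, Complex.normSq_apply]
  generalize (∑ j, ∑ k, hm e z j k * (v j * conj (v k))).re = Q at *
  simp
  nlinarith

end Vale.Agent.P253Z
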