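import Vale.Agent.P253Z.HJ.Glue

/-!
# P253Z, block HJ: sections with approximately given jets at finitely many points
-/

open scoped Manifold ContDiff Bundle ENNReal Topology ComplexConjugate ComplexOrder
open Bundle IsManifold MeasureTheory Set Metric Filter Vale.Agent.P253.Mfd
open Vale.Agent.P272.K (Cm dz dzb cHess jacM Chart)
open Vale.Agent.P272.K.C2

noncomputable section

namespace Vale.Agent.P253Z

variable {n : ℕ} {M : Type} [MetricSpace M] [ChartedSpace (Cm n) M]
  [RiemannianBundle (fun x : M => TangentSpace 𝓘(ℝ, Cm n) x)]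

namespace HJ

theorem nrm_nonneg (a : B1a n M) (b : B1b n M) (k : ℤ) (s : M → ℂ) (x : M) : 0 ≤ nrm n k s x :=
  mul_nonneg (sq_nonneg _) (zpow_nonneg (b.vd_pos _ (a.chart x) _
    ((chartAt (Cm n) x).map_source (mem_chart_source _ x))).le _)

theorem exp_bounds {f : ℂ} {w B : ℝ} (hf : f ≠ 0) (h : |Real.log (‖f‖ ^ 2) - w| ≤ B) :
    ‖f‖ ^ 2 * Real.exp (-w) ≤ Real.exp B ∧ 1 ≤ Real.exp B * (‖f‖ ^ 2 * Real.exp (-w)) := by
  have h0 : 0 < ‖f‖ ^ 2 := by positivity
  have e : ‖f‖ ^ 2 * Real.exp (-w) = Real.exp (Real.log (‖f‖ ^ 2) - w) := by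
    rw [sub_eq_add_neg, Real.exp_add, Real.exp_log h0]
  obtain ⟨h1, h2⟩ := abs_le.1 h
  rw [e, ← Real.exp_add]
  exact ⟨Real.exp_le_exp.2 h2, Real.one_le_exp (by linarith)⟩

/-- the matrix inequality in the hypothesis of Hörmander's theorem -/
theorem psd_loc {T : Matrix (Fin n) (Fin n) ℂ} (hT : (T - 1).PosSemidef) {σ F : Cm n → ℂ}
    {χ : Cm n → ℝ} {z : Cm n} (hσ : σ =ᶠ[𝓝 z] fun y => (χ y : ℂ) * F y) (hχ : ContDiff ℝ ∞ χ)
    (hF : AnalyticAt ℂ F z) {c : ℝ}
    (hc : nsq (fun j => dzb j (fun y => (χ y : ℂ)) z) * ‖F z‖ ^ 2 ≤ c) :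
    ((c : ℂ) • T - bb σ z).PosSemidef := by
  have e : ∀ j, dzb j σ z = dzb j (fun y => (χ y : ℂ)) z * F z := fun j => by
    rw [dzb_congr j hσ, dzb_mul j (differentiableAt_ofReal (hχ.differentiable (by simp) z))
      (hF.differentiableAt.restrictScalars ℝ), dzb_hol hF.differentiableAt, mul_zero, add_zero]
  have e2 : nsq (fun j => dzb j σ z) =
      nsq (fun j => dzb j (fun y => (χ y : ℂ)) z) * ‖F z‖ ^ 2 := by
    simp only [nsq, e, norm_mul, mul_pow, Finset.sum_mul]
  have c0 : 0 ≤ c := (mul_nonneg (nsq_nonneg _) (sq_nonneg _)).trans hc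
  have := (hT.smul (Complex.zero_le_real.2 c0)).add
    (rad_psd (α := c) (β := -1) (fun j => dzb j σ z) c0 (by rw [e2]; linarith))
  convert this using 1
  rw [smul_sub, Complex.ofReal_neg, Complex.ofReal_one, neg_smul, one_smul, bb]
  abel

end HJ

open HJ

variable [MeasurableSpace M] [BorelSpace M] {μ : Measure M}

theorem hj (a : B1a n M) (b : B1b n M) (v : B3 n μ) (h : HOR n μ) : HJ n μ := by
  obtain ⟨Λ, hΛ, hτ⟩ := exists_tau n
  obtain ⟨A, χ₀, χ₁, hA, c0, c1, b0, b1, o0, z0, z1, hcut⟩ := exists_cut n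
  refine ⟨Λ + 1, by linarith, fun N B η hη => ?_⟩
  set V := (volume (closedBall (0 : Cm n) 2)).toReal with hV
  have hV0 : 0 ≤ V := ENNReal.toReal_nonneg
  set C₀ := A * (N * (Real.exp B * V)) with hC₀
  set C₁ := N * (4 * Real.exp B * V) with hC₁
  have k0 : 0 ≤ C₀ := by positivity
  have k1 : 0 ≤ C₁ := by positivity
  obtain ⟨ε, e0, e1, e2, hjet⟩ := jet n (Q := Real.exp B * C₀) (by positivity) hη
  refine ⟨2 * C₁ + 2 * C₀ + 1, ε, by positivity, e0, by linarith,
    fun k ψ hψ hp e f g he hs hd H => ?_⟩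
  obtain ⟨τ, t1, t2, t3, t4, t5, t6⟩ := hτ ε e0 e2
  obtain ⟨φ, p1, p2, p3, p4, p5⟩ :=
    exists_wt a b v hψ hp he hs hd (fun i z hz => (H i z hz).1) t1 t2 t3 t4
  have sub : closedBall (0 : Cm n) (3 / 2) ⊆ closedBall 0 2 :=
    closedBall_subset_closedBall (by norm_num)
  have hf : ∀ i, ∀ z ∈ closedBall (0 : Cm n) 2, AnalyticAt ℂ (f i) z := fun i z hz =>
    (H i z hz).2.1
  have hg : ∀ i, ∀ z ∈ closedBall (0 : Cm n) 2, AnalyticAt ℂ (g i) z := fun i z hz =>
    (H i z hz).2.2.1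
  have hne : ∀ i, ∀ z ∈ closedBall (0 : Cm n) 2, f i z ≠ 0 := fun i z hz => (H i z hz).2.2.2.1
  have hg2 : ∀ i, ∀ z ∈ closedBall (0 : Cm n) 2, ‖g i z‖ ^ 2 ≤ 4 := fun i z hz => by
    nlinarith [(H i z hz).2.2.2.2.1, norm_nonneg (g i z)]
  have hB := fun i z hz => exp_bounds (hne i z hz) (H i z hz).2.2.2.2.2
  have sq : ∀ {x : ℝ}, |x| ≤ 1 → ‖(x : ℂ)‖ ^ 2 ≤ 1 := fun hx => by
    rw [Complex.norm_real, Real.norm_eq_abs]
    exact pow_le_one₀ (abs_nonneg _) hx
  obtain ⟨s₀, s1, s2, s3, s4⟩ := glue a b v k he hs hd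
    (σ := fun i z => (χ₀ z : ℂ) * (f i z * g i z))
    (fun i z hz => (contDiffAt_ofReal c0.contDiffAt).mul
      ((((hf i z hz).mul (hg i z hz)).contDiffAt (n := ∞)).restrict_scalars ℝ))
    (fun i z hz => by rw [z0 z hz, Complex.ofReal_zero, zero_mul])
  obtain ⟨t, u1, u2, -, u4⟩ := glue a b v k he hs hd (σ := fun i z => (χ₁ z : ℂ) * f i z)
    (fun i z hz => (contDiffAt_ofReal c1.contDiffAt).mul
      (((hf i z hz).contDiffAt (n := ∞)).restrict_scalars ℝ))
    (fun i z hz => by rw [z1 z hz, Complex.ofReal_zero, zero_mul])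
  have cψ := a.sm_cont ψ hψ
  have cφ := a.sm_cont φ p1
  have r0 : ∀ i, ∀ z ∈ closedBall (0 : Cm n) 2, ‖(χ₀ z : ℂ) * (f i z * g i z)‖ ^ 2 *
      Real.exp (-wt k ψ (e i) z) ≤ 4 * Real.exp B := fun i z hz => by
    calc _ = ‖(χ₀ z : ℂ)‖ ^ 2 * (‖g i z‖ ^ 2 * (‖f i z‖ ^ 2 * Real.exp (-wt k ψ (e i) z))) := by
          simp only [norm_mul]; ring
      _ ≤ 1 * (4 * Real.exp B) := by
          gcongr
          exacts [sq (b0 z), hg2 i z hz, (hB i z hz).1]
      _ = _ := one_mul _
  have r1 : L2 n μ k ψ s₀ ≤ ENNReal.ofReal C₁ := s4 ψ _ cψ (by positivity) r0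
  have r2 : L2 n μ k ψ t ≤ ENNReal.ofReal (N * (Real.exp B * V)) :=
    u4 ψ _ cψ (by positivity) fun i z hz => by
      calc _ = ‖(χ₁ z : ℂ)‖ ^ 2 * (‖f i z‖ ^ 2 * Real.exp (-wt k ψ (e i) z)) := by
            simp only [norm_mul]; ring
        _ ≤ 1 * Real.exp B := by
            gcongr
            exacts [sq (b1 z), (hB i z hz).1]
        _ = _ := one_mul _
  have r3 : L2 n μ k φ s₀ < ⊤ := by
    obtain ⟨D, hD⟩ := (isCompact_closedBall (0 : Cm n) 2).exists_bound_of_continuousOn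
      t1.continuous.continuousOn
    refine (s4 φ (4 * Real.exp B * Real.exp D) cφ (by positivity) fun i z hz => ?_).trans_lt
      ENNReal.ofReal_lt_top
    rw [p4 i z hz, neg_add, Real.exp_add, ← mul_assoc]
    refine mul_le_mul (r0 i z hz) (Real.exp_le_exp.2 ?_) (Real.exp_pos _).le (by positivity)
    exact (neg_le_abs _).trans (hD z hz)
  have r4 : ∀ x, 0 ≤ A * (nrm n k t x * Real.exp (-ψ x)) := fun x =>
    mul_nonneg hA (mul_nonneg (nrm_nonneg a b k t x) (Real.exp_pos _).le)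
  obtain ⟨s, q1, q2⟩ := h k φ p1 p3 s₀ s1 r3 (fun x => A * (nrm n k t x * Real.exp (-ψ x))) C₀ r4
    k0 (fun x => by
      by_cases hx : ∃ i, x ∈ (e i).symm '' closedBall 0 (3 / 2)
      · obtain ⟨i, z, hz, rfl⟩ := hx
        have hzt := hs i (sub hz)
        refine ⟨e i, he i, (e i).map_target hzt, ?_⟩
        rw [(e i).right_inv hzt]
        refine psd_loc (p5 i z hz) (χ := χ₀) (F := fun y => f i y * g i y) ?_ c0
          ((hf i z (sub hz)).mul (hg i z (sub hz))) ?_
        · filter_upwards [isOpen_ball.mem_nhds (closedBall_subset_ball (by norm_num) hz :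
            z ∈ ball (0 : Cm n) 2)] with y hy using s2 i y (ball_subset_closedBall hy)
        · have w1 := b.nrm_wt k ψ t (e i) (he i) z hzt
          rw [u2 i z (sub hz)] at w1
          have w2 : Real.exp (-wt k ψ (e i) z) * Real.exp (wt k φ (e i) z) = Real.exp (τ z) := by
            rw [p4 i z (sub hz), ← Real.exp_add]; congr 1; ring
          calc _ = nsq (fun j => dzb j (fun y => (χ₀ y : ℂ)) z) * ‖g i z‖ ^ 2 * ‖f i z‖ ^ 2 := by
                simp only [norm_mul]; ring
            _ ≤ nsq (fun j => dzb j (fun y => (χ₀ y : ℂ)) z) * 4 * ‖f i z‖ ^ 2 := by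
                gcongr
                exacts [nsq_nonneg _, hg2 i z (sub hz)]
            _ ≤ A * χ₁ z ^ 2 * Real.exp (τ z) * ‖f i z‖ ^ 2 := by
                gcongr ?_ * _
                linarith [hcut τ t5 z]
            _ = A * (‖(χ₁ z : ℂ) * f i z‖ ^ 2 * Real.exp (-wt k ψ (e i) z)) *
                Real.exp (wt k φ (e i) z) := by
                rw [← w2, norm_mul, mul_pow, Complex.norm_real, Real.norm_eq_abs, sq_abs]; ring
            _ = _ := by rw [← w1]; ring
      · have hxs := mem_chart_source (Cm n) x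
        have hxt := (chartAt (Cm n) x).map_source hxs
        refine ⟨_, a.chart x, hxs, ?_⟩
        have w1 : bb (co k s₀ (chartAt (Cm n) x)) (chartAt (Cm n) x x) = 0 := by
          ext j l
          rw [bb, Matrix.of_apply, dzb_congr l (co_zero hxs (s3 x fun i hi => hx ⟨i, hi⟩)),
            dzb_const, mul_zero, Matrix.zero_apply]
        rw [w1, sub_zero]
        exact (p3 _ (a.chart x) _ hxt).smul (Complex.zero_le_real.2 (mul_nonneg
          (mul_nonneg (r4 x) (Real.exp_pos _).le) (b.vd_pos _ (a.chart x) _ hxt).le)))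
    (by
      simp only [ENNReal.ofReal_mul hA, hC₀]
      rw [lintegral_const_mul' _ _ ENNReal.ofReal_ne_top]
      exact mul_le_mul_right r2 _)
  have q3 : SmSec n k (s - s₀) := smSec_sub (smSec_of_isSec q1) s1
  refine ⟨s, q1, ?_, fun i => ?_⟩
  · have w1 : L2 n μ k ψ (s - s₀) ≤ L2 n μ k φ (s - s₀) := lintegral_mono fun x =>
      ENNReal.ofReal_le_ofReal (mul_le_mul_of_nonneg_left
        (Real.exp_le_exp.2 (neg_le_neg (p2 x))) (nrm_nonneg a b k _ x))
    have w2 := v.add k ψ s₀ (s - s₀) cψ s1 q3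
    rw [add_sub_cancel] at w2
    calc L2 n μ k ψ s ≤ _ := w2
      _ ≤ 2 * ENNReal.ofReal C₁ + 2 * ENNReal.ofReal C₀ := by
          gcongr
          exact w1.trans q2
      _ = ENNReal.ofReal (2 * C₁ + 2 * C₀) := by
          rw [ENNReal.ofReal_add (by positivity) (by positivity), ENNReal.ofReal_mul zero_le_two,
            ENNReal.ofReal_mul zero_le_two, ENNReal.ofReal_ofNat]
      _ ≤ _ := ENNReal.ofReal_le_ofReal (by linarith)
  · have sb : closedBall (0 : Cm n) (2 * ε) ⊆ closedBall 0 2 :=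
      closedBall_subset_closedBall (by linarith)
    refine hjet _ (fun z hz => ?_) ?_
    · have hz2 := sb (ball_subset_closedBall hz)
      exact (((q1 (e i) (he i) z (hs i hz2)).div (hf i z hz2) (hne i z hz2)).sub
        (hg i z hz2)).differentiableAt.differentiableWithinAt
    · set ρ := ((4 * n + 1) * ε ^ 2) ^ (n + 2) with hρ
      have ρ0 : 0 ≤ Real.exp B * ρ := by positivity
      have w1 := ((v.l2 k φ (s - s₀) cφ q3 (e i) (he i) _ measurableSet_closedBall
        (sb.trans (hs i))).1).trans q2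
      calc _ ≤ ∫⁻ z in closedBall (0 : Cm n) (2 * ε), ENNReal.ofReal (Real.exp B * ρ) *
            ENNReal.ofReal (‖co k (s - s₀) (e i) z‖ ^ 2 * Real.exp (-wt k φ (e i) z)) := by
            refine setLIntegral_mono' measurableSet_closedBall fun z hz => ?_
            have hz1 := mem_closedBall_zero_iff.1 hz
            have hz2 := sb hz
            rw [← ENNReal.ofReal_mul ρ0]
            refine ENNReal.ofReal_le_ofReal ?_
            have w2 : co k (s - s₀) (e i) z = (co k s (e i) z / f i z - g i z) * f i z := by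
              rw [co_sub, s2 i z hz2, o0 z (by linarith), sub_mul, div_mul_cancel₀ _ (hne i z hz2)]
              push_cast
              ring
            have w3 : Real.exp (-wt k ψ (e i) z) = Real.exp (τ z) * Real.exp (-wt k φ (e i) z) := by
              rw [p4 i z hz2, ← Real.exp_add]; congr 1; ring
            calc _ = ‖co k s (e i) z / f i z - g i z‖ ^ 2 * 1 := (mul_one _).symm
              _ ≤ ‖co k s (e i) z / f i z - g i z‖ ^ 2 *
                  (Real.exp B * (‖f i z‖ ^ 2 * Real.exp (-wt k ψ (e i) z))) := by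
                  gcongr
                  exact (hB i z hz2).2
              _ = Real.exp B * Real.exp (τ z) *
                  (‖co k (s - s₀) (e i) z‖ ^ 2 * Real.exp (-wt k φ (e i) z)) := by
                  rw [w2, w3, norm_mul]; ring
              _ ≤ _ := by
                  gcongr
                  exact t6 z hz1
        _ = ENNReal.ofReal (Real.exp B * ρ) * ∫⁻ z in closedBall (0 : Cm n) (2 * ε),
            ENNReal.ofReal (‖co k (s - s₀) (e i) z‖ ^ 2 * Real.exp (-wt k φ (e i) z)) :=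
            lintegral_const_mul' _ _ ENNReal.ofReal_ne_top
        _ ≤ ENNReal.ofReal (Real.exp B * ρ) * ENNReal.ofReal C₀ := mul_le_mul_right w1 _
        _ = _ := by rw [← ENNReal.ofReal_mul ρ0]; congr 1; ring

end Vale.Agent.P253Z
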