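import Vale.Agent.P253Z.Spec
import Vale.Agent.P284.H608.K.Eng
import Vale.Agent.P284Z.L.S1.Loc
import Vale.Agent.P284Z.L.S3.A

/-!
# P253Z, block HOR: the theorem of Hörmander for sections of `K^k`
-/

open scoped Manifold ContDiff Bundle ENNReal Topology ComplexConjugate ComplexOrder
open Bundle IsManifold MeasureTheory Set Metric Filter Vale.Agent.P253.Mfd
open Vale.Agent.P272.K (Cm dz dzb cHess jacM Chart)
open Vale.Agent.P284.H608.K Vale.Agent.P284.H286.K
open Vale.Agent.P284Z.L (dt)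

noncomputable section

namespace Vale.Agent.P253Z

namespace HORa

theorem ev_dt {n : ℕ} (σ : Equiv.Perm (Fin n)) :
    ev (dt n) (fun i => σ i) = ((Equiv.Perm.sign σ : ℤ) : ℂ) := by
  have h := Matrix.det_permute σ (1 : Matrix (Fin n) (Fin n) ℂ)
  rw [Matrix.det_one, mul_one] at h
  rw [← h]
  change Matrix.det _ = _
  congr 1
  ext i j
  simp [Matrix.one_apply, Pi.single_apply, eq_comm]

theorem hn_dt {n : ℕ} {w : Matrix (Fin n) (Fin n) ℂ} (hw : w.PosDef) :
    (hn w (dt n) (dt n)).re = (w.det.re)⁻¹ := by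
  have h := Vale.Agent.P284.H752.k1Stmt.F1 n n le_rfl w hw (dt n) (dt n)
  have e : ∀ σ : Equiv.Perm (Fin n),
      ((Equiv.Perm.sign σ : ℤ) : ℂ) * ((Equiv.Perm.sign σ : ℤ) : ℂ) = 1 := fun σ => by
    rw [← Int.cast_mul, ← Units.val_mul, Int.units_mul_self, Units.val_one, Int.cast_one]
  have e2 : (Finset.univ.filter fun k : Fin n => n ≤ (k : ℕ)) = ∅ :=
    Finset.filter_eq_empty_iff.2 fun k _ => not_le.2 k.2
  have h1 : Qp le_rfl w (fun s t => ev (dt n) s * conj (ev (dt n) t)) = (n.factorial : ℂ) ^ 2 := by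
    unfold Qp
    simp only [Fin.castLE_refl, ev_dt, e2, Finset.prod_empty, mul_one, map_intCast,
      mul_mul_mul_comm _ _ _ _, e, Finset.sum_const, Finset.card_univ, Fintype.card_perm,
      Fintype.card_fin, nsmul_eq_mul, sq]
  rw [h1, Nat.sub_self, Nat.factorial_zero, Nat.cast_one, mul_one, mul_assoc, eq_comm,
    mul_eq_left₀ (pow_ne_zero 2 (Nat.cast_ne_zero.2 n.factorial_ne_zero))] at h
  obtain ⟨h2, h3⟩ := Complex.lt_def.1 hw.det_pos
  have h4 : w.det = (w.det.re : ℂ) := Complex.ext rfl (by simpa using h3.symm)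
  rw [eq_inv_of_mul_eq_one_right h, h4, ← Complex.ofReal_inv, Complex.ofReal_re,
    Complex.ofReal_re]

theorem top_eq {n : ℕ} (A : Af n n) : A = ev A id • dt n := by
  ext v
  have h := DFunLike.congr_fun (A.toAlternatingMap.eq_smul_basis_det (Pi.basisFun ℂ (Fin n))) v
  rw [Pi.basisFun_det] at h
  refine h.trans ?_
  change A _ * _ = A _ * _
  congr 2
  funext i
  exact Pi.basisFun_apply _ _ i

theorem dt_comp {n : ℕ} (L : Cm n →L[ℂ] Cm n) : (dt n).compContinuousLinearMap L =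
    (LinearMap.toMatrix' (L : Cm n →ₗ[ℂ] Cm n)).det • dt n := by
  rw [top_eq ((dt n).compContinuousLinearMap L), ← Matrix.det_transpose]
  congr 1

variable {n : ℕ} {M : Type} [MetricSpace M] [ChartedSpace (Cm n) M]
  [RiemannianBundle (fun x : M => TangentSpace 𝓘(ℝ, Cm n) x)]
  [MeasurableSpace M] {μ : Measure M}

/-- the bundle `K^(k-1)` with the weight `ψ` -/
def ka (hv : IsVol n μ) (a : B1a n M) (b : B1b n M) (k : ℤ) {ψ : M → ℝ} (hψ : Sm n ψ) :
    KA n M where
  I := {e : Chart n M // Hc e}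
  e i := i.1
  w i := hm i.1
  φ i := wt k ψ i.1
  a i j z := (jacM i.1 j.1 (i.1.symm z)).det ^ (k - 1)
  μ := μ
  cover x := ⟨⟨_, a.chart x⟩, mem_chart_source _ x⟩
  wsm i := b.wsm i.1 i.2
  wpos i := b.wpos i.1 i.2
  wcl i := b.wcl i.1 i.2
  φsm i z hz := (contDiffAt_const.mul ((b.vd_sm i.1 i.2 z hz).log
    (b.vd_pos i.1 i.2 z hz).ne')).add (hψ i.1 i.2 z hz)
  hol i j z := a.hol i.1 j.1 i.2 j.2 z
  wch i j := b.wch i.1 j.1 i.2 j.2
  ahol i j z hz h := (a.jac_an i.1 j.1 i.2 j.2 z hz h).fun_zpow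
    (a.jac_ne i.1 j.1 i.2 j.2 _ (i.1.map_target hz) h)
  coc i j l x hi hj hl := by
    rw [i.1.left_inv hi, j.1.left_inv hj, a.jac_mul i.1 j.1 l.1 i.2 j.2 l.2 x hi hj hl,
      Matrix.det_mul, mul_zpow, mul_comm]
  aself i x hi := by rw [i.1.left_inv hi, a.jac_self i.1 x hi, Matrix.det_one, one_zpow]
  φch i j x hi hj := by
    have h1 := norm_pos_iff.2 (a.jac_ne i.1 j.1 i.2 j.2 x hi hj)
    have h2 := b.vd_pos j.1 j.2 _ (j.1.map_source hj)
    unfold wt
    rw [i.1.left_inv hi, j.1.left_inv hj, b.vd_ch i.1 j.1 i.2 j.2 x hi hj, norm_zpow,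
      Real.log_mul (by positivity) h2.ne', Real.log_pow,
      ← Real.exp_log (x := (_ ^ (k - 1)) ^ 2) (by positivity), Real.log_pow, Real.log_zpow,
      ← Real.exp_add]
    congr 1
    push_cast
    ring
  hμ i := hv i.1 i.2

variable (hv : IsVol n μ) (a : B1a n M) (b : B1b n M) (k : ℤ) {ψ : M → ℝ} (hψ : Sm n ψ)

theorem cut (h : EXH n M) : Nonempty (ka hv a b k hψ).Cut := by
  obtain ⟨η, K, h1, h0, h2, h3⟩ := h
  obtain ⟨L, hL⟩ := P284Z.L.S3.th_bd
  refine ⟨⟨fun ν x => P284Z.L.S3.th (η x / (ν + 1)), fun ν => L / (ν + 1) ^ 2 * K,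
    fun ν i z hz => P284Z.L.S3.th_sm.contDiffAt.comp z ((h1 i.1 i.2 z hz).div_const _),
    fun ν => ⟨_, h2 (2 * (ν + 1)), fun x hx => P284Z.L.S3.th_zero ?_⟩,
    fun _ _ => Real.smoothTransition.nonneg _, fun ν x => ?_,
    fun _ _ => Real.smoothTransition.le_one _, fun x => ?_, fun ν i z hz => ?_, ?_⟩⟩
  · rw [le_div_iff₀ (by positivity)]
    exact (not_le.1 hx).le
  · refine Real.smoothTransition.monotone (sub_le_sub_left ?_ _)
    push_cast
    exact div_le_div_of_nonneg_left (h0 x) (by positivity) (by linarith)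
  · have h4 : ∀ᶠ x' in 𝓝 x, η x' < η x + 1 :=
      (a.sm_cont η h1).continuousAt.eventually (gt_mem_nhds (lt_add_one _))
    filter_upwards [tendsto_natCast_atTop_atTop.eventually_ge_atTop (η x)] with ν hν
    refine h4.mono fun x' h => P284Z.L.S3.th_one ?_
    rw [div_le_one (by positivity)]
    linarith
  · refine P284Z.L.S3.cut_grad hL ((h1 i.1 i.2 z hz).differentiableAt (by simp))
      EventuallyEq.rfl ?_
    have e : Vale.Agent.P284.H650.gg (fun y => η (i.1.symm y)) (fun y => η (i.1.symm y)) z =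
        Matrix.of fun j l => dz j (fun y => (η (i.1.symm y) : ℂ)) z *
          conj (dz l (fun y => (η (i.1.symm y) : ℂ)) z) := Matrix.ext fun j l =>
      congrArg (fun t => dz j (fun y => (η (i.1.symm y) : ℂ)) z * t)
        (P284Z.L.S1.dzb_real _ ((h1 i.1 i.2 z hz).differentiableAt (by simp)) l)
    exact e ▸ h3 i.1 i.2 z hz
  · have := ((tendsto_one_div_add_atTop_nhds_zero_nat (𝕜 := ℝ)).pow 2).const_mul (L * K)
    simp only [ne_eq, OfNat.ofNat_ne_zero, not_false_eq_true, zero_pow, mul_zero] at this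
    exact this.congr fun ν => by rw [div_pow]; ring

open Classical in
/-- the form given by a section -/
def fm (s : M → ℂ) : (ka hv a b k hψ).Fm n := fun i z =>
  if z ∈ i.1.target then co k s i.1 z • dt n else 0

variable {hv a b k hψ} {s t : M → ℂ} {i : (ka hv a b k hψ).I} {z : Cm n}

theorem fm_in (hz : z ∈ i.1.target) : fm hv a b k hψ s i z = co k s i.1 z • dt n := if_pos hz

theorem fm_near (hz : z ∈ i.1.target) :
    fm hv a b k hψ s i =ᶠ[𝓝 z] fun y => co k s i.1 y • dt n :=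
  mem_of_superset (i.1.open_target.mem_nhds hz) fun _ hy => fm_in hy

theorem fm_form (s : M → ℂ) : (ka hv a b k hψ).IsForm (fm hv a b k hψ s) where
  off _ _ hz := if_neg hz
  change i j x hi hj := by
    change fm hv a b k hψ s i (i.1 x) = (jacM i.1 j.1 (i.1.symm (i.1 x))).det ^ (k - 1) •
      (fm hv a b k hψ s j (j.1 x)).compContinuousLinearMap
        (fderiv ℂ (fun z => j.1 (i.1.symm z)) (i.1 x))
    have e : ∀ (c : ℂ) (L : Cm n →L[ℂ] Cm n), (c • dt n).compContinuousLinearMap L =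
      c • (dt n).compContinuousLinearMap L := fun _ _ => rfl
    rw [fm_in (i.1.map_source hi), fm_in (j.1.map_source hj), i.1.left_inv hi, e, dt_comp,
      ← a.jac_eq i.1 j.1 i.2 j.2 x hi hj, a.co_ch k s i.1 j.1 i.2 j.2 x hi hj, smul_smul, smul_smul,
      zpow_sub_one₀ (a.jac_ne i.1 j.1 i.2 j.2 x hi hj)]
    congr 1
    field_simp [a.jac_ne i.1 j.1 i.2 j.2 x hi hj]

theorem fm_sub : fm hv a b k hψ s - fm hv a b k hψ t = fm hv a b k hψ (s - t) := by
  funext i z
  change fm hv a b k hψ s i z - fm hv a b k hψ t i z = _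
  unfold fm co
  split_ifs
  · ext v
    simp only [ContinuousAlternatingMap.sub_apply, ContinuousAlternatingMap.smul_apply,
      smul_eq_mul, Pi.sub_apply]
    ring
  · exact sub_zero _

theorem fm_nl (s : M → ℂ) : (ka hv a b k hψ).nl (fm hv a b k hψ s) = L2 n μ k ψ s :=
  lintegral_congr fun x => by
    have hx := mem_ix (ka hv a b k hψ) x
    unfold KA.dn
    generalize (ka hv a b k hψ).ix x = i at hx
    have hz : i.1 x ∈ i.1.target := i.1.map_source hx
    have h1 := b.nrm_wt k ψ s i.1 i.2 _ hz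
    rw [i.1.left_inv hx] at h1
    rw [Complex.re_ofReal_mul, eq_div_of_mul_eq (b.vd_pos i.1 i.2 _ hz).ne' h1]
    change ENNReal.ofReal (Real.exp (-wt k ψ i.1 (i.1 x)) *
      (hn (hm i.1 (i.1 x)) (fm hv a b k hψ s i (i.1 x)) (fm hv a b k hψ s i (i.1 x))).re) = _
    rw [fm_in hz, P284Z.L.S1.hn_smul, hn_dt (b.wpos i.1 i.2 _ hz)]
    congr 1
    unfold vd
    ring

theorem exists_sec {η : (ka hv a b k hψ).Fm n} (h : (ka hv a b k hψ).IsForm η) :
    ∃ s, η = fm hv a b k hψ s := by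
  refine ⟨fun x => ev (η ⟨_, a.chart x⟩ (chartAt (Cm n) x x)) id, funext fun i => funext fun z => ?_⟩
  by_cases hz : z ∈ i.1.target
  swap
  · rw [h.off i z hz, (fm_form _).off i z hz]
  have hx := i.1.map_target hz
  have h1 := h.change i ⟨_, a.chart (i.1.symm z)⟩ _ hx (mem_chart_source _ _)
  have h2 := (fm_form (hv := hv) (a := a) (b := b) (k := k) (hψ := hψ)
    fun x => ev (η ⟨_, a.chart x⟩ (chartAt (Cm n) x x)) id).change i
      ⟨_, a.chart (i.1.symm z)⟩ _ hx (mem_chart_source _ _)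
  rw [← i.1.right_inv hz]
  refine h1.trans (Eq.trans ?_ h2.symm)
  congr 2
  exact (top_eq _).trans ((fm_in (i := ⟨_, a.chart (i.1.symm z)⟩)
    (mem_chart_target _ _)).trans (by rw [a.co_self]; rfl)).symm

end HORa

variable {n : ℕ} {M : Type} [MetricSpace M] [ChartedSpace (Cm n) M]
  [IsManifold 𝓘(ℂ, Cm n) 1 M] [IsManifold 𝓘(ℝ, Cm n) ∞ M]
  [RiemannianBundle (fun x : M => TangentSpace 𝓘(ℝ, Cm n) x)]
  [IsContMDiffRiemannianBundle 𝓘(ℝ, Cm n) ∞ (Cm n) (fun x : M => TangentSpace 𝓘(ℝ, Cm n) x)]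
  [IsRiemannianManifold 𝓘(ℝ, Cm n) M] [CompleteSpace M] [ConnectedSpace M] [NoncompactSpace M]
  [MeasurableSpace M] [BorelSpace M] {μ : Measure M}

open HORa in
theorem hor (c : Ctx n μ) (a : B1a n M) (b : B1b n M) (h : EXH n M) : HOR n μ := by
  intro k ψ hψ hp s₀ h1 h2 Λ C₀ h3 h4 h5 h6
  obtain ⟨r, rfl⟩ := Nat.exists_eq_add_of_le' c.npos
  have k1 := Vale.Agent.P284.H752.k1Stmt
  have k3 := k3 (r + 1) M (ka c.vol a b k hψ)
  obtain ⟨χ⟩ := cut c.vol a b k hψ h
  have hp' : ∀ i, ∀ z ∈ ((ka c.vol a b k hψ).e i).target,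
      (cHess ((ka c.vol a b k hψ).φ i) z).PosSemidef := fun i => hp i.1 i.2
  have g1 := fm_form (hv := c.vol) (a := a) (b := b) (k := k) (hψ := hψ) s₀
  have g2 : (ka c.vol a b k hψ).Smooth (fm c.vol a b k hψ s₀) := fun i z hz =>
    ((h1 i.1 i.2 z hz).smul_const _).congr_of_eventuallyEq (fm_near hz)
  obtain ⟨η, a1, a2, -, a4⟩ := eng (r + 1) M _ χ hp' r _ g1 g2 ((fm_nl s₀).trans_lt h2)
    (funext fun i => funext fun z => P284.H136.K8.af_zero _) C₀ fun τ hτ => by
      rw [mul_comm]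
      refine Vale.Agent.P284.H752.K8.int_cs (S := univ) (B := Λ) (k3.intT r τ hτ).2
        (dA_nonneg k1 hp' τ) (fun x => ?_) (fun x _ => h3 x) h4 (by rwa [Measure.restrict_univ])
      obtain ⟨e, he, hx, h7⟩ := h5 x
      have hz := e.map_source hx
      have h8 := b.vd_pos e he _ hz
      have e1 : (ka c.vol a b k hψ).S (fm c.vol a b k hψ s₀) ⟨e, he⟩ (e x) =
          SL (hm e) (fun y => co k s₀ e y • dt (r + 1)) (e x) := by
        refine (if_pos hz).trans ?_
        unfold SL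
        rw [funext (P284Z.L.S1.dbV_congr (fm_near (i := ⟨e, he⟩) hz))]
        rfl
      have h9 := P284Z.L.S1.hn_SL (w := hm e) (σ := fun _ => dt (r + 1)) (b.wpos e he _ hz)
        ((h1 e he _ hz).differentiableAt (by simp)) (differentiableAt_const _) h7 (τ ⟨e, he⟩ (e x))
      rw [hn_dt (b.wpos e he _ hz), ← e1] at h9
      rw [indicator_univ, k3.dn_eq r τ _ hτ.form (k3.S_form r _ g1 g2).1 ⟨e, he⟩ x hx,
        k3.dA_eq r τ hτ.form ⟨e, he⟩ x hx, norm_mul, mul_pow, Complex.norm_real,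
        Real.norm_of_nonneg (Real.exp_pos _).le]
      refine (mul_le_mul_of_nonneg_left h9 (sq_nonneg _)).trans (le_of_eq ?_)
      change Real.exp (-wt k ψ e (e x)) ^ 2 * (_ * _ * (vd e (e x))⁻¹) =
        Real.exp (-wt k ψ e (e x)) * (Ad (hm e (e x)) (th k ψ e (e x)) (τ ⟨e, he⟩ (e x))).re * _
      rw [Real.exp_neg]
      field_simp
  obtain ⟨s, rfl⟩ := exists_sec a1
  refine ⟨s, fun e he z hz => ?_, by rwa [fm_sub, fm_nl] at a4⟩
  refine (((ContinuousAlternatingMap.apply ℂ (Cm (r + 1)) ℂ fun i => Pi.single i 1).analyticAt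
    _).comp (a2 ⟨e, he⟩ z hz)).congr ((fm_near (hv := c.vol) (a := a) (b := b) (k := k) (hψ := hψ)
      (i := ⟨e, he⟩) (s := s) hz).mono fun y hy => ?_)
  have h7 := ev_dt (1 : Equiv.Perm (Fin (r + 1)))
  rw [Function.comp_apply, hy]
  change co k s e y * ev (dt (r + 1)) (fun i => (1 : Equiv.Perm (Fin (r + 1))) i) = _
  rw [h7]
  simp

end Vale.Agent.P253Z
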