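import Vale.Agent.P253Z.Spec
import Vale.Agent.P272.K.C2.Wirt

/-!
# P253Z, block ISO: holomorphic isometries have bounded orbits if `∫ Ric^n < ∞`
-/

open scoped Manifold ContDiff Bundle ENNReal Topology ComplexConjugate ComplexOrder
open Bundle IsManifold MeasureTheory Set Metric Filter Vale.Agent.P253.Mfd
open Vale.Agent.P272.K (Cm dz dzb cHess jacM Chart)

set_option linter.unusedSectionVars false

noncomputable section

namespace Vale.Agent.P253Z

variable {n : ℕ} {M : Type} [MetricSpace M] [ChartedSpace (Cm n) M]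
  [IsManifold 𝓘(ℂ, Cm n) 1 M] [IsManifold 𝓘(ℝ, Cm n) ∞ M]
  [RiemannianBundle (fun x : M => TangentSpace 𝓘(ℝ, Cm n) x)]
  [IsContMDiffRiemannianBundle 𝓘(ℝ, Cm n) ∞ (Cm n) (fun x : M => TangentSpace 𝓘(ℝ, Cm n) x)]
  [IsRiemannianManifold 𝓘(ℝ, Cm n) M] [CompleteSpace M] [ConnectedSpace M] [NoncompactSpace M]
  [MeasurableSpace M] [BorelSpace M] {μ : Measure M}

namespace Iso

/-- a holomorphic map is smooth in the preferred charts -/
lemma chart_smooth {f : M → M} (hf : MDifferentiable 𝓘(ℂ, Cm n) 𝓘(ℂ, Cm n) f) (x y : M) :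
    ContDiffOn ℂ ∞ (chartAt (Cm n) y ∘ f ∘ (chartAt (Cm n) x).symm)
      ((chartAt (Cm n) x).target ∩
        (chartAt (Cm n) x).symm ⁻¹' (f ⁻¹' (chartAt (Cm n) y).source)) := by
  refine contDiffOn_of_differentiableOn_complex
    ((chartAt (Cm n) x).isOpen_inter_preimage_symm
      ((chartAt (Cm n) y).open_source.preimage hf.continuous)) fun z hz => ?_
  have h1 : MDifferentiableAt 𝓘(ℂ, Cm n) 𝓘(ℂ, Cm n) (chartAt (Cm n) x).symm z :=
    (contMDiffAt_symm_of_mem_maximalAtlas (n := 1) (chart_mem_maximalAtlas x) hz.1).mdifferentiableAt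
      one_ne_zero
  have h2 : MDifferentiableAt 𝓘(ℂ, Cm n) 𝓘(ℂ, Cm n) (chartAt (Cm n) y)
      (f ((chartAt (Cm n) x).symm z)) :=
    (contMDiffAt_of_mem_maximalAtlas (n := 1) (chart_mem_maximalAtlas y) hz.2).mdifferentiableAt
      one_ne_zero
  exact (mdifferentiableAt_iff_differentiableAt.1
    (h2.comp z ((hf _).comp z h1))).differentiableWithinAt

lemma contMDiff_complex {f : M → M} (hf : MDifferentiable 𝓘(ℂ, Cm n) 𝓘(ℂ, Cm n) f) :
    ContMDiff 𝓘(ℂ, Cm n) 𝓘(ℂ, Cm n) 1 f := by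
  refine contMDiff_iff.2 ⟨hf.continuous, fun x y => ?_⟩
  simpa using (chart_smooth hf x y).of_le (m := 1) (by simp)

lemma contMDiff_real {f : M → M} (hf : MDifferentiable 𝓘(ℂ, Cm n) 𝓘(ℂ, Cm n) f) :
    ContMDiff 𝓘(ℝ, Cm n) 𝓘(ℝ, Cm n) ∞ f := by
  refine contMDiff_iff.2 ⟨hf.continuous, fun x y => ?_⟩
  simpa using (chart_smooth hf x y).restrict_scalars ℝ

variable {φ : M ≃ M}

/-- holomorphic isometries do not increase distances -/
lemma dist_le (h : HolIso n φ) (x y : M) : dist (φ x) (φ y) ≤ dist x y := by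
  have hs := contMDiff_real h.hol
  have key : edist (φ x) (φ y) ≤ edist x y := by
    rw [IsRiemannianManifold.out (I := 𝓘(ℝ, Cm n)) (φ x) (φ y),
      IsRiemannianManifold.out (I := 𝓘(ℝ, Cm n)) x y]
    apply le_of_forall_gt
    intro r hr
    obtain ⟨γ, hγ0, hγ1, hγ, hlen⟩ := Manifold.exists_lt_of_riemannianEDist_lt hr
    have hcomp : ContMDiffOn 𝓘(ℝ, ℝ) 𝓘(ℝ, Cm n) 1 (φ ∘ γ) (Icc 0 1) :=
      (hs.of_le (by simp)).comp_contMDiffOn hγ
    have h1 := Manifold.riemannianEDist_le_pathELength (I := 𝓘(ℝ, Cm n)) hcomp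
      (by simp [hγ0] : (φ ∘ γ) 0 = φ x) (by simp [hγ1] : (φ ∘ γ) 1 = φ y) zero_le_one
    refine h1.trans_lt (lt_of_le_of_lt (le_of_eq ?_) hlen)
    rw [Manifold.pathELength_eq_lintegral_mfderivWithin_Icc,
      Manifold.pathELength_eq_lintegral_mfderivWithin_Icc]
    apply setLIntegral_congr_fun measurableSet_Icc
    intro s hs'
    have hud : UniqueMDiffWithinAt 𝓘(ℝ, ℝ) (Icc (0:ℝ) 1) s := by
      rw [uniqueMDiffWithinAt_iff_uniqueDiffWithinAt]
      exact uniqueDiffOn_Icc one_pos s hs'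
    have h2 : mfderivWithin 𝓘(ℝ, ℝ) 𝓘(ℝ, Cm n) (φ ∘ γ) (Icc 0 1) s =
        (mfderiv 𝓘(ℝ, Cm n) 𝓘(ℝ, Cm n) φ (γ s)).comp
          (mfderivWithin 𝓘(ℝ, ℝ) 𝓘(ℝ, Cm n) γ (Icc 0 1) s) :=
      mfderiv_comp_mfderivWithin s ((hs (γ s)).mdifferentiableAt (by simp))
        ((hγ s hs').mdifferentiableWithinAt (by simp)) hud
    have h3 : mfderivWithin 𝓘(ℝ, ℝ) 𝓘(ℝ, Cm n) (φ ∘ γ) (Icc 0 1) s 1 =
        mfderiv 𝓘(ℝ, Cm n) 𝓘(ℝ, Cm n) φ (γ s)
          (mfderivWithin 𝓘(ℝ, ℝ) 𝓘(ℝ, Cm n) γ (Icc 0 1) s 1) :=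
      congr($h2 1)
    simp only
    rw [h3]
    set v := mfderivWithin 𝓘(ℝ, ℝ) 𝓘(ℝ, Cm n) γ (Icc 0 1) s 1 with hv
    have h4 : ‖mfderiv 𝓘(ℝ, Cm n) 𝓘(ℝ, Cm n) φ (γ s) v‖ = ‖v‖ := by
      rw [norm_eq_sqrt_real_inner, norm_eq_sqrt_real_inner, h.isom (γ s) v v]
    rw [← ofReal_norm, ← ofReal_norm]
    exact congrArg ENNReal.ofReal h4
  rw [edist_dist, edist_dist] at key
  exact (ENNReal.ofReal_le_ofReal_iff dist_nonneg).1 key

/-- the chart `e ∘ φ⁻¹` -/
def push (h : HolIso n φ) (e : Chart n M) : Chart n M :=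
  Homeomorph.transOpenPartialHomeomorph ⟨φ.symm, h.hol_symm.continuous, h.hol.continuous⟩ e

lemma push_target (h : HolIso n φ) (e : Chart n M) : (push h e).target = e.target := rfl

lemma push_symm (h : HolIso n φ) (e : Chart n M) : ⇑(push h e).symm = φ ∘ e.symm := rfl

lemma hc_push (h : HolIso n φ) {e : Chart n M} (he : Hc e) : Hc (push h e) :=
  (push h e).mem_maximalAtlas_of_contMDiffOn
    ((contMDiffOn_of_mem_maximalAtlas he).comp (contMDiff_complex h.hol_symm).contMDiffOn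
      fun _ hx => hx)
    ((contMDiff_complex h.hol).comp_contMDiffOn (contMDiffOn_symm_of_mem_maximalAtlas he))

lemma metric_push (h : HolIso n φ) {e : Chart n M} (he : Hc e) {z : Cm n} (hz : z ∈ e.target)
    (v w : Cm n) : chartMetric (push h e) z v w = chartMetric e z v w := by
  have h1 : mfderiv 𝓘(ℝ, Cm n) 𝓘(ℝ, Cm n) (φ ∘ e.symm) z =
      (mfderiv 𝓘(ℝ, Cm n) 𝓘(ℝ, Cm n) φ (e.symm z)).comp
        (mfderiv 𝓘(ℝ, Cm n) 𝓘(ℝ, Cm n) e.symm z) :=
    mfderiv_comp z ((contMDiff_real h.hol _).mdifferentiableAt (by simp))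
      ((contMDiffAt_symm_of_mem_maximalAtlas (mem_maximalAtlas_real he) hz).mdifferentiableAt
        (by simp))
  have h2 : ∀ u : Cm n, mfderiv 𝓘(ℝ, Cm n) 𝓘(ℝ, Cm n) (φ ∘ e.symm) z u =
      mfderiv 𝓘(ℝ, Cm n) 𝓘(ℝ, Cm n) φ (e.symm z) (mfderiv 𝓘(ℝ, Cm n) 𝓘(ℝ, Cm n) e.symm z u) :=
    fun u => congr($h1 u)
  show inner ℝ (mfderiv 𝓘(ℝ, Cm n) 𝓘(ℝ, Cm n) (φ ∘ e.symm) z v :
      TangentSpace 𝓘(ℝ, Cm n) (φ (e.symm z)))
    (mfderiv 𝓘(ℝ, Cm n) 𝓘(ℝ, Cm n) (φ ∘ e.symm) z w : TangentSpace 𝓘(ℝ, Cm n) (φ (e.symm z))) = _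
  rw [h2 v, h2 w]
  exact h.isom _ _ _

lemma vd_push (h : HolIso n φ) {e : Chart n M} (he : Hc e) {z : Cm n} (hz : z ∈ e.target) :
    vd (push h e) z = vd e z := by
  simp only [vd, hm, metric_push h he hz]

lemma ricDen_map (a : B1a n M) (b : B1b n M) (h : HolIso n φ) (x : M) :
    ricDen n (φ x) = ricDen n x := by
  have he := a.chart x
  have hx := mem_chart_source (Cm n) x
  generalize chartAt (Cm n) x = e at he hx
  have hz := e.map_source hx
  have h1 := b.ricDen_eq _ (hc_push h he) (e x) hz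
  have h2 := b.ricDen_eq _ he (e x) hz
  have h3 : ric (push h e) (e x) = ric e (e x) := by
    refine Vale.Agent.P272.K.C2.cHess_congr ?_
    filter_upwards [e.open_target.mem_nhds hz] with y hy
    rw [vd_push h he hy]
  rw [h3, vd_push h he hz, ← h2, push_symm, Function.comp_apply, e.left_inv hx] at h1
  exact h1

lemma ricDen_pos (a : B1a n M) (b : B1b n M) (r : B2 n M) (x : M) : 0 < ricDen n x := by
  have hz := (chartAt (Cm n) x).map_source (mem_chart_source (Cm n) x)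
  exact div_pos (Complex.lt_def.1 (r _ (a.chart x) _ hz).det_pos).1 (b.vd_pos _ (a.chart x) _ hz)

end Iso

open Iso in
/-- **ISO** -/
theorem iso (_c : Ctx n μ) (a : B1a n M) (b : B1b n M) (r : B2 n M) (v : B3 n μ) : ISO n μ := by
  intro hfin x
  have hm : Measurable fun y : M => ENNReal.ofReal (ricDen n y) :=
    b.ricDen_cont.measurable.ennreal_ofReal
  have he := a.chart x
  have hx := mem_chart_source (Cm n) x
  generalize chartAt (Cm n) x = e at he hx
  have hS : IsOpen (e.target ∩ e.symm ⁻¹' ball x 1) := e.isOpen_inter_preimage_symm isOpen_ball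
  have hK : e.symm '' (e.target ∩ e.symm ⁻¹' ball x 1) = e.source ∩ ball x 1 := by
    rw [← e.image_source_inter_eq']
    exact e.toPartialEquiv.symm_image_image_of_subset_source inter_subset_left
  have hKo : IsOpen (e.source ∩ ball x 1) := e.open_source.inter isOpen_ball
  have hpos : 0 < ∫⁻ y in e.source ∩ ball x 1, ENNReal.ofReal (ricDen n y) ∂μ := by
    rw [setLIntegral_pos_iff hm]
    have h1 : Function.support (fun y : M => ENNReal.ofReal (ricDen n y)) = univ :=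
      eq_univ_of_forall fun y => (ENNReal.ofReal_pos.2 (ricDen_pos a b r y)).ne'
    rw [h1, univ_inter]
    exact v.pos _ hKo ⟨x, hx, mem_ball_self one_pos⟩
  have htail : Tendsto (fun R : ℕ =>
      μ.withDensity (fun y => ENNReal.ofReal (ricDen n y)) (ball x R)ᶜ) atTop (𝓝 0) := by
    have h1 := tendsto_measure_iInter_atTop
      (μ := μ.withDensity fun y => ENNReal.ofReal (ricDen n y))
      (s := fun R : ℕ => (ball x (R : ℝ))ᶜ)
      (fun R => measurableSet_ball.compl.nullMeasurableSet)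
      (fun R R' hR => compl_subset_compl.2 (ball_subset_ball (by exact_mod_cast hR)))
      ⟨0, by
        rw [withDensity_apply _ measurableSet_ball.compl]
        exact ((setLIntegral_le_lintegral _ _).trans_lt hfin).ne⟩
    rw [← compl_iUnion, iUnion_ball_nat, compl_univ, measure_empty] at h1
    exact h1
  obtain ⟨R, hR⟩ := (htail.eventually (gt_mem_nhds hpos)).exists
  refine ⟨R + 1, fun φ h => ?_⟩
  by_contra hn
  rw [withDensity_apply _ measurableSet_ball.compl] at hR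
  refine hR.not_ge ?_
  have h1 := v.loc _ (hc_push h he) _ hS.measurableSet inter_subset_left _ hm
  have h2 := v.loc _ he _ hS.measurableSet inter_subset_left _ hm
  have h3 : ∫⁻ z in e.target ∩ e.symm ⁻¹' ball x 1,
      ENNReal.ofReal (ricDen n ((push h e).symm z)) * ENNReal.ofReal (vd (push h e) z) =
      ∫⁻ z in e.target ∩ e.symm ⁻¹' ball x 1,
        ENNReal.ofReal (ricDen n (e.symm z)) * ENNReal.ofReal (vd e z) := by
    refine setLIntegral_congr_fun hS.measurableSet fun z hz => ?_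
    simp only [push_symm, Function.comp_apply, ricDen_map a b h, vd_push h he hz.1]
  rw [← hK, h2, ← h3, ← h1]
  refine lintegral_mono_set ?_
  rintro _ ⟨z, hz, rfl⟩ hb
  have h4 := dist_le h (e.symm z) x
  have h5 : dist (e.symm z) x < 1 := hz.2
  have h6 : dist (φ (e.symm z)) x < R := hb
  have h7 := dist_triangle_left (φ x) x (φ (e.symm z))
  exact hn (by linarith)

end Vale.Agent.P253Z
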