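import Vale.Agent.P253Z.Spec

/-!
# P253Z: counting jets
-/

open scoped Topology
open Set Filter Asymptotics
open Vale.Agent.P272.K (Cm)

noncomputable section

namespace Vale.Agent.P253Z

namespace JET

variable {n k : ℕ}

/-- the monomials of degree less than `k` in each variable -/
def mon (α : Fin n → Fin k) (z : Cm n) : ℂ := ∏ l, z l ^ (α l : ℕ)

variable (n k) in
/-- the functions which vanish to order `k` -/
def van : Submodule ℂ (Cm n → ℂ) where
  carrier := {f | f =O[𝓝 0] fun z => ‖z‖ ^ k}
  zero_mem' := isBigO_zero _ _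
  add_mem' := fun ha hb => IsBigO.add ha hb
  smul_mem' := fun c _ ha => IsBigO.const_mul_left ha c

theorem diag_mem {j : ℕ} (hj : j < k) (L : ContinuousMultilinearMap ℂ (fun _ : Fin j => Cm n) ℂ) :
    (fun z => L fun _ => z) ∈ Submodule.span ℂ (range (mon (n := n) (k := k))) := by
  classical
  have lt : ∀ (f : Fin j → Fin n) (l : Fin n), (Finset.univ.filter fun i => f i = l).card < k :=
    fun f l => (Finset.card_le_univ _).trans_lt (by simpa using hj)
  have h : (fun z => L fun _ => z) =
      ∑ f : Fin j → Fin n, L (fun i => Pi.single (f i) 1) • mon fun l => ⟨_, lt f l⟩ := by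
    funext z
    have h1 : (fun _ : Fin j => z) = fun _ => ∑ l, z l • (Pi.single l 1 : Cm n) := by
      funext _
      exact pi_eq_sum_univ' z
    rw [h1, L.map_sum, Finset.sum_apply]
    refine Finset.sum_congr rfl fun f _ => ?_
    rw [L.map_smul_univ, Pi.smul_apply, smul_eq_mul, smul_eq_mul, mul_comm, mon,
      ← Finset.prod_fiberwise Finset.univ f fun i => z (f i)]
    congr 1
    refine Finset.prod_congr rfl fun l _ => ?_
    rw [Finset.prod_congr rfl fun i hi => congrArg z (Finset.mem_filter.1 hi).2, Finset.prod_const]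
  rw [h]
  exact Submodule.sum_mem _ fun f _ => Submodule.smul_mem _ _ (Submodule.subset_span ⟨_, rfl⟩)

theorem taylor {f : Cm n → ℂ} (hf : AnalyticAt ℂ f 0) :
    ∃ g ∈ Submodule.span ℂ (range (mon (n := n) (k := k))), f - g ∈ van n k := by
  obtain ⟨p, hp⟩ := hf
  refine ⟨∑ j ∈ Finset.range k, fun z => p j fun _ => z,
    Submodule.sum_mem _ fun j hj => diag_mem (Finset.mem_range.1 hj) _, ?_⟩
  refine (hp.isBigO_sub_partialSum_pow k).congr_left fun z => ?_
  simp [FormalMultilinearSeries.partialSum]

end JET

open JET in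
theorem jet : JET := by
  intro n k V _ _ T h1 h2
  let W := Submodule.span ℂ (range fun α : Fin n → Fin k => (van n k).mkQ (mon α))
  have : Module.Finite ℂ W := Module.Finite.span_of_finite ℂ (finite_range _)
  have hW : ∀ v, ((van n k).mkQ ∘ₗ T) v ∈ W := fun v => by
    obtain ⟨g, g1, g2⟩ := taylor (k := k) (h1 v)
    have h3 : ((van n k).mkQ ∘ₗ T) v = (van n k).mkQ g := (Submodule.Quotient.eq _).2 g2
    have h4 := Submodule.mem_map_of_mem (f := (van n k).mkQ) g1
    rw [Submodule.map_span, ← range_comp] at h4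
    exact h3 ▸ h4
  have hi : Function.Injective (((van n k).mkQ ∘ₗ T).codRestrict W hW) := by
    rw [injective_iff_map_eq_zero]
    intro v hv
    exact h2 v ((Submodule.Quotient.mk_eq_zero _).1 (congrArg Subtype.val hv))
  refine ⟨Module.Finite.of_injective _ hi, (LinearMap.finrank_le_finrank_of_injective hi).trans
    ((finrank_range_le_card _).trans (by simp))⟩

end Vale.Agent.P253Z
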