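import Vale.Agent.P253Z.Spec

/-!
# P253Z, block MV: the mean value inequality by point picking
-/

open scoped Manifold ContDiff Bundle ENNReal Topology ComplexConjugate ComplexOrder
open Bundle IsManifold MeasureTheory Set Metric Filter Vale.Agent.P253.Mfd
open Vale.Agent.P272.K (Cm dz dzb cHess jacM Chart)

set_option linter.unusedSectionVars false

noncomputable section

namespace Vale.Agent.P253Z

namespace MVa

variable {X : Type} [MetricSpace X] [ProperSpace X]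

/-- point picking -/
theorem pick {g : X → ℝ} (hg : Continuous g) (h0 : ∀ y, 0 ≤ g y) (m : ℕ) (x : X) {r q : ℝ}
    (hr : 0 < r) (hq : 0 < q) (hq1 : q ≤ 1) (hx : 0 < g x) :
    ∃ (y₀ : X) (ρ : ℝ), 0 < ρ ∧ dist y₀ x + ρ = r ∧ g x ^ q * r ^ m ≤ g y₀ ^ q * ρ ^ m ∧
      ∀ y ∈ ball y₀ (q * ρ / 2), g y ≤ Real.exp (m + 1) * g y₀ := by
  have hc : Continuous fun y => g y ^ q * (r - dist y x) ^ (m + 1) :=
    (hg.rpow_const fun _ => Or.inr hq.le).mul
      ((continuous_const.sub (continuous_id.dist continuous_const)).pow _)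
  obtain ⟨y₀, hy₀, hmax⟩ := (isCompact_closedBall x r).exists_isMaxOn
    ⟨x, mem_closedBall_self hr.le⟩ hc.continuousOn
  have h1 : g x ^ q * (r - dist x x) ^ (m + 1) ≤ g y₀ ^ q * (r - dist y₀ x) ^ (m + 1) :=
    hmax (mem_closedBall_self hr.le)
  rw [dist_self, sub_zero] at h1
  have hp : ∀ y, 0 ≤ g y ^ q := fun y => Real.rpow_nonneg (h0 y) q
  have h2 : 0 < g x ^ q := Real.rpow_pos_of_pos hx q
  have h3 : 0 ≤ r - dist y₀ x := sub_nonneg.2 (mem_closedBall.1 hy₀)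
  set ρ := r - dist y₀ x with hρ
  have h4 : 0 < ρ := by
    refine h3.lt_of_ne fun h => ?_
    rw [← h, zero_pow (Nat.succ_ne_zero m), mul_zero] at h1
    exact absurd h1 (not_le.2 (by positivity))
  have h5 : ρ ≤ r := sub_le_self _ dist_nonneg
  refine ⟨y₀, ρ, h4, by rw [hρ]; ring, ?_, fun y hy => ?_⟩
  · refine le_of_mul_le_mul_right ?_ hr
    rw [mul_assoc, ← pow_succ, mul_assoc]
    refine h1.trans (mul_le_mul_of_nonneg_left ?_ (hp _))
    rw [pow_succ]
    exact mul_le_mul_of_nonneg_left h5 (by positivity)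
  · have h6 : (1 - q / 2) * ρ ≤ r - dist y x := by
      have := dist_triangle y y₀ x
      have := mem_ball.1 hy
      linarith
    have h7 : 0 ≤ 1 - q / 2 := by linarith
    have h8 : g y ^ q * (r - dist y x) ^ (m + 1) ≤ g y₀ ^ q * ρ ^ (m + 1) :=
      hmax (mem_closedBall.2 (by nlinarith))
    have h9 : g y ^ q * (1 - q / 2) ^ (m + 1) ≤ g y₀ ^ q := by
      refine le_of_mul_le_mul_right ?_ (pow_pos h4 (m + 1))
      rw [mul_assoc, ← mul_pow]
      exact le_trans (mul_le_mul_of_nonneg_left (pow_le_pow_left₀ (by positivity) h6 _) (hp y)) h8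
    have h10 : 1 ≤ (Real.exp q * (1 - q / 2)) ^ (m + 1) :=
      one_le_pow₀ (by nlinarith [Real.add_one_le_exp q])
    refine (Real.rpow_le_rpow_iff (h0 y) (mul_nonneg (Real.exp_pos _).le (h0 y₀)) hq).1 ?_
    rw [Real.mul_rpow (Real.exp_pos _).le (h0 y₀), ← Real.exp_mul, ← Nat.cast_succ,
      Real.exp_nat_mul]
    calc g y ^ q ≤ g y ^ q * (Real.exp q * (1 - q / 2)) ^ (m + 1) :=
          le_mul_of_one_le_right (hp y) h10
      _ = Real.exp q ^ (m + 1) * (g y ^ q * (1 - q / 2) ^ (m + 1)) := by rw [mul_pow]; ring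
      _ ≤ _ := mul_le_mul_of_nonneg_left h9 (by positivity)

theorem main [MeasurableSpace X] [BorelSpace X] {μ : Measure X} {m : ℕ} {C B : ℝ} (hC : 0 < C)
    (hB0 : 0 ≤ B) (hfin : ∀ K, IsCompact K → μ K < ⊤)
    (hB : ∀ (x : X) (s t : ℝ), 0 < s → s ≤ t →
      μ.real (ball x t) ≤ B * (t / s) ^ m * μ.real (ball x s))
    {f : X → ℂ} (hf : Continuous f)
    (hS : ∀ (x : X) (r A : ℝ), 0 < r → (∀ y ∈ ball x r, ‖f y‖ ≤ A) →
      ∀ y ∈ ball x (r / 2), ‖f y - f x‖ ≤ C * A * dist y x / r)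
    (x : X) {r q : ℝ} (hr : 0 < r) (hq : 0 < q) (hq1 : q ≤ 1) :
    ENNReal.ofReal (‖f x‖ ^ q) * μ (ball x r) ≤
      ENNReal.ofReal (2 * B * (8 * (C * Real.exp (m + 1) + 1)) ^ m * (1 / q) ^ m) *
        ∫⁻ y in ball x r, ENNReal.ofReal (‖f y‖ ^ q) ∂μ := by
  rcases (norm_nonneg (f x)).eq_or_lt with hx | hx
  · rw [← hx, Real.zero_rpow hq.ne', ENNReal.ofReal_zero, zero_mul]
    exact zero_le
  obtain ⟨y₀, ρ, hρ, h1, h2, h3⟩ := pick hf.norm (fun y => norm_nonneg _) m x hr hq hq1 hx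
  set E := C * Real.exp (m + 1) with hE
  have hE0 : 0 < E := by positivity
  set s := q * ρ / (4 * (E + 1)) with hs
  have hs0 : 0 < s := by positivity
  have hs1 : s * (E + 1) = q * ρ / 4 := by
    rw [hs]
    field_simp
  have hs2 : s ≤ q * ρ / 2 / 2 := by nlinarith
  have hd := dist_nonneg (x := y₀) (y := x)
  have hs3 : s ≤ ρ := by nlinarith
  have h4 : ∀ y ∈ ball y₀ s, ‖f y₀‖ ^ q / 2 ≤ ‖f y‖ ^ q := by
    intro y hy
    have h5 := hS y₀ _ _ (by positivity) h3 y (ball_subset_ball hs2 hy)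
    have h6 : ‖f y - f y₀‖ ≤ ‖f y₀‖ / 2 := by
      refine h5.trans ?_
      rw [div_le_iff₀ (by positivity), ← mul_assoc, ← hE]
      have h7 : E * dist y y₀ ≤ q * ρ / 4 := by nlinarith [mem_ball.1 hy]
      nlinarith [mul_le_mul_of_nonneg_left h7 (norm_nonneg (f y₀))]
    have h7 : ‖f y₀‖ / 2 ≤ ‖f y‖ := by
      have := norm_sub_norm_le (f y₀) (f y)
      rw [norm_sub_rev] at this
      linarith
    refine le_trans ?_ (Real.rpow_le_rpow (by positivity) h7 hq.le)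
    rw [Real.div_rpow (norm_nonneg _) zero_le_two]
    refine div_le_div_of_nonneg_left (by positivity) (by positivity) ?_
    exact (Real.rpow_le_rpow_of_exponent_le one_le_two hq1).trans_eq (Real.rpow_one 2)
  have hne : ∀ (z : X) (t : ℝ), μ (ball z t) ≠ ⊤ := fun z t =>
    ((measure_mono ball_subset_closedBall).trans_lt (hfin _ (isCompact_closedBall z t))).ne
  have h5 : μ.real (ball x r) ≤ B * (2 * r / s) ^ m * μ.real (ball y₀ s) :=
    (measureReal_mono (ball_subset_ball' (by rw [dist_comm]; linarith)) (hne _ _)).trans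
      (hB y₀ s (2 * r) hs0 (by linarith))
  have h6 : ‖f x‖ ^ q * μ.real (ball x r) ≤ 2 * B * (8 * (E + 1)) ^ m * (1 / q) ^ m *
      (‖f y₀‖ ^ q / 2 * μ.real (ball y₀ s)) := by
    have h7 : (8 * (E + 1)) ^ m * (1 / q) ^ m = ρ ^ m * (2 / s) ^ m := by
      rw [← mul_pow, ← mul_pow, hs]
      congr 1
      field_simp
      ring
    have h8 : 0 ≤ μ.real (ball y₀ s) := measureReal_nonneg
    calc ‖f x‖ ^ q * μ.real (ball x r)
        ≤ ‖f x‖ ^ q * (B * (2 * r / s) ^ m * μ.real (ball y₀ s)) :=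
          mul_le_mul_of_nonneg_left h5 (by positivity)
      _ = ‖f x‖ ^ q * r ^ m * (B * (2 / s) ^ m * μ.real (ball y₀ s)) := by
          rw [show 2 * r / s = r * (2 / s) by ring, mul_pow]
          ring
      _ ≤ ‖f y₀‖ ^ q * ρ ^ m * (B * (2 / s) ^ m * μ.real (ball y₀ s)) :=
          mul_le_mul_of_nonneg_right h2 (by positivity)
      _ = _ := by
          rw [mul_assoc (2 * B), h7]
          ring
  have h7 : ENNReal.ofReal (‖f y₀‖ ^ q / 2) * μ (ball y₀ s) ≤
      ∫⁻ y in ball x r, ENNReal.ofReal (‖f y‖ ^ q) ∂μ := by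
    rw [← setLIntegral_const]
    exact (setLIntegral_mono' measurableSet_ball fun y hy =>
      ENNReal.ofReal_le_ofReal (h4 y hy)).trans (lintegral_mono_set (ball_subset_ball' (by linarith)))
  refine le_trans ?_ (mul_le_mul_right h7 _)
  rw [← ofReal_measureReal (hne x r), ← ofReal_measureReal (hne y₀ s),
    ← ENNReal.ofReal_mul (by positivity), ← ENNReal.ofReal_mul (by positivity),
    ← ENNReal.ofReal_mul (by positivity)]
  exact ENNReal.ofReal_le_ofReal h6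

end MVa

variable {n : ℕ} {M : Type} [MetricSpace M] [ChartedSpace (Cm n) M]
  [IsManifold 𝓘(ℂ, Cm n) 1 M] [IsManifold 𝓘(ℝ, Cm n) ∞ M]
  [RiemannianBundle (fun x : M => TangentSpace 𝓘(ℝ, Cm n) x)]
  [IsContMDiffRiemannianBundle 𝓘(ℝ, Cm n) ∞ (Cm n) (fun x : M => TangentSpace 𝓘(ℝ, Cm n) x)]
  [IsRiemannianManifold 𝓘(ℝ, Cm n) M] [CompleteSpace M] [ConnectedSpace M] [NoncompactSpace M]
  [MeasurableSpace M] [BorelSpace M] {μ : Measure M}

theorem mv (a : B1a n M) (v : B3 n μ) (h1 : SCH n M) (h2 : BG n μ) : MV n μ := by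
  obtain ⟨C, hC, h1⟩ := h1
  obtain ⟨B, hB, h2⟩ := h2
  have := properSpace_riemannian (Cm n) M
  refine ⟨2 * B * (8 * (C * Real.exp ((2 * n : ℕ) + 1) + 1)) ^ (2 * n), by positivity,
    fun f hf x r q hr hq hq1 => ?_⟩
  exact MVa.main hC (by linarith) v.fin h2 ((a.sec_zero f).1 hf).continuous (h1 f hf) x hr hq hq1

end Vale.Agent.P253Z
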