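import Vale.Agent.P253Z.B2
import Vale.Agent.P272.K.N.Det

/-!
# P253Z, block PK1: peak sections
-/

open scoped Manifold ContDiff Bundle ENNReal Topology ComplexConjugate ComplexOrder Matrix
open Bundle IsManifold MeasureTheory Set Metric Filter Vale.Agent.P253.Mfd
open Vale.Agent.P272.K (Cm dz dzb cHess jacM Chart)
open Vale.Agent.P272.K.C2
open Vale.Agent.P253.R2.H451 (levi2)
open Complex (I)

noncomputable section

namespace Vale.Agent.P253Z

namespace PK1A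

open B2A

variable {n : ℕ}

/-- the Levi polynomial -/
theorem exists_poly {φ : Cm n → ℝ} {V : Set (Cm n)} (hV : IsOpen V) (h0 : 0 ∈ V)
    (hφ : ContDiffOn ℝ 2 φ V) : ∃ P : Cm n → ℂ, (∀ z, AnalyticAt ℂ P z) ∧ ∃ δ > 0, ∀ z : Cm n,
      ‖z‖ ≤ δ → |φ z - 2 * (P z).re - levi2 φ 0 z / 4| ≤ ‖z‖ ^ 2 := by
  obtain ⟨δ, hδ, H⟩ := uniform_taylor hV isCompact_singleton (singleton_subset_iff.2 h0) hφ one_pos
  obtain ⟨l, hl⟩ : ∃ l, l = fderiv ℝ φ 0 := ⟨_, rfl⟩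
  obtain ⟨B, hB⟩ : ∃ B, B = fderiv ℝ (fderiv ℝ φ) 0 := ⟨_, rfl⟩
  let c : (Cm n →L[ℝ] ℝ) → Fin n → ℂ := fun f k =>
    (f (Pi.single k 1) : ℂ) - I * (f (Pi.single k I) : ℂ)
  have hc : ∀ (f : Cm n →L[ℝ] ℝ) z, ∑ k, z k * c f k = (f z : ℂ) - I * (f (I • z) : ℂ) :=
    fun f z => cplx (Complex.ofRealCLM.comp f) z
  refine ⟨fun z => (φ 0 : ℂ) / 2 + (∑ k, z k * c l k) / 2 +
    (∑ j, z j * (∑ k, z k * c (B (Pi.single j 1)) k -
      I * ∑ k, z k * c (B (Pi.single j I)) k)) / 8, fun z => ?_, δ, hδ, fun z hz => ?_⟩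
  · refine ContDiffAt.analyticAt (ContDiff.contDiffAt ?_)
    fun_prop
  · have h1 := (H 0 rfl z hz).2
    have h2 := cplx (Complex.ofRealCLM.comp (B.flip z) -
      I • Complex.ofRealCLM.comp (B.flip (I • z))) z
    simp only [sub_apply, smul_apply, ContinuousLinearMap.comp_apply,
      ContinuousLinearMap.flip_apply, Complex.ofRealCLM_apply, smul_eq_mul] at h2
    rw [zero_add, one_mul, ← hl, ← hB] at h1
    simp only [hc, h2, levi2, ← hB]
    refine le_of_eq_of_le (congrArg _ ?_) h1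
    simp
    ring

theorem levi_le (w : Cm n) : |(∑ j, ∑ k, (1 : Matrix (Fin n) (Fin n) ℂ) j k *
    (w j * conj (w k))).re| ≤ n * ‖w‖ ^ 2 := by
  have e : ∑ j, ∑ k, (1 : Matrix (Fin n) (Fin n) ℂ) j k * (w j * conj (w k)) =
      ((∑ j, ‖w j‖ ^ 2 : ℝ) : ℂ) := by
    simp [Matrix.one_apply, Complex.mul_conj']
  rw [e, Complex.ofReal_re, abs_of_nonneg (by positivity)]
  calc ∑ j, ‖w j‖ ^ 2 ≤ ∑ _j : Fin n, ‖w‖ ^ 2 :=
        Finset.sum_le_sum fun j _ => pow_le_pow_left₀ (norm_nonneg _) (norm_le_pi_norm w j) 2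
    _ = _ := by simp

variable {M : Type} [MetricSpace M] [ChartedSpace (Cm n) M]
  [RiemannianBundle (fun x : M => TangentSpace 𝓘(ℝ, Cm n) x)]

/-- a chart centred at `x` in which the Ricci form at `x` is the unit matrix -/
theorem exists_normal (a : B1a n M) (b : B1b n M) (r : B2 n M) (x : M) :
    ∃ e : Chart n M, Hc e ∧ x ∈ e.source ∧ e x = 0 ∧ ric e 0 = 1 := by
  have hx := mem_chart_source (Cm n) x
  have hR := r _ (a.chart x) _ (mem_chart_target (Cm n) x)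
  obtain ⟨C, hC⟩ := exists_factor hR.posSemidef
  have hu : IsUnit C.det := by
    rw [isUnit_iff_ne_zero]
    intro h
    apply posDef_det_ne_zero hR
    rw [hC, Matrix.det_mul, h, mul_zero]
  have hu' : IsUnit Cᴴ.det := by rw [Matrix.det_conjTranspose]; exact hu.star
  have hu'' : IsUnit Cᴴᵀ.det := by rwa [Matrix.det_transpose]
  obtain ⟨e, he, h1, -, h2, -, h3⟩ := a.aff _ (a.chart x)
    (Matrix.toLinearEquiv' Cᴴᵀ (Matrix.invertibleOfIsUnitDet _ hu'')).toContinuousLinearEquiv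
    (chartAt (Cm n) x x)
  have h4 : e x = 0 := by rw [h2, sub_self, map_zero]
  refine ⟨e, he, h1 ▸ hx, h4, ?_⟩
  have h5 := b.ric_ch _ e (a.chart x) he x hx (h1 ▸ hx)
  have h6 : jacM (chartAt (Cm n) x) e x = Cᴴᵀ := (h3 x hx).trans (LinearMap.toMatrix'_toLin' _)
  have h7 : (Cᴴᵀ).map (starRingEnd ℂ) = C := by ext i j; simp
  rw [h6, h4, hC, pb, Matrix.transpose_transpose, h7] at h5
  calc ric e 0 = (Cᴴ⁻¹ * Cᴴ) * ric e 0 * (C * C⁻¹) := by
        rw [Matrix.nonsing_inv_mul _ hu', Matrix.mul_nonsing_inv _ hu, Matrix.one_mul,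
          Matrix.mul_one]
    _ = Cᴴ⁻¹ * (Cᴴ * ric e 0 * C) * C⁻¹ := by simp only [Matrix.mul_assoc]
    _ = (Cᴴ⁻¹ * Cᴴ) * (C * C⁻¹) := by rw [← h5]; simp only [Matrix.mul_assoc]
    _ = 1 := by rw [Matrix.nonsing_inv_mul _ hu', Matrix.mul_nonsing_inv _ hu, Matrix.one_mul]

/-- the rescaled chart -/
theorem exists_scaled (a : B1a n M) (b : B1b n M) {e : Chart n M} (he : Hc e) {ρ : ℝ}
    (hρ : 0 < ρ) : ∃ e' : Chart n M, Hc e' ∧ ∀ z, (ρ : ℂ) • z ∈ e.target → z ∈ e'.target ∧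
      e'.symm z = e.symm ((ρ : ℂ) • z) ∧ vd e' z = ρ ^ (2 * n) * vd e ((ρ : ℂ) • z) ∧
      ric e' z = ((ρ ^ 2 : ℝ) : ℂ) • ric e ((ρ : ℂ) • z) := by
  have h0 : (ρ : ℂ) ≠ 0 := by exact_mod_cast hρ.ne'
  obtain ⟨L, hL⟩ : ∃ L : Cm n ≃L[ℂ] Cm n, ∀ z, L z = (ρ : ℂ)⁻¹ • z :=
    ⟨(LinearEquiv.smulOfNeZero ℂ (Cm n) _ (inv_ne_zero h0)).toContinuousLinearEquiv, fun _ => rfl⟩
  have hL' : ∀ z, L.symm z + 0 = (ρ : ℂ) • z := fun z => by
    rw [add_zero, L.symm_apply_eq, hL, smul_smul, inv_mul_cancel₀ h0, one_smul]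
  have hM : LinearMap.toMatrix' (L : Cm n →ₗ[ℂ] Cm n) = (ρ : ℂ)⁻¹ • 1 := by
    ext i j
    simp [hL, Matrix.one_apply, Pi.single_apply]
  obtain ⟨e', he', h1, h2, -, h3, h4⟩ := a.aff e he L 0
  refine ⟨e', he', fun z hz => ?_⟩
  have hz' : z ∈ e'.target := by rw [h2, mem_ofPred_eq, hL']; exact hz
  have hs : e'.symm z = e.symm ((ρ : ℂ) • z) := by rw [h3, hL']
  have hx := e.map_target hz
  have k1 := b.vd_ch e e' he he' _ hx (h1 ▸ hx)
  have k2 := b.ric_ch e e' he he' _ hx (h1 ▸ hx)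
  rw [h4 _ hx, hM, e.right_inv hz, ← hs, e'.right_inv hz'] at k1 k2
  refine ⟨hz', hs, ?_, ?_⟩
  · rw [k1, Matrix.det_smul, Matrix.det_one, mul_one, Fintype.card_fin, norm_pow, norm_inv,
      Complex.norm_real, Real.norm_of_nonneg hρ.le, ← pow_mul, ← mul_assoc, mul_comm n 2,
      ← mul_pow, mul_inv_cancel₀ hρ.ne', one_pow, one_mul]
  · have e1 : (((ρ : ℂ)⁻¹ • (1 : Matrix (Fin n) (Fin n) ℂ))).map (starRingEnd ℂ) =
        (ρ : ℂ)⁻¹ • 1 := by
      ext i j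
      by_cases h : i = j <;> simp [h]
    rw [k2, pb, e1, Matrix.transpose_smul, Matrix.transpose_one, Matrix.smul_mul, Matrix.one_mul,
      Matrix.mul_smul, Matrix.mul_one, smul_smul, smul_smul]
    have e2 : ((ρ ^ 2 : ℝ) : ℂ) * (ρ : ℂ)⁻¹ * (ρ : ℂ)⁻¹ = 1 := by
      push_cast
      field_simp
    rw [e2, one_smul]

/-- the data near the centre of a normal chart -/
theorem exists_near (b : B1b n M) {e : Chart n M} (he : Hc e) (h0 : 0 ∈ e.target)
    (h1 : ric e 0 = 1) : ∃ P : Cm n → ℂ, (∀ z, AnalyticAt ℂ P z) ∧ ∃ δ > 0, ∀ z : Cm n,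
      ‖z‖ ≤ δ → z ∈ e.target ∧ (ric e z - (1 / 2 : ℂ) • 1).PosDef ∧
      |2 * (P z).re + Real.log (vd e z)| ≤ (n + 1) * ‖z‖ ^ 2 := by
  have hs : ∀ z ∈ e.target, ContDiffAt ℝ 2 (fun y => -Real.log (vd e y)) z := fun z hz =>
    (((b.vd_sm e he z hz).of_le two_le).log (b.vd_pos e he z hz).ne').neg
  obtain ⟨P, hP, δ, hδ, H⟩ := exists_poly e.open_target h0 fun z hz => (hs z hz).contDiffWithinAt
  have hp : ((1 / 2 : ℂ) • (1 : Matrix (Fin n) (Fin n) ℂ)).PosDef :=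
    Matrix.PosDef.one.smul (by norm_num [Complex.pos_iff])
  obtain ⟨ε, hε, hn⟩ := P272.K.N.posDef_of_near hp
  have h2 : ∀ᶠ z in 𝓝 (0 : Cm n), ∀ i j, ‖ric e z i j - ric e 0 i j‖ ≤ ε := by
    refine eventually_all.2 fun i => eventually_all.2 fun j => ?_
    have := (contDiffAt_cHess (m := 0) (hs 0 h0) (by norm_num) i j).continuousAt
    filter_upwards [this.eventually (closedBall_mem_nhds _ hε)] with z hz
    exact mem_closedBall_iff_norm.1 hz
  obtain ⟨δ', hδ', H'⟩ := nhds_basis_closedBall.eventually_iff.1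
    (h2.and (e.open_target.mem_nhds h0))
  refine ⟨P, hP, min δ δ', lt_min hδ hδ', fun z hz => ?_⟩
  obtain ⟨h3, h4⟩ := H' (mem_closedBall_zero_iff.2 (hz.trans (min_le_right _ _)))
  refine ⟨h4, hn _ ((cHess_isHermitian (hs z h4)).sub hp.isHermitian) fun i j => ?_, ?_⟩
  · refine le_of_eq_of_le (congrArg _ ?_) (h3 i j)
    rw [h1]
    simp only [Matrix.sub_apply, Matrix.smul_apply, smul_eq_mul]
    ring
  · have h5 := abs_le.1 (H z (hz.trans (min_le_left _ _)))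
    have h6 := abs_le.1 (levi_le z)
    have h7 := b.levi _ 0 z (hs 0 h0)
    rw [show cHess (fun y => -Real.log (vd e y)) 0 = 1 from h1] at h7
    rw [abs_le]
    constructor <;> linarith [h5.1, h5.2, h6.1, h6.2]

end PK1A

open PK1A

variable {n : ℕ} {M : Type} [MetricSpace M] [ChartedSpace (Cm n) M]
  [RiemannianBundle (fun x : M => TangentSpace 𝓘(ℝ, Cm n) x)]
  [MeasurableSpace M] {μ : Measure M}

theorem pk1 (a : B1a n M) (b : B1b n M) (r : B2 n M) (h : HJ n μ) : PK1 n μ := by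
  obtain ⟨Λ, hΛ, h⟩ := h
  obtain ⟨C, δ₁, hC, hδ₁, -, h⟩ := h 1 (8 * Λ * (n + 1)) (1 / 2) (by norm_num)
  refine ⟨Real.exp (-(8 * Λ * (n + 1))) / (4 * C * (2 * Λ) ^ n), by positivity, fun x => ?_⟩
  obtain ⟨e, he, hx, hx0, h1⟩ := exists_normal a b r x
  have h0 : 0 ∈ e.target := hx0 ▸ e.map_source hx
  have hs0 : e.symm 0 = x := by rw [← hx0, e.left_inv hx]
  obtain ⟨P, hP, δ, hδ, H⟩ := exists_near b he h0 h1
  filter_upwards [tendsto_natCast_atTop_atTop.eventually_ge_atTop (8 * Λ / δ ^ 2)] with m hm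
  have hm1 : (0 : ℝ) < m + 1 := by positivity
  obtain ⟨ρ, hρ, hρ2⟩ : ∃ ρ : ℝ, 0 < ρ ∧ (m + 1) * ρ ^ 2 = 2 * Λ :=
    ⟨√(2 * Λ / (m + 1)), by positivity, by
      rw [Real.sq_sqrt (by positivity)]
      field_simp⟩
  have hρδ : ρ * 2 ≤ δ := by
    refine le_of_pow_le_pow_left₀ two_ne_zero hδ.le ?_
    rw [div_le_iff₀ (by positivity)] at hm
    refine le_of_mul_le_mul_left ?_ hm1
    nlinarith [sq_nonneg δ]
  obtain ⟨e', he', H'⟩ := exists_scaled a b he hρ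
  have hn : ∀ z ∈ closedBall (0 : Cm n) 2, ‖(ρ : ℂ) • z‖ ≤ ρ * 2 := fun z hz => by
    rw [norm_smul, Complex.norm_real, Real.norm_of_nonneg hρ.le]
    exact mul_le_mul_of_nonneg_left (mem_closedBall_zero_iff.1 hz) hρ.le
  have hsm : Sm n (fun _ : M => (0 : ℝ)) := fun _ _ _ _ => contDiffAt_const
  have hth : ∀ e : Chart n M, Hc e → ∀ z ∈ e.target,
      th (-m) (fun _ => 0) e z = ((m + 1 : ℝ) : ℂ) • ric e z := fun e he z hz => by
    rw [b.th_eq _ _ hsm e he z hz, cHess_const, add_zero]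
    congr 2
    push_cast
    ring
  have hB : ∀ z ∈ closedBall (0 : Cm n) 2,
      |Real.log (‖Complex.exp ((m + 1 : ℝ) * (P ((ρ : ℂ) • z) - (n * Real.log ρ : ℝ)))‖ ^ 2) -
        wt (-m) (fun _ => 0) e' z| ≤ 8 * Λ * (n + 1) := fun z hz => by
    obtain ⟨k1, -, k2⟩ := H _ ((hn z hz).trans hρδ)
    have k3 : ‖(ρ : ℂ) • z‖ ^ 2 ≤ (ρ * 2) ^ 2 := pow_le_pow_left₀ (norm_nonneg _) (hn z hz) 2
    rw [Real.log_pow, Complex.norm_exp, Real.log_exp, wt, (H' z k1).2.2.1,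
      Real.log_mul (by positivity) (b.vd_pos e he _ k1).ne', Real.log_pow, Complex.re_ofReal_mul,
      Complex.sub_re, Complex.ofReal_re]
    calc _ = |(m + 1) * (2 * (P ((ρ : ℂ) • z)).re + Real.log (vd e ((ρ : ℂ) • z)))| := by
          congr 1
          push_cast
          ring
      _ ≤ (m + 1) * ((n + 1) * (ρ * 2) ^ 2) := by
          rw [abs_mul, abs_of_pos hm1]
          exact mul_le_mul_of_nonneg_left
            (k2.trans (mul_le_mul_of_nonneg_left k3 (by positivity))) hm1.le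
      _ = _ := by linear_combination 4 * (n + 1) * hρ2
  obtain ⟨s, hs, hL, hj⟩ := h (-m) (fun _ => 0) hsm
    (fun e he z hz => by
      rw [hth e he z hz]
      exact (r e he z hz).posSemidef.smul (by exact_mod_cast hm1.le))
    (fun _ => e')
    (fun _ z => Complex.exp ((m + 1 : ℝ) * (P ((ρ : ℂ) • z) - (n * Real.log ρ : ℝ))))
    (fun _ _ => 1) (fun _ => he') (fun _ z hz => (H' z (H _ ((hn z hz).trans hρδ)).1).1)
    (fun i j hij => (hij (Subsingleton.elim i j)).elim)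
    (fun _ z hz => by
      obtain ⟨k1, k2, -⟩ := H _ ((hn z hz).trans hρδ)
      refine ⟨?_, ?_, analyticAt_const, Complex.exp_ne_zero _, by norm_num, hB z hz⟩
      · have k3 := k2.posSemidef.smul (a := ((2 * Λ : ℝ) : ℂ)) (by exact_mod_cast (by positivity))
        rw [hth e' he' z (H' z k1).1, (H' z k1).2.2.2, smul_smul, ← Complex.ofReal_mul, hρ2]
        rw [smul_sub, smul_smul] at k3
        convert k3 using 3
        push_cast
        ring
      · exact (analyticAt_const.mul (((hP _).comp (f := fun z : Cm n => (ρ : ℂ) • z)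
          (analyticAt_id.const_smul (c := (ρ : ℂ)))).sub analyticAt_const)).cexp)
  have hnrm : ∀ y, nrm n (-m) (fun y => ((√C)⁻¹ : ℝ) * s y) y = C⁻¹ * nrm n (-m) s y := fun y => by
    rw [nrm, nrm, norm_mul, mul_pow, Complex.norm_real, Real.norm_eq_abs, sq_abs, inv_pow,
      Real.sq_sqrt hC.le, mul_assoc]
  refine ⟨fun y => ((√C)⁻¹ : ℝ) * s y, fun e he z hz => ?_, ?_, ?_⟩
  · refine ((analyticAt_const (v := (((√C)⁻¹ : ℝ) : ℂ))).mul (hs e he z hz)).congr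
      (Eventually.of_forall fun y => ?_)
    simp only [co, Pi.mul_apply]
    ring
  · simp only [hnrm, ENNReal.ofReal_mul (inv_pos.2 hC).le]
    rw [lintegral_const_mul' _ _ ENNReal.ofReal_ne_top]
    simp only [L2, neg_zero, Real.exp_zero, mul_one] at hL
    refine (mul_le_mul_right hL _).trans_eq ?_
    rw [← ENNReal.ofReal_mul (inv_pos.2 hC).le, inv_mul_cancel₀ hC.ne', ENNReal.ofReal_one]
  · obtain ⟨k1, k2, k3, -⟩ := H' 0 (by rwa [smul_zero])
    rw [smul_zero] at k2 k3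
    have k4 := (hj 0).1 0 (mem_closedBall_self hδ₁.le)
    have k5 := (abs_le.1 (hB 0 (mem_closedBall_self zero_le_two))).1
    have k6 := b.nrm_eq (-m) s e' he' 0 k1
    have k7 := b.ricDen_eq e he 0 h0
    have v0 := b.vd_pos e he 0 h0
    have v1 := b.vd_pos e' he' 0 k1
    rw [k2, hs0, neg_neg, zpow_natCast] at k6
    rw [hs0, h1, Matrix.det_one, Complex.one_re] at k7
    obtain ⟨w, hw⟩ : ∃ w, w =
      Complex.exp ((m + 1 : ℝ) * (P ((ρ : ℂ) • (0 : Cm n)) - (n * Real.log ρ : ℝ))) := ⟨_, rfl⟩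
    have hw0 : 0 < ‖w‖ := by rw [hw]; exact norm_pos_iff.2 (Complex.exp_ne_zero _)
    rw [← hw] at k4 k5
    have l1 : ‖w‖ / 2 ≤ ‖co (-m) s e' 0‖ := by
      have := norm_sub_norm_le (1 : ℂ) (co (-m) s e' 0 / w)
      rw [norm_sub_rev, norm_one, norm_div] at this
      have h2 : 1 / 2 ≤ ‖co (-m) s e' 0‖ / ‖w‖ := by linarith
      rw [le_div_iff₀ hw0] at h2
      linarith
    have l2 : Real.exp (-(8 * Λ * (n + 1))) ≤ ‖w‖ ^ 2 * vd e' 0 ^ (m + 1) := by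
      rw [← Real.exp_log (x := ‖w‖ ^ 2 * vd e' 0 ^ (m + 1)) (by positivity), Real.exp_le_exp,
        Real.log_mul (by positivity) (by positivity), Real.log_pow (vd e' 0)]
      rw [wt] at k5
      push_cast at k5 ⊢
      linarith
    have l3 : (m : ℝ) ^ n * ρ ^ (2 * n) ≤ (2 * Λ) ^ n := by
      rw [pow_mul, ← mul_pow]
      exact pow_le_pow_left₀ (by positivity) (by nlinarith [sq_nonneg ρ]) n
    have l4 : (‖w‖ / 2) ^ 2 ≤ ‖co (-m) s e' 0‖ ^ 2 := pow_le_pow_left₀ (by positivity) l1 2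
    rw [hnrm, k6, k7]
    calc _ = C⁻¹ * (Real.exp (-(8 * Λ * (n + 1))) / 4 *
          (m ^ n * ρ ^ (2 * n) / (2 * Λ) ^ n) / vd e' 0) := by
          rw [k3]
          field_simp
      _ ≤ C⁻¹ * (‖w‖ ^ 2 * vd e' 0 ^ (m + 1) / 4 * 1 / vd e' 0) := by
          gcongr
          exact div_le_one_of_le₀ l3 (by positivity)
      _ = C⁻¹ * ((‖w‖ / 2) ^ 2 * vd e' 0 ^ m) := by
          field_simp
          ring
      _ ≤ _ := by gcongr

end Vale.Agent.P253Z
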