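import Vale.Agent.P253Z.Spec
import Vale.Agent.P272.K.Inv.Compact

/-!
# P253Z, blocks PK2 and PK3: separation of points and local coordinates
-/

set_option linter.all false

open scoped Manifold ContDiff Bundle ENNReal Topology ComplexConjugate ComplexOrder
open Bundle IsManifold MeasureTheory Set Metric Filter Vale.Agent.P253.Mfd
open Vale.Agent.P272.K (Cm dz dzb cHess jacM Chart quad)

noncomputable section

namespace Vale.Agent.P253Z

variable {n : ℕ} {M : Type} [MetricSpace M] [ChartedSpace (Cm n) M]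
  [IsManifold 𝓘(ℂ, Cm n) 1 M] [IsManifold 𝓘(ℝ, Cm n) ∞ M]
  [RiemannianBundle (fun x : M => TangentSpace 𝓘(ℝ, Cm n) x)]
  [IsContMDiffRiemannianBundle 𝓘(ℝ, Cm n) ∞ (Cm n) (fun x : M => TangentSpace 𝓘(ℝ, Cm n) x)]
  [IsRiemannianManifold 𝓘(ℝ, Cm n) M] [CompleteSpace M] [ConnectedSpace M] [NoncompactSpace M]
  [MeasurableSpace M] [BorelSpace M] {μ : Measure M}

namespace PK23

/-- a small chart centred at `x` whose target contains the ball of radius two -/
theorem exists_chart (a : B1a n M) {x : M} {U : Set M} (hU : IsOpen U) (hx : x ∈ U) :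
    ∃ e : Chart n M, Hc e ∧ x ∈ e.source ∧ e x = 0 ∧ closedBall 0 2 ⊆ e.target ∧
      e.source ⊆ U := by
  set e₀ := (chartAt (Cm n) x).restr U with he₀
  have hs : e₀.source = (chartAt (Cm n) x).source ∩ U :=
    OpenPartialHomeomorph.restr_source' _ _ hU
  have hx0 : x ∈ e₀.source := by rw [hs]; exact ⟨mem_chart_source _ _, hx⟩
  obtain ⟨ε, hε, hb⟩ :=
    nhds_basis_closedBall.mem_iff.1 (e₀.open_target.mem_nhds (e₀.map_source hx0))
  have hc : ((ε / 2 : ℝ) : ℂ) ≠ 0 := Complex.ofReal_ne_zero.2 (by positivity)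
  obtain ⟨e, he, h1, h2, h3, -, -⟩ := a.aff e₀ (a.restr _ (a.chart x) U hU)
    (LinearEquiv.smulOfNeZero ℂ (Cm n) _ hc).toContinuousLinearEquiv.symm (e₀ x)
  refine ⟨e, he, h1 ▸ hx0, by rw [h3, sub_self, map_zero], fun z hz => ?_,
    by rw [h1, hs]; exact inter_subset_right⟩
  rw [h2]
  refine hb (mem_closedBall_iff_norm.2 ?_)
  change ‖((ε / 2 : ℝ) : ℂ) • z + e₀ x - e₀ x‖ ≤ ε
  rw [add_sub_cancel_right, norm_smul, Complex.norm_real, Real.norm_of_nonneg (by positivity)]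
  nlinarith [mem_closedBall_zero_iff.1 hz]

theorem co_eq (a : B1a n M) (k : ℤ) {e : Chart n M} (he : Hc e) {z : Cm n} (hz : z ∈ e.target) :
    ∃ J : ℂ, J ≠ 0 ∧ ∀ s : M → ℂ, co k s e z = J * s (e.symm z) :=
  ⟨_, zpow_ne_zero _ (a.jac_ne e _ he (a.chart _) _ (e.map_target hz) (mem_chart_source _ _)),
    fun _ => rfl⟩

theorem th_zero (b : B1b n M) (k : ℤ) {e : Chart n M} (he : Hc e) {z : Cm n} (hz : z ∈ e.target) :
    th k (fun _ => 0) e z = ((1 - k : ℝ) : ℂ) • ric e z := by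
  rw [b.th_eq k _ (fun _ _ _ _ => contDiffAt_const) e he z hz, add_eq_left]
  ext j l
  have h : dzb l (fun _ : Cm n => ((0 : ℝ) : ℂ)) = fun _ => 0 :=
    funext fun _ => P272.K.dzb_const _
  change dz j (dzb l fun _ : Cm n => ((0 : ℝ) : ℂ)) z = 0
  rw [h, P272.K.dz_const]

theorem ric_cont (b : B1b n M) {e : Chart n M} (he : Hc e) {z : Cm n} (hz : z ∈ e.target)
    (j l : Fin n) : ContinuousAt (fun y => ric e y j l) z :=
  (P272.K.contDiffAt_dz (m := 0) (P272.K.contDiffAt_dzb (m := ∞) (P272.K.ofReal_contDiffAt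
    ((b.vd_sm e he z hz).log (b.vd_pos e he z hz).ne').neg) (le_of_eq rfl))
    (by simp)).continuousAt

/-- square integrable sections with approximately given jets -/
theorem core (b : B1b n M) (r : B2 n M) (h : HJ n μ) {N : ℕ} (e : Fin N → Chart n M)
    (he : ∀ i, Hc (e i)) (hb : ∀ i, closedBall 0 2 ⊆ (e i).target)
    (hd : ∀ i j, i ≠ j → Disjoint ((e i).symm '' closedBall 0 2) ((e j).symm '' closedBall 0 2)) :
    ∃ m : ℕ, 1 ≤ m ∧ ∀ g : Fin N → Cm n → ℂ,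
      (∀ i, ∀ z ∈ closedBall (0 : Cm n) 2, AnalyticAt ℂ (g i) z ∧ ‖g i z‖ ≤ 2) →
      ∃ s, InH n μ m s ∧ ∀ i, ‖co (-m) s (e i) 0 - g i 0‖ ≤ 1 / 4 ∧
        ‖fderiv ℂ (fun z => co (-m) s (e i) z - g i z) 0‖ ≤ 1 / 4 := by
  obtain ⟨Λ, hΛ, h⟩ := h
  choose C hC hC' using fun i => P272.K.exists_quad_lower (isCompact_closedBall (0 : Cm n) 2)
    (ric (e i)) (fun _ => 1) (fun j l z hz => (ric_cont b (he i) (hb i hz) j l).continuousWithinAt)
    (fun _ _ => continuousOn_const) fun z hz => r _ (he i) z (hb i hz)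
  obtain ⟨m, hm⟩ := exists_nat_ge (∑ i, Λ * C i)
  have hk : (1 - ((-((m + 1 : ℕ) : ℤ) : ℤ) : ℝ)) = m + 2 := by push_cast; ring
  have hp : ∀ e : Chart n M, Hc e → ∀ z ∈ e.target,
      (th (-((m + 1 : ℕ) : ℤ)) (fun _ => 0) e z).PosSemidef := fun e he z hz => by
    rw [th_zero b _ he hz, hk]
    exact (r e he z hz).posSemidef.smul (Complex.zero_le_real.2 (by positivity))
  choose B hB using fun i => (isCompact_closedBall (0 : Cm n) 2).exists_bound_of_continuousOn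
    (f := wt (-((m + 1 : ℕ) : ℤ)) (fun _ => 0) (e i)) fun z hz =>
      ((continuousAt_const.mul ((b.vd_sm _ (he i) z (hb i hz)).continuousAt.log
        (b.vd_pos _ (he i) z (hb i hz)).ne')).add continuousAt_const).continuousWithinAt
  obtain ⟨C', δ, -, hδ, -, h⟩ := h N (∑ i, |B i|) (1 / 4) (by norm_num)
  refine ⟨m + 1, by omega, fun g hg => ?_⟩
  have k1 : ∀ i, ∀ z ∈ closedBall (0 : Cm n) 2,
      (th (-((m + 1 : ℕ) : ℤ)) (fun _ => 0) (e i) z - (Λ : ℂ) • 1).PosSemidef := fun i z hz => by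
    refine (b.psd _ ((hp _ (he i) z (hb i hz)).isHermitian.sub (Matrix.PosSemidef.one.smul
      (Complex.zero_le_real.2 hΛ.le)).isHermitian)).2 fun v => ?_
    have h4 : ∑ j, ∑ l, (th (-((m + 1 : ℕ) : ℤ)) (fun _ => 0) (e i) z - (Λ : ℂ) • 1) j l *
        (v j * conj (v l)) = ((m + 2 : ℝ) : ℂ) * quad (ric (e i) z) v - Λ * quad 1 v := by
      rw [th_zero b _ (he i) (hb i hz), hk]
      simp only [quad, Matrix.sub_apply, Matrix.smul_apply, smul_eq_mul, sub_mul,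
        Finset.sum_sub_distrib, Finset.mul_sum, mul_assoc]
    rw [h4, Complex.sub_re, Complex.re_ofReal_mul, Complex.re_ofReal_mul]
    have h5 := mul_le_mul_of_nonneg_left (hC' i z hz v) hΛ.le
    have h6 := P272.K.quad_nonneg (r _ (he i) z (hb i hz)).posSemidef v
    have h7 : Λ * C i ≤ ∑ i, Λ * C i := Finset.single_le_sum (f := fun i => Λ * C i)
      (fun i _ => (mul_pos hΛ (hC i)).le) (Finset.mem_univ i)
    nlinarith
  have k2 : ∀ i, ∀ z ∈ closedBall (0 : Cm n) 2, |Real.log (‖(1 : ℂ)‖ ^ 2) -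
      wt (-((m + 1 : ℕ) : ℤ)) (fun _ => 0) (e i) z| ≤ ∑ i, |B i| := fun i z hz => by
    rw [norm_one, one_pow, Real.log_one, zero_sub, abs_neg]
    exact (hB i z hz).trans ((le_abs_self _).trans (Finset.single_le_sum (f := fun i => |B i|)
      (fun _ _ => abs_nonneg _) (Finset.mem_univ i)))
  obtain ⟨s, h1, h2, h3⟩ := h _ _ (fun _ _ _ _ => contDiffAt_const) hp e (fun _ _ => 1) g he hb hd
    fun i z hz => ⟨k1 i z hz, analyticAt_const, (hg i z hz).1, one_ne_zero, (hg i z hz).2, k2 i z hz⟩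
  refine ⟨s, ⟨h1, lt_of_le_of_lt (le_of_eq_of_le ?_ h2) ENNReal.ofReal_lt_top⟩, fun i => ?_⟩
  · simp [L2]
  · simpa only [div_one] using And.intro ((h3 i).1 0 (mem_closedBall_self hδ.le)) (h3 i).2

theorem low {w : ℂ} (h : ‖w - 1‖ ≤ 1 / 4) : 3 / 4 ≤ ‖w‖ := by
  have h1 := norm_sub_norm_le 1 w
  rw [norm_one, norm_sub_rev] at h1
  linarith

end PK23

open PK23

theorem pk2 (a : B1a n M) (b : B1b n M) (r : B2 n M) (v : B3 n μ) (h : HJ n μ) : PK2 n μ := by
  intro x y hxy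
  obtain ⟨U, V, hU, hV, hx, hy, hUV⟩ := t2_separation hxy
  obtain ⟨e₀, a0, a1, a2, a3, a4⟩ := exists_chart a hU hx
  obtain ⟨e₁, b0, b1, b2, b3, b4⟩ := exists_chart a hV hy
  have hd : Disjoint (e₀.symm '' closedBall 0 2) (e₁.symm '' closedBall 0 2) :=
    hUV.mono (by rintro _ ⟨z, hz, rfl⟩; exact a4 (e₀.map_target (a3 hz)))
      (by rintro _ ⟨z, hz, rfl⟩; exact b4 (e₁.map_target (b3 hz)))
  obtain ⟨m, hm, hs⟩ := core b r h ![e₀, e₁] (Fin.forall_fin_two.2 ⟨a0, b0⟩)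
    (Fin.forall_fin_two.2 ⟨a3, b3⟩) (Fin.forall_fin_two.2 ⟨Fin.forall_fin_two.2
      ⟨fun h => absurd rfl h, fun _ => hd⟩, Fin.forall_fin_two.2
      ⟨fun _ => hd.symm, fun h => absurd rfl h⟩⟩)
  obtain ⟨J, hJ, hJ'⟩ := co_eq a (-m) a0 (a3 (mem_closedBall_self (by norm_num)))
  obtain ⟨J', hK, hK'⟩ := co_eq a (-m) b0 (b3 (mem_closedBall_self (by norm_num)))
  rw [show e₀.symm 0 = x by rw [← a2, e₀.left_inv a1]] at hJ'
  rw [show e₁.symm 0 = y by rw [← b2, e₁.left_inv b1]] at hK'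
  have key : ∀ c d : ℂ, ‖c‖ ≤ 2 → ‖d‖ ≤ 2 → ∃ s, InH n μ m s ∧ ‖J * s x - c‖ ≤ 1 / 4 ∧
      ‖J' * s y - d‖ ≤ 1 / 4 := fun c d hc hd => by
    obtain ⟨s, h1, h2⟩ := hs ![fun _ => c, fun _ => d] (Fin.forall_fin_two.2
      ⟨fun _ _ => ⟨analyticAt_const, hc⟩, fun _ _ => ⟨analyticAt_const, hd⟩⟩)
    exact ⟨s, h1, hJ' s ▸ (h2 0).1, hK' s ▸ (h2 1).1⟩
  obtain ⟨s, s0, s1, s2⟩ := key 1 0 (by simp) (by simp)
  obtain ⟨t, t0, t1, t2⟩ := key 0 1 (by simp) (by simp)
  obtain ⟨u, u0, u1, u2⟩ := key 1 1 (by simp) (by simp)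
  refine ⟨m, hm, s x • t - t x • s, u, (v.mem _ _).1 (sub_mem
    (Submodule.smul_mem _ _ ((v.mem _ _).2 t0)) (Submodule.smul_mem _ _ ((v.mem _ _).2 s0))), u0,
    by simp [mul_comm], fun h0 => ?_, fun h0 => ?_, fun h0 => ?_⟩
  · have h1 : J * s x * (J' * t y) = J * t x * (J' * s y) := by
      simp only [Pi.sub_apply, Pi.smul_apply, smul_eq_mul] at h0
      linear_combination J * J' * h0
    have h2 := congrArg norm h1
    rw [norm_mul (J * s x), norm_mul (J * t x)] at h2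
    rw [sub_zero] at s2 t1
    nlinarith [low s1, low t2, norm_nonneg (J * t x), norm_nonneg (J' * s y)]
  · have h1 := low u1
    rw [h0, mul_zero, norm_zero] at h1
    linarith
  · have h1 := low u2
    rw [h0, mul_zero, norm_zero] at h1
    linarith

theorem pk3 (a : B1a n M) (b : B1b n M) (r : B2 n M) (v : B3 n μ) (h : HJ n μ) : PK3 n μ := by
  intro x
  obtain ⟨e, a0, a1, a2, a3, -⟩ := exists_chart a isOpen_univ (mem_univ x)
  obtain ⟨m, hm, hs⟩ := core b r h (fun _ : Fin 1 => e) (fun _ => a0) (fun _ => a3)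
    fun i j hij => absurd (Subsingleton.elim i j) hij
  obtain ⟨s₀, s0, s1⟩ := hs (fun _ _ => 1) fun _ _ _ => ⟨analyticAt_const, by simp⟩
  choose s t0 t1 using fun i : Fin n => hs (fun _ z => z i) fun _ z hz =>
    ⟨(ContinuousLinearMap.proj i : Cm n →L[ℂ] ℂ).analyticAt z,
      (norm_le_pi_norm z i).trans (mem_closedBall_zero_iff.1 hz)⟩
  have h0 : (0 : Cm n) ∈ e.target := a3 (mem_closedBall_self (by norm_num))
  have h1 := low (s1 0).1
  have h2 : co (-m) s₀ e 0 ≠ 0 := norm_pos_iff.1 (by linarith)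
  have d0 := (s0.1 e a0 0 h0).differentiableAt
  have d1 := fun i => ((t0 i).1 e a0 0 h0).differentiableAt
  refine ⟨e, a0, a1, m, hm, s₀, s, s0, t0, fun h3 => h2 ?_, ?_⟩
  · obtain ⟨J, -, hJ⟩ := co_eq a (-m) a0 h0
    rw [hJ, ← a2, e.left_inv a1, h3, mul_zero]
  have h3 : (fun z i => s i (e.symm z) / s₀ (e.symm z)) =ᶠ[𝓝 0]
      fun z i => co (-m) (s i) e z / co (-m) s₀ e z := by
    filter_upwards [e.open_target.mem_nhds h0] with z hz
    obtain ⟨J, hJ, hJ'⟩ := co_eq a (-m) a0 hz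
    funext i
    rw [hJ', hJ', mul_div_mul_left _ _ hJ]
  rw [a2, h3.fderiv_eq]
  set F : Cm n → Cm n := fun z i => co (-m) (s i) e z / co (-m) s₀ e z with hF
  have dF : DifferentiableAt ℂ F 0 := differentiableAt_pi.2 fun i =>
    (((t0 i).1 e a0 0 h0).div (s0.1 e a0 0 h0) h2).differentiableAt
  have hinj : Function.Injective (fderiv ℂ F 0) := (injective_iff_map_eq_zero _).2 fun w hw => by
    have h4 : ‖w‖ ≤ ‖w‖ / 3 := (pi_norm_le_iff_of_nonneg (by positivity)).2 fun i => by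
      have h5 : co (-m) (s i) e =ᶠ[𝓝 0] fun z => F z i * co (-m) s₀ e z := by
        filter_upwards [d0.continuousAt.eventually_ne h2] with z hz
        exact (div_mul_cancel₀ _ hz).symm
      have h6 := ((hasFDerivAt_pi'.1 dF.hasFDerivAt i).mul d0.hasFDerivAt).congr_of_eventuallyEq h5
      have h7 : fderiv ℂ (co (-m) (s i) e) 0 w = F 0 i * fderiv ℂ (co (-m) s₀ e) 0 w := by
        rw [h6.fderiv]
        simp [hw]
      have h8 := ((d1 i).hasFDerivAt.sub (hasFDerivAt_apply (𝕜 := ℂ) i (0 : Cm n))).fderiv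
      have h9 := (fderiv ℂ (fun z => co (-m) (s i) e z - z i) 0).le_of_opNorm_le (t1 i 0).2 w
      have h10 := (fderiv ℂ (fun z => co (-m) s₀ e z - 1) 0).le_of_opNorm_le (s1 0).2 w
      rw [fderiv_sub_const] at h10
      have h11 : fderiv ℂ (fun z => co (-m) (s i) e z - z i) 0 w =
          F 0 i * fderiv ℂ (co (-m) s₀ e) 0 w - w i := by
        rw [← h7]
        exact congrArg (fun L : Cm n →L[ℂ] ℂ => L w) h8
      have h12 : ‖F 0 i‖ ≤ 1 / 3 := by
        have h13 := (t1 i 0).1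
        rw [Pi.zero_apply, sub_zero] at h13
        rw [hF, norm_div, div_le_iff₀ (by linarith)]
        linarith
      have h13 := norm_sub_norm_le (w i) (F 0 i * fderiv ℂ (co (-m) s₀ e) 0 w)
      rw [norm_sub_rev, ← h11, norm_mul] at h13
      have h14 := mul_le_mul h12 h10 (norm_nonneg _) (by norm_num)
      linarith
    exact norm_le_zero_iff.1 (by linarith)
  exact ⟨hinj, LinearMap.surjective_of_injective (f := (fderiv ℂ F 0 : Cm n →ₗ[ℂ] Cm n)) hinj⟩

end Vale.Agent.P253Z
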