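import Vale.Agent.P253Z.RB.Loc
import Vale.Agent.P253Z.RB.Max

/-!
# P253Z, block RB: Richberg's approximation theorem
-/

open scoped Manifold ContDiff Bundle ENNReal Topology ComplexConjugate ComplexOrder
open Bundle IsManifold MeasureTheory Set Metric Filter Vale.Agent.P253.Mfd
open Vale.Agent.P272.K (Cm dz dzb cHess jacM Chart)
open Vale.Agent.P253.R2.H451 (WeakLevi levi2)

set_option maxSynthPendingDepth 3
set_option linter.unusedSectionVars false

noncomputable section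

namespace Vale.Agent.P253Z

variable {n : ℕ} {M : Type} [MetricSpace M] [ChartedSpace (Cm n) M]
  [IsManifold 𝓘(ℂ, Cm n) 1 M] [IsManifold 𝓘(ℝ, Cm n) ∞ M]
  [RiemannianBundle (fun x : M => TangentSpace 𝓘(ℝ, Cm n) x)]
  [IsContMDiffRiemannianBundle 𝓘(ℝ, Cm n) ∞ (Cm n) (fun x : M => TangentSpace 𝓘(ℝ, Cm n) x)]
  [IsRiemannianManifold 𝓘(ℝ, Cm n) M] [CompleteSpace M] [ConnectedSpace M] [NoncompactSpace M]
  [MeasurableSpace M] [BorelSpace M] {μ : Measure M}

namespace RB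

variable {u c : M → ℝ}

/-- a locally finite family of pieces -/
theorem family (hK : IsKahler (Cm n) M) (a : B1a n M) (hc : Continuous c) (hp : ∀ x, 0 < c x)
    (hu : WeakLevi (Cm n) u c univ) :
    ∃ (ι : Type) (e : ι → Chart n M) (K U : ι → Set M) (δ : ι → ℝ) (p : ι → Cm n → ℝ),
      (∀ i, Hc (e i)) ∧ LocallyFinite K ∧ (∀ i, IsClosed (K i)) ∧ (∀ i, IsOpen (U i)) ∧
      (∀ i, K i ⊆ U i) ∧ (∀ i, U i ⊆ (e i).source) ∧ (∀ i, 0 < δ i) ∧
      (∀ i, ContDiff ℝ ∞ (p i)) ∧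
      (∀ i, ∀ x ∈ U i, (∀ v, 2 * (c x * chartG (e i) (e i x) v v) ≤ levi2 (p i) (e i x) v) ∧
        p i (e i x) ≤ u x + 1 ∧ (x ∉ K i → p i (e i x) ≤ u x)) ∧
      ∀ x, ∃ i, x ∈ K i ∧ u x + δ i ≤ p i (e i x) := by
  have := properSpace_riemannian (Cm n) M
  choose r hr ht hP using fun x : M =>
    piece hK hc hp hu (a.chart x) (mem_chart_target (Cm n) x)
  let U : M → Set M := fun x => (chartAt (Cm n) x).source ∩
    chartAt (Cm n) x ⁻¹' ball (chartAt (Cm n) x x) (r x)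
  have hU : ∀ x, IsOpen (U x) := fun x => (chartAt (Cm n) x).isOpen_inter_preimage isOpen_ball
  obtain ⟨ι, f, hf⟩ := SmoothBumpCovering.exists_isSubordinate 𝓘(ℝ, Cm n) (U := U) isClosed_univ
    fun x _ => (hU x).mem_nhds ⟨mem_chart_source _ x, mem_ball_self (hr x)⟩
  choose δ hδ p hs hp using fun i => hP (f.c i) (f i).toContDiffBump
    (f i).toContDiffBump.contDiff fun z => (f i).toContDiffBump.le_one
  have he : ∀ i, ∀ x ∈ U (f.c i), (f i).toContDiffBump (chartAt (Cm n) (f.c i) x) = f i x :=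
    fun i x hx => ((f i).eqOn_source hx.1).symm
  refine ⟨ι, fun i => chartAt (Cm n) (f.c i), fun i => tsupport (f i), fun i => U (f.c i), δ, p,
    fun i => a.chart _, f.locallyFinite.closure, fun i => isClosed_tsupport _, fun i => hU _, hf,
    fun i x hx => hx.1, hδ, hs, fun i x hx => ?_, fun x => ?_⟩
  · obtain ⟨h1, h2, h3, -⟩ := hp i _ hx.2
    rw [(chartAt (Cm n) (f.c i)).left_inv hx.1] at h1 h2 h3
    exact ⟨h1, h2, fun h => h3 ((he i x hx).trans (image_eq_zero_of_notMem_tsupport h))⟩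
  · have hx : x ∈ tsupport (f (f.ind x (mem_univ x))) :=
      subset_tsupport _ (f.mem_support_ind x (mem_univ x))
    obtain ⟨-, -, -, h4⟩ := hp _ _ (hf _ hx).2
    rw [(chartAt (Cm n) _).left_inv (hf _ hx).1] at h4
    exact ⟨_, hx, h4 ((he _ x (hf _ hx)).trans (f.apply_ind x (mem_univ x)))⟩

/-- the regularised maximum of the pieces -/
theorem glue (hK : IsKahler (Cm n) M) (a : B1a n M) (hc : Continuous c) (hp : ∀ x, 0 < c x)
    (hu : WeakLevi (Cm n) u c univ) : ∃ t : M → ℝ, (∀ x, |t x - u x| ≤ 1) ∧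
      ∀ e : Chart n M, Hc e → ∀ z ∈ e.target, ContDiffAt ℝ ∞ (fun y => t (e.symm y)) z ∧
        ∀ v, 2 * (c (e.symm z) * chartG e z v v) ≤ levi2 (fun y => t (e.symm y)) z v := by
  classical
  obtain ⟨ι, e, K, U, δ, p, he, hK1, hK2, hU, hKU, hUs, hδ, hs, h1, h2⟩ := family hK a hc hp hu
  let J : M → Finset ι := fun x => (hK1.point_finite x).toFinset
  have hJ : ∀ x i, i ∈ J x ↔ x ∈ K i := fun x i => Finite.mem_toFinset _
  choose t ht hG using fun x => exists_sol (s := J x) hδ (y := fun i => p i (e i x)) (a := u x)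
    (fun i hi => (h1 i x (hKU i ((hJ x i).1 hi))).2.1)
    ((h2 x).imp fun i hi => ⟨(hJ x i).2 hi.1, hi.2⟩)
  have loc : ∀ x₀, ∀ᶠ x in 𝓝 x₀, Ph (J x₀) δ (fun i => p i (e i x)) (t x) = G 1 := fun x₀ => by
    have h3 : ∀ᶠ x in 𝓝 x₀, ∀ i ∈ J x₀, x ∈ U i :=
      (eventually_all_finset _).2 fun i hi => (hU i).mem_nhds (hKU i ((hJ x₀ i).1 hi))
    filter_upwards [hK1.eventually_subset hK2 x₀, h3] with x h4 h5
    rw [← hG x]
    refine (Finset.sum_subset (fun i hi => (hJ x₀ i).2 (h4 ((hJ x i).1 hi)))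
      fun i hi hi' => G_zero (div_nonpos_of_nonpos_of_nonneg ?_ (hδ i).le)).symm
    linarith [(h1 i x (h5 i hi)).2.2 fun h => hi' ((hJ x i).2 h), (ht x).1]
  refine ⟨t, fun x => abs_le.2 ⟨by linarith [(ht x).1], by linarith [(ht x).2]⟩,
    fun e' he' z hz => ?_⟩
  set x₀ := e'.symm z with hx₀
  have hU0 : ∀ i ∈ J x₀, x₀ ∈ U i := fun i hi => hKU i ((hJ x₀ i).1 hi)
  have hτ : ∀ i ∈ J x₀, AnalyticAt ℂ (fun y => e i (e'.symm y)) z := fun i hi =>
    a.hol e' (e i) he' (he i) z hz (hUs i (hU0 i hi))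
  have hev := (e'.continuousAt_symm hz).eventually (loc x₀)
  have hsm : ContDiffAt ℝ ∞ (fun y => t (e'.symm y)) z :=
    smooth_sol (v := fun i y => p i (e i (e'.symm y))) hδ (fun i hi => (hs i).contDiffAt.comp z
      ((hτ i hi).contDiffAt.restrict_scalars ℝ)) G_one hev
  refine ⟨hsm, fun v => ?_⟩
  obtain ⟨l, l0, l1, l2⟩ := tangent (s := J x₀) hδ (y := fun i => p i (e i x₀)) (t := t x₀)
    (G_one.trans_eq (hG x₀).symm)
  refine le_trans ?_ (touch (J x₀) (l := l) (p := p) (τ := fun i y => e i (e'.symm y)) hτ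
    (fun i _ => (hs i).contDiffAt.of_le (by norm_cast)) (hsm.of_le (by norm_cast))
    (hev.mono fun y hy => l2 _ _ (hy.trans (hG x₀).symm)) v)
  rw [← one_mul (2 * _), ← l1, Finset.sum_mul]
  refine Finset.sum_le_sum fun i hi => mul_le_mul_of_nonneg_left ?_ (l0 i)
  have h3 := chartG_change he' (he i) (e'.map_target hz) (hUs i (hU0 i hi)) v v
  rw [e'.right_inv hz] at h3
  rw [← h3]
  exact (h1 i x₀ (hU0 i hi)).1 _

end RB

/-- **RB**: Richberg's theorem -/
theorem rb (hK : IsKahler (Cm n) M) (a : B1a n M) (b : B1b n M) : RB n M := by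
  intro u c hc hp hu
  obtain ⟨t, h1, h2⟩ := RB.glue hK a hc hp hu
  refine ⟨t, fun e he z hz => (h2 e he z hz).1, h1, fun e he z hz => ?_⟩
  obtain ⟨h3, h4⟩ := h2 e he z hz
  have h5 : ContDiffAt ℝ 2 (fun y => t (e.symm y)) z := h3.of_le (by norm_cast)
  have hH : (((c (e.symm z) / 2 : ℝ) : ℂ) • hm e z).IsHermitian := by
    unfold Matrix.IsHermitian
    rw [Matrix.conjTranspose_smul, (b.wpos e he z hz).isHermitian.eq, Complex.star_def,
      Complex.conj_ofReal]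
  refine (b.psd _ ((b.herm _ z h5).sub hH)).2 fun v => ?_
  have h6 := h4 v
  rw [b.levi _ z v h5, chartG_apply, b.quad e he z hz v] at h6
  have h7 : ∑ j, ∑ k, (cHess (fun y => t (e.symm y)) z -
      ((c (e.symm z) / 2 : ℝ) : ℂ) • hm e z) j k * (v j * conj (v k)) =
      ∑ j, ∑ k, cHess (fun y => t (e.symm y)) z j k * (v j * conj (v k)) -
        ((c (e.symm z) / 2 : ℝ) : ℂ) * ∑ j, ∑ k, hm e z j k * (v j * conj (v k)) := by
    simp only [Matrix.sub_apply, Matrix.smul_apply, smul_eq_mul, sub_mul, Finset.sum_sub_distrib,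
      Finset.mul_sum, mul_assoc]
  rw [h7, Complex.sub_re, Complex.re_ofReal_mul]
  linarith

end Vale.Agent.P253Z
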