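import Vale.Agent.P253Z.Spec
import Vale.Agent.P253.R2.H451.Cur1

/-!
# P253Z: the local Schwarz lemma
-/

open scoped Manifold ContDiff Bundle ENNReal Topology
open Bundle IsManifold MeasureTheory Set Metric Filter Vale.Agent.P253.Mfd
open Vale.Agent.P253.R2.H451 Vale.Agent.P253.R2.H618
open Vale.Agent.P272.K (Cm)
open Complex (I)

set_option maxSynthPendingDepth 3
set_option linter.unusedSectionVars false

noncomputable section

namespace Vale.Agent.P253Z

namespace Sch

theorem lip_of_loc {X : Type*} [MetricSpace X] [ProperSpace X] (h : ApproxMid X) {g : X → ℂ}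
    (hg : Continuous g) {x y : X} {L : ℝ}
    (H : ∀ z, dist x z ≤ dist x y → ∀ᶠ w in 𝓝 z, ‖g w - g z‖ ≤ L * dist z w) :
    ‖g y - g x‖ ≤ L * dist x y := by
  let K := {z | dist x z + dist z y ≤ dist x y ∧ ‖g z - g x‖ ≤ L * dist x z}
  have h0 : ∀ z ∈ K, dist x z ≤ dist x y := fun z hz => by
    linarith [hz.1, dist_nonneg (x := z) (y := y)]
  have hK : IsCompact K := (isCompact_closedBall x (dist x y)).of_isClosed_subset
    (IsClosed.and (isClosed_le (by fun_prop) (by fun_prop))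
      (isClosed_le (by fun_prop) (by fun_prop))) fun z hz => mem_closedBall'.2 (h0 z hz)
  obtain ⟨z, hz, hmin⟩ := hK.exists_isMinOn (f := fun z => dist z y) ⟨x, by simp [K]⟩ (by fun_prop)
  by_cases e : z = y
  · exact e ▸ hz.2
  obtain ⟨δ, hδ, hb⟩ := Metric.eventually_nhds_iff.1 (H z (h0 z hz))
  have hp := dist_pos.2 e
  have hs : 0 < min (δ / 2) (dist z y) := lt_min (half_pos hδ) hp
  obtain ⟨w, h1, h2⟩ := exists_mid h z y _ hs.le (min_le_right _ _)
  have h3 := hb (y := w) (by rw [dist_comm, h1]; linarith [min_le_left (δ / 2) (dist z y)])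
  have h4 : dist x w = dist x z + dist z w :=
    le_antisymm (dist_triangle _ _ _) (by linarith [dist_triangle x w y, hz.1])
  have h5 : dist z y ≤ dist w y := hmin (a := w) ⟨by linarith [hz.1], by
    rw [h4, mul_add]
    linarith [norm_sub_le_norm_sub_add_norm_sub (g w) (g z) (g x), hz.2]⟩
  linarith

theorem homQ (H : Type*) [NormedAddCommGroup H] [NormedSpace ℂ H] :
    HomQ fun y : Fin 1 → H => y 0 := ⟨by fun_prop, fun c y => by simp⟩

variable {E : Type*} [NormedAddCommGroup E] [NormedSpace ℂ E] [FiniteDimensional ℂ E]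
  [Nontrivial E] {M : Type*} [MetricSpace M] [ChartedSpace E M]
  [IsManifold 𝓘(ℂ, E) 1 M] [IsManifold 𝓘(ℝ, E) ∞ M]
  [RiemannianBundle (fun x : M => TangentSpace 𝓘(ℝ, E) x)]
  [IsContMDiffRiemannianBundle 𝓘(ℝ, E) ∞ E (fun x : M => TangentSpace 𝓘(ℝ, E) x)]
  [IsRiemannianManifold 𝓘(ℝ, E) M] {f : M → ℂ}

theorem nonneg {x : M} (h : PosBisectionalAt E x) : NonnegBisectionalAt E x := by
  intro e he hx
  obtain ⟨Γ, hΓ, h1⟩ := h e he hx
  have he' := mem_maximalAtlas_real he
  have hz : e x ∈ e.target := e.map_source hx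
  refine ⟨Γ, hΓ, fun u v => ?_⟩
  by_cases hu : u = 0
  · rw [hu, sectNum_eq he' hz hΓ, sectNum_eq he' hz hΓ]
    simp [LocalKahler.secG]
  by_cases hv : v = 0
  · rw [hv, sectNum_eq he' hz hΓ, sectNum_eq he' hz hΓ]
    simp [LocalKahler.secG]
  exact (h1 u v hu hv).le

variable (E) in
/-- the norm of the differential -/
abbrev S (f : M → ℂ) : M → ℝ := Sn E (fun y : Fin 1 → ℂ => y 0) f

theorem S_nonneg (hK : IsKahler E M) (x : M) : 0 ≤ S E f x :=
  Sq_nonneg (homQ ℂ) ((localKahler_chartG hK (chart_mem_maximalAtlas x)).pos _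
    (mem_chart_target E x))

theorem loc (hK : IsKahler E M) (hf : MDifferentiable 𝓘(ℂ, E) 𝓘(ℂ, ℂ) f) (z : M) {δ : ℝ}
    (hδ : 0 < δ) : ∀ᶠ w in 𝓝 z, ‖f w - f z‖ ≤ 2 * (S E f z + δ) * dist z w := by
  have he : chartAt E z ∈ maximalAtlas 𝓘(ℂ, E) 1 M := chart_mem_maximalAtlas z
  have hz := mem_chart_source E z
  have h0 := S_nonneg (f := f) hK z
  have e1 : S E f z = _ := Sn_eq (homQ ℂ) hf he hz
  generalize chartAt E z = e at he hz e1
  have hp := (localKahler_chartG hK he).pos _ (e.map_source hz)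
  have hC := Sq_nonneg (T := ContinuousLinearMap.id ℂ E) (homQ E) hp
  have h1 := fun v => norm_le_Sq (T := ContinuousLinearMap.id ℂ E) (homQ E) hp fun _ => v
  have h2 := fun v => norm_le_Sq (T := dF f e (e z)) (homQ ℂ) hp fun _ => v
  rw [← e1] at h2
  generalize Sq (fun y : Fin 1 → E => y 0) (ContinuousLinearMap.id ℂ E) (chartG e (e z)) = C
    at hC h1
  obtain ⟨ρ, hρ, h3, h4⟩ := norm_le_near hK he hz one_pos
  have h5 := ((differentiableOn_F hf he).differentiableAt
    (e.open_target.mem_nhds (e.map_source hz))).hasFDerivAt.isLittleO.def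
    (show 0 < δ / (C + 1) by positivity)
  filter_upwards [(e.continuousAt hz).eventually h5, ball_mem_nhds z hρ] with w h6 hw
  rw [e.left_inv hz, e.left_inv (h3 hw)] at h6
  have h7 := h1 (e w - e z)
  have h8 := h2 (e w - e z)
  have h9 := h4 w hw
  simp only [Fin.prod_univ_one, ContinuousLinearMap.id_apply] at h7 h8
  have h10 := Real.sqrt_nonneg (chartG e (e z) (e w - e z) (e w - e z))
  generalize √(chartG e (e z) (e w - e z) (e w - e z)) = t at *
  have h11 : δ / (C + 1) * ‖e w - e z‖ ≤ δ * t := by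
    rw [div_mul_eq_mul_div, div_le_iff₀ (by positivity), mul_assoc]
    exact mul_le_mul_of_nonneg_left (by linarith) hδ.le
  have h12 := norm_add_le (f w - f z - dF f e (e z) (e w - e z)) (dF f e (e z) (e w - e z))
  rw [sub_add_cancel] at h12
  have h13 := mul_le_mul_of_nonneg_left h9 (add_nonneg h0 hδ.le)
  change ‖f w - f z - dF f e (e z) (e w - e z)‖ ≤ _ at h6
  linarith

theorem key (hK : IsKahler E M) [ProperSpace M] (hnn : ∀ x : M, NonnegBisectionalAt E x)
    (hf : MDifferentiable 𝓘(ℂ, E) 𝓘(ℂ, ℂ) f) {q x : M} {c K : ℝ} (hc : 0 ≤ c) (hK0 : 0 ≤ K)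
    (hS : 0 < S E f x)
    (hm : IsLocalMax (fun y => S E f y * Real.exp (c * ‖f y‖ ^ 2 - K * dist y q ^ 2)) x) :
    c * S E f x ^ 2 ≤ K := by
  have he : chartAt E x ∈ maximalAtlas 𝓘(ℂ, E) 1 M := chart_mem_maximalAtlas x
  have hx := mem_chart_source E x
  generalize chartAt E x = e at he hx
  have hz := e.map_source hx
  have hL := localKahler_chartG hK he
  have e1 : S E f x = _ := Sn_eq (homQ ℂ) hf he hx
  obtain ⟨v, h1, h2⟩ := exists_max (T := dF f e (e x)) (homQ ℂ) (hL.pos _ hz)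
  rw [← e1] at h2
  by_contra hlt
  have hd := sub_pos.2 (not_le.1 hlt)
  have hη : 0 < (c * S E f x ^ 2 - K) / (1 + c + K) := by positivity
  have hη' : (c * S E f x ^ 2 - K) / (1 + c + K) * (1 + c + K) = c * S E f x ^ 2 - K :=
    div_mul_cancel₀ _ (by positivity)
  generalize (c * S E f x ^ 2 - K) / (1 + c + K) = η at hη hη'
  have ha := exists_harmW hx (v 0) (w := fun _ => 1) fun _ => norm_one
  have a1 := four_Sq_log hL hz (homQ ℂ) (differentiableOn_dF hf he) (v 0) (κ := 0)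
    (fun a => by simpa using Rc_nonneg_chartG hK he hz (hnn _) (v 0) a) (e1 ▸ hS) isSmall_zero hη
  have a2 := (four_normsq (f x) (fderiv ℝ (fun w => f (e.symm w)) (e x) (v 0))
    (isSmall_map e.open_target (differentiableOn_F hf he) hz (v 0) isSmall_zero)).def hη
  have a3 := leviSq_all hK hnn q x e he hx (v 0) _ (fun _ => norm_one) _ ha η hη
  have a4 := eventually_all.2 fun k => (ha.tendsto (fun _ => norm_one) hx k).eventually hm
  have a5 := eventually_all.2 fun k => (tendsto_point (e x) (v 0) isSmall_zero k).eventually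
    (e.open_target.mem_nhds hz)
  have a6 : ‖fderiv ℝ (fun w => f (e.symm w)) (e x) (v 0)‖ = S E f x := by
    rw [(((differentiableOn_F hf he).differentiableAt
      (e.open_target.mem_nhds hz)).hasFDerivAt.restrictScalars ℝ).fderiv]
    exact h2
  obtain ⟨r, ⟨⟨⟨⟨⟨b1, b1'⟩, b2⟩, b3⟩, b4⟩, b5⟩, hr⟩ :=
    (((((a1.and a2).and a3).and a4).and a5).and self_mem_nhdsWithin).exists
  have hr2 : 0 < r ^ 2 := pow_pos hr 2
  rw [Real.norm_of_nonneg hr2.le, Real.norm_eq_abs, a6] at b2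
  simp only [add_zero, one_smul, e.left_inv hx, add_sub_cancel,
    h1 0, ← e1, mul_zero, zero_mul, zero_sub] at b1 b1' b2 b3 b4 b5
  have b6 : ∀ k : Fin 4, Sq (fun y : Fin 1 → ℂ => y 0) (dF f e (e x + r • I ^ (k : ℕ) • v 0))
      (chartG e (e x + r • I ^ (k : ℕ) • v 0)) = S E f (e.symm (e x + r • I ^ (k : ℕ) • v 0)) :=
    fun k => by rw [S, Sn_eq (homQ ℂ) hf he (e.map_target (b5 k)), e.right_inv (b5 k)]
  simp only [b6] at b1 b1'
  have b7 := Finset.sum_le_sum fun k (_ : k ∈ Finset.univ) =>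
    Real.log_le_log (mul_pos (b1 k) (Real.exp_pos _)) (b4 k)
  simp only [Real.log_mul (b1 _).ne' (Real.exp_pos _).ne', Real.log_mul hS.ne' (Real.exp_pos _).ne',
    Real.log_exp, Finset.sum_add_distrib, Finset.sum_sub_distrib, ← Finset.mul_sum,
    Finset.sum_const, Finset.card_univ, Fintype.card_fin, nsmul_eq_mul, Nat.cast_ofNat] at b7
  have b8 := mul_le_mul_of_nonneg_left (abs_le.1 b2).1 hc
  have b9 := mul_le_mul_of_nonneg_left b3 hK0
  have b10 := mul_pos hr2 hd
  have b11 := congrArg (r ^ 2 * ·) hη'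
  linarith

theorem grad (hK : IsKahler E M) [ProperSpace M] (hnn : ∀ x : M, NonnegBisectionalAt E x)
    (hf : MDifferentiable 𝓘(ℂ, E) 𝓘(ℂ, ℂ) f) {x : M} {r A : ℝ} (hA : 0 < A)
    (h : ∀ y ∈ ball x r, ‖f y‖ ≤ A) {y : M} (hy : y ∈ closedBall x r) :
    S E f y * (r - dist y x) ≤ 9 * A := by
  have hc : Continuous (S E f) := continuous_Sn hK (homQ ℂ) hf
  have hfc := hf.continuous
  obtain ⟨q, hq, h1⟩ := (isCompact_closedBall x r).exists_isMaxOn
    (f := fun y => S E f y * (r - dist y x)) ⟨y, hy⟩ (by fun_prop)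
  refine le_trans (h1 hy) (le_of_not_gt fun h2 => ?_)
  obtain ⟨ρ, hρ⟩ : ∃ ρ, ρ = r - dist q x := ⟨_, rfl⟩
  simp only [← hρ] at h2
  have h0 : 0 < S E f q * ρ := lt_trans (by positivity) h2
  have h4 : 0 < ρ := pos_of_mul_pos_right h0 (S_nonneg hK q)
  have h3 : 0 < S E f q := pos_of_mul_pos_left h0 h4.le
  obtain ⟨z, hz, h5⟩ := (isCompact_closedBall q (ρ / 2)).exists_isMaxOn
    (f := fun y => S E f y * Real.exp ((A ^ 2)⁻¹ * ‖f y‖ ^ 2 - 8 / ρ ^ 2 * dist y q ^ 2))
    ⟨q, mem_closedBall_self (by positivity)⟩ (by fun_prop)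
  have h6 : dist z x ≤ r - ρ / 2 := by linarith [dist_triangle z q x, mem_closedBall.1 hz]
  have h7 : S E f z ≤ 2 * S E f q := by
    have a1 : S E f z * (r - dist z x) ≤ S E f q * (r - dist q x) :=
      h1 (mem_closedBall.2 (by linarith))
    have a2 := mul_le_mul_of_nonneg_left (show ρ / 2 ≤ r - dist z x by linarith)
      (S_nonneg (f := f) hK z)
    rw [← hρ] at a1
    exact le_of_mul_le_mul_right (by linarith) (half_pos h4)
  have h8 : (A ^ 2)⁻¹ * ‖f z‖ ^ 2 ≤ 1 := by
    rw [inv_mul_le_iff₀ (by positivity), mul_one]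
    exact pow_le_pow_left₀ (norm_nonneg _) (h z (mem_ball.2 (by linarith))) 2
  have h9 : S E f q ≤ S E f z * Real.exp (1 - 8 / ρ ^ 2 * dist z q ^ 2) := by
    refine le_trans ?_ (le_trans (h5 (mem_closedBall_self (by positivity)))
      (mul_le_mul_of_nonneg_left (Real.exp_le_exp.2 (by linarith)) (S_nonneg hK z)))
    exact le_mul_of_one_le_right h3.le (Real.one_le_exp (by simp; positivity))
  have h10 : dist z q < ρ / 2 := (mem_closedBall.1 hz).lt_of_ne fun o => by
    rw [o, show 1 - 8 / ρ ^ 2 * (ρ / 2) ^ 2 = -1 by field_simp; norm_num, Real.exp_neg,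
      ← div_eq_mul_inv, le_div_iff₀ (Real.exp_pos 1)] at h9
    nlinarith [Real.exp_one_gt_d9]
  have h11 : S E f q ≤ S E f z * 3 := h9.trans (mul_le_mul_of_nonneg_left
    ((Real.exp_le_exp.2 (sub_le_self _ (by positivity))).trans (by linarith [Real.exp_one_lt_d9]))
    (S_nonneg hK z))
  have h12 := key hK hnn hf (by positivity) (by positivity) (by linarith)
    (h5.isLocalMax (closedBall_mem_nhds_of_mem h10))
  rw [inv_mul_le_iff₀ (by positivity), ← mul_div_assoc, le_div_iff₀ (by positivity),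
    ← mul_pow] at h12
  have h13 : S E f z * ρ ≤ 3 * A := abs_le_of_sq_le_sq' (by nlinarith) (by positivity) |>.2
  nlinarith

end Sch

variable {n : ℕ} {M : Type} [MetricSpace M] [ChartedSpace (Cm n) M]
  [IsManifold 𝓘(ℂ, Cm n) 1 M] [IsManifold 𝓘(ℝ, Cm n) ∞ M]
  [RiemannianBundle (fun x : M => TangentSpace 𝓘(ℝ, Cm n) x)]
  [IsContMDiffRiemannianBundle 𝓘(ℝ, Cm n) ∞ (Cm n) (fun x : M => TangentSpace 𝓘(ℝ, Cm n) x)]
  [IsRiemannianManifold 𝓘(ℝ, Cm n) M] [CompleteSpace M] [ConnectedSpace M] [NoncompactSpace M]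
  [MeasurableSpace M] [BorelSpace M] {μ : Measure M}

open Sch in
/-- **SCH** -/
theorem sch (c : Ctx n μ) (a : B1a n M) : SCH n M := by
  have := properSpace_riemannian (Cm n) M
  have : Nonempty (Fin n) := ⟨⟨0, c.npos⟩⟩
  refine ⟨38, by norm_num, fun f hf x r A hr h y hy => ?_⟩
  have hf' := (a.sec_zero f).1 hf
  rcases ((norm_nonneg _).trans (h x (mem_ball_self hr))).eq_or_lt with rfl | hA
  · rw [norm_le_zero_iff.1 (h x (mem_ball_self hr)),
      norm_le_zero_iff.1 (h y (ball_subset_ball (half_le_self hr.le) hy))]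
    simp
  rw [mul_div_right_comm, dist_comm]
  refine lip_of_loc (approxMid_of_riemannian (Cm n) M) hf'.continuous fun z hz => ?_
  have h1 : dist z x ≤ r / 2 := by rw [dist_comm]; exact hz.trans (mem_ball'.1 hy).le
  have h2 := grad c.kahler (fun x => nonneg (c.pos x)) hf' hA h
    (mem_closedBall.2 (h1.trans (half_le_self hr.le)))
  have h3 := mul_le_mul_of_nonneg_left (show r / 2 ≤ r - dist z x by linarith)
    (S_nonneg (f := f) c.kahler z)
  filter_upwards [loc c.kahler hf' z (div_pos hA hr)] with w hw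
  refine hw.trans (mul_le_mul_of_nonneg_right ?_ dist_nonneg)
  rw [le_div_iff₀ hr, mul_assoc, add_mul, div_mul_cancel₀ _ hr.ne']
  linarith

end Vale.Agent.P253Z
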