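import Vale.Agent.P253Z.Spec
import Vale.Agent.P253Z.SUP.Disc

/-! P253Z, block SUP: the sup-convolution of a plurisubharmonic function. -/

open scoped Manifold ContDiff Bundle ENNReal Topology ComplexConjugate ComplexOrder
open Bundle IsManifold MeasureTheory Set Metric Filter Vale.Agent.P253.Mfd
open Vale.Agent.P272.K (Cm dz dzb cHess jacM Chart)
open Vale.Agent.P253.R2.H451 (ContPsh WeakLevi levi2)

set_option linter.unusedSectionVars false

noncomputable section

namespace Vale.Agent.P253Z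

namespace Sup

variable {M : Type} [MetricSpace M] {v : M → ℝ} {p : M} {A : ℝ}

theorem bdd (h : ∀ x, v x ≤ A + dist x p) (x : M) :
    BddAbove (range fun y => v y - 6 / 5 * dist x y) := by
  refine ⟨A + dist x p, ?_⟩
  rintro _ ⟨y, rfl⟩
  have h1 := dist_triangle_left y p x
  have h2 := dist_nonneg (x := x) (y := y)
  have h3 := h y
  show v y - 6 / 5 * dist x y ≤ A + dist x p
  linarith

theorem exists_max [ProperSpace M] (hv : Continuous v) (h0 : ∀ x, 0 ≤ v x)
    (h : ∀ x, v x ≤ A + dist x p) (x : M) :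
    ∃ y, ⨆ y, (v y - 6 / 5 * dist x y) ≤ v y - 6 / 5 * dist x y := by
  have hR : 0 ≤ 5 * (A + dist x p) := by linarith [h0 x, h x]
  obtain ⟨y, -, hy⟩ := (isCompact_closedBall x (5 * (A + dist x p))).exists_isMaxOn
    ⟨x, mem_closedBall_self hR⟩ (f := fun y => v y - 6 / 5 * dist x y) (by fun_prop)
  have : Nonempty M := ⟨x⟩
  refine ⟨y, ciSup_le fun z => ?_⟩
  by_cases hz : z ∈ closedBall x (5 * (A + dist x p))
  · exact hy hz
  · have h1 : v x - 6 / 5 * dist x x ≤ v y - 6 / 5 * dist x y := hy (mem_closedBall_self hR)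
    rw [mem_closedBall', not_le] at hz
    rw [dist_self] at h1
    have h2 := dist_triangle_left z p x
    linarith [h z, h0 x]

theorem lip (h : ∀ x, v x ≤ A + dist x p) (a b : M) :
    ⨆ y, (v y - 6 / 5 * dist b y) ≤ (⨆ y, (v y - 6 / 5 * dist a y)) + 6 / 5 * dist a b := by
  have : Nonempty M := ⟨a⟩
  refine ciSup_le fun y => ?_
  have h1 := le_ciSup (bdd h a) y
  have h2 := dist_triangle a b y
  linarith

end Sup

variable {n : ℕ} {M : Type} [MetricSpace M] [ChartedSpace (Cm n) M]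
  [IsManifold 𝓘(ℂ, Cm n) 1 M] [IsManifold 𝓘(ℝ, Cm n) ∞ M]
  [RiemannianBundle (fun x : M => TangentSpace 𝓘(ℝ, Cm n) x)]
  [IsContMDiffRiemannianBundle 𝓘(ℝ, Cm n) ∞ (Cm n) (fun x : M => TangentSpace 𝓘(ℝ, Cm n) x)]
  [IsRiemannianManifold 𝓘(ℝ, Cm n) M] [CompleteSpace M] [ConnectedSpace M] [NoncompactSpace M]
  [MeasurableSpace M] [BorelSpace M] {μ : Measure M}

/-- **Block SUP.** -/
theorem sup (c : Ctx n μ) : SUP n M := by
  intro p
  have := properSpace_riemannian (Cm n) M
  have hK := c.kahler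
  obtain ⟨ρ, hρ, hρ1, κ, hκ, hu⟩ := Sup.exists_unif hK c.pos (isCompact_closedBall p (1 / 4))
  refine ⟨0 + 6 / 5 * κ * ρ / 2, by positivity, fun v A hv h0 hz ⟨y₀, hy₀, h4⟩ hA => ?_⟩
  obtain ⟨W, hW⟩ : ∃ W : M → ℝ, W = fun x => ⨆ y, (v y - 6 / 5 * dist x y) := ⟨_, rfl⟩
  have hlip : ∀ a b, W b ≤ W a + 6 / 5 * dist a b := fun a b => by rw [hW]; exact Sup.lip hA a b
  have hmax : ∀ x, ∃ y, W x ≤ v y - 6 / 5 * dist x y := fun x => by
    rw [hW]; exact Sup.exists_max hv.1 h0 hA x
  have hle : ∀ y, v y ≤ W y := fun y => by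
    rw [hW]
    simpa using le_ciSup (Sup.bdd hA y) y
  rw [← hW]
  have hc : Continuous W := by
    refine (LipschitzWith.of_le_add_mul' (6 / 5) fun a b => ?_).continuous
    rw [dist_comm]
    exact hlip b a
  have hnn : ∀ e ∈ maximalAtlas 𝓘(ℂ, Cm n) 1 M, ∀ y ∈ e.source, ∀ X a,
      0 ≤ Rc (chartG e) (e y) X a := by
    intro e he y hy X a
    by_cases hX : X = 0
    · have h1 := LocalKahler.Rc_smul (G := chartG e) 0 1 (e y) X a
      rw [hX]
      simpa using h1.ge
    by_cases ha : a = 0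
    · have h1 := LocalKahler.Rc_smul (G := chartG e) 1 0 (e y) X a
      rw [ha]
      simpa using h1.ge
    exact (Rc_pos_chartG hK he (e.map_source hy) (c.pos _) X a hX ha).le
  have hL : (0 : ℝ) < 6 / 5 := by norm_num
  refine ⟨Sup.contPsh_of_discW hc fun x => ?_, Sup.weakLevi_of_discW hK hc fun x hx => ?_⟩
  · obtain ⟨y, hy⟩ := hmax x
    exact Sup.discW_chain hK hnn hv hle hL hlip hy
  · obtain ⟨y, hy⟩ := hmax x
    obtain ⟨e, he, hR, hcurv⟩ := hu x (ball_subset_closedBall hx)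
    have h1 : dist x p < 1 / 4 := hx
    have h2 : dist y₀ p ≤ 2 := hy₀
    have h3 : 3 / 2 < dist y p := by
      by_contra h5
      have h6 := hz y (not_lt.1 h5)
      have h7 := hlip x y₀
      have h8 := dist_triangle_right x y₀ p
      linarith [hle y₀, dist_nonneg (x := x) (y := y)]
    have h5 : ρ ≤ dist x y := by linarith [dist_triangle_left y p x]
    obtain ⟨x', h6, h7⟩ := exists_mid (approxMid_of_riemannian (Cm n) M) x y ρ hρ.le h5
    have h8 := Sup.discW_chain hK hnn hv hle hL hlip (x := x') (y := y)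
      (by have := hlip x x'; rw [h6] at this; rw [h7]; linarith)
    have h9 := Sup.discW_step hK he hR (by rw [h6]; linarith) (by rw [← dist_pos, h6]; exact hρ)
      hκ.le hcurv hL hlip (by have := hlip x' y; rw [h7] at this; rw [h6]; linarith [hle y]) h8
    rwa [h6] at h9

end Vale.Agent.P253Z
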