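import Vale.Agent.P253Z.Spec
import Vale.Agent.P253.R2.H618.Liou

/-!
# P253Z: three circles
-/

open scoped Manifold ContDiff Bundle ENNReal Topology ComplexConjugate ComplexOrder
open Bundle IsManifold MeasureTheory Set Metric Filter Vale.Agent.P253.Mfd
open Vale.Agent.P272.K (Cm dz dzb cHess jacM Chart)
open Vale.Agent.P253.R2.H451 (ContPsh)
open Vale.Agent.P253.R2.H618 (gb pt gb_mono barrier_avg circ_small circ_cont continuousAt_gb
  norm_exp_I)

set_option maxSynthPendingDepth 3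
set_option linter.unusedSectionVars false

noncomputable section

namespace Vale.Agent.P253Z

namespace TC

variable {E : Type*} [NormedAddCommGroup E] [NormedSpace ℂ E] [FiniteDimensional ℂ E]
  {M : Type*} [MetricSpace M] [ChartedSpace E M]
  [IsManifold 𝓘(ℂ, E) 1 M] [IsManifold 𝓘(ℝ, E) ∞ M]

theorem gb_lt {s t : ℝ} (hs : 0 < s) (hst : s < t) : gb s < gb t := by
  unfold gb
  have h1 := Real.log_lt_log hs hst
  have h2 := one_div_le_one_div_of_le hs hst.le
  linarith only [h1, h2]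

/-- the mean value inequality on affine circles of a chart -/
theorem submean {u : M → ℝ} (hu : ContPsh E u) {e : OpenPartialHomeomorph M E}
    (he : e ∈ maximalAtlas 𝓘(ℂ, E) 1 M) {x : M} (hx : x ∈ e.source) {Y : E} {r : ℝ}
    (h : ∀ w : ℂ, ‖w‖ ≤ 1 → e x + r • (w • Y) ∈ e.target) :
    2 * Real.pi * u x ≤
      ∫ θ in (0:ℝ)..(2 * Real.pi), u (pt e x Y r (Complex.exp (θ * Complex.I))) := by
  have hc : ContinuousOn (pt e x Y r) (closedBall 0 1) := by
    unfold pt
    exact e.continuousOn_symm.comp (by fun_prop) (fun w hw => h w (by simpa using hw))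
  have hd : MDifferentiableOn 𝓘(ℂ, ℂ) 𝓘(ℂ, E) (pt e x Y r) (ball 0 1) := by
    intro w hw
    have h0 : ‖w‖ < 1 := by simpa using hw
    have h1 : MDifferentiableAt 𝓘(ℂ, E) 𝓘(ℂ, E) e.symm (e x + r • (w • Y)) :=
      ((contMDiffOn_symm_of_mem_maximalAtlas he).contMDiffAt
        (e.open_target.mem_nhds (h w h0.le))).mdifferentiableAt (by simp)
    have h2 : DifferentiableAt ℂ (fun w : ℂ => e x + r • (w • Y)) w := by
      have : (fun w : ℂ => e x + r • (w • Y)) = fun w : ℂ => e x + (((r : ℂ) * w) • Y) := by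
        funext w
        rw [mul_smul, Complex.coe_smul]
      rw [this]
      fun_prop
    exact (h1.comp w h2.mdifferentiableAt).mdifferentiableWithinAt
  have h1 := hu.2 (pt e x Y r) 0 1 one_pos hc hd
  have h2 : pt e x Y r 0 = x := by simp [pt, e.left_inv hx]
  have h3 : ∫ θ in (0:ℝ)..(2 * Real.pi), u (pt e x Y r (circleMap 0 1 θ)) =
      ∫ θ in (0:ℝ)..(2 * Real.pi), u (pt e x Y r (Complex.exp (θ * Complex.I))) :=
    intervalIntegral.integral_congr fun θ _ => by simp [circleMap]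
  rw [h2, Real.circleAverage_def, smul_eq_mul, h3, le_inv_mul_iff₀ Real.two_pi_pos] at h1
  exact h1

variable [RiemannianBundle (fun x : M => TangentSpace 𝓘(ℝ, E) x)]
  [IsContMDiffRiemannianBundle 𝓘(ℝ, E) ∞ E (fun x : M => TangentSpace 𝓘(ℝ, E) x)]
  [IsRiemannianManifold 𝓘(ℝ, E) M]

theorem nonneg {x : M} (h : PosBisectionalAt E x) : NonnegBisectionalAt E x := by
  intro e he hx
  obtain ⟨Γ, hΓ, h1⟩ := h e he hx
  have he' := mem_maximalAtlas_real he
  have hz : e x ∈ e.target := e.map_source hx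
  refine ⟨Γ, hΓ, fun u v => ?_⟩
  by_cases hu : u = 0
  · subst hu
    rw [sectNum_eq he' hz hΓ, sectNum_eq he' hz hΓ]
    simp [LocalKahler.secG]
  by_cases hv : v = 0
  · subst hv
    rw [sectNum_eq he' hz hΓ, sectNum_eq he' hz hΓ]
    simp [LocalKahler.secG]
  exact (h1 u v hu hv).le

/-- `u - l gb (d²)` has no local maximum away from `p` -/
theorem no_max (hK : IsKahler E M) [ProperSpace M] (hnn : ∀ x : M, NonnegBisectionalAt E x)
    {u : M → ℝ} (hu : ContPsh E u) {p x : M} (hne : x ≠ p) {l : ℝ} (hl : 0 < l)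
    (hm : ∀ᶠ y in 𝓝 x, u y - l * gb (dist y p ^ 2) ≤ u x - l * gb (dist x p ^ 2)) : False := by
  have he : chartAt E x ∈ maximalAtlas 𝓘(ℂ, E) 1 M := chart_mem_maximalAtlas x
  have hx := mem_chart_source E x
  generalize chartAt E x = e at he hx
  obtain ⟨Y, hY⟩ := barrier_avg hK hnn he hx hne
  obtain ⟨r, h1, h2⟩ := (hY.and_eventually
    (circ_small hx Y (hm.and (isOpen_ne.mem_nhds hne)))).exists
  have h3 := submean hu he hx fun w hw => (h2 w hw).1
  have c1 := circ_cont (e := e) (x := x) (Y := Y) (r := r) fun w hw => (h2 w hw).1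
  have c2 : Continuous fun θ : ℝ =>
      gb (dist (pt e x Y r (Complex.exp (θ * Complex.I))) p ^ 2) := by
    rw [continuous_iff_continuousAt]
    intro θ
    have h4 : dist (pt e x Y r (Complex.exp (θ * Complex.I))) p ^ 2 ≠ 0 :=
      pow_ne_zero 2 (dist_ne_zero.2 (h2 _ (norm_exp_I θ).le).2.2)
    exact (continuousAt_gb h4).comp
      (f := fun θ : ℝ => dist (pt e x Y r (Complex.exp (θ * Complex.I))) p ^ 2)
      ((c1.dist continuous_const).pow 2).continuousAt
  have h5 : ∫ θ in (0:ℝ)..(2 * Real.pi), u (pt e x Y r (Complex.exp (θ * Complex.I))) ≤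
      ∫ θ in (0:ℝ)..(2 * Real.pi), (u x - l * gb (dist x p ^ 2) +
        l * gb (dist (pt e x Y r (Complex.exp (θ * Complex.I))) p ^ 2)) := by
    refine intervalIntegral.integral_mono_on Real.two_pi_pos.le
      ((hu.1.comp c1).intervalIntegrable _ _)
      ((continuous_const.add (c2.const_mul l)).intervalIntegrable _ _) fun θ _ => ?_
    have h6 := (h2 _ (norm_exp_I θ).le).2.1
    linarith only [h6]
  rw [intervalIntegral.integral_add (by simp) ((c2.const_mul l).intervalIntegrable _ _),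
    intervalIntegral.integral_const_mul, intervalIntegral.integral_const, sub_zero,
    smul_eq_mul] at h5
  have h7 := mul_lt_mul_of_pos_left h1 hl
  linarith only [h3, h5, h7]

/-- three circles for nonnegative bisectional curvature -/
theorem three (hK : IsKahler E M) [ProperSpace M] (hnn : ∀ x : M, NonnegBisectionalAt E x)
    (p : M) {u : M → ℝ} {a b α β : ℝ} (hu : ContPsh E u) (ha : 0 < a) (hab : a < b)
    (hαβ : α ≤ β) (h1 : ∀ x, dist x p = a → u x ≤ α) (h2 : ∀ x, dist x p = b → u x ≤ β) {x : M}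
    (hx1 : a ≤ dist x p) (hx2 : dist x p ≤ b) :
    u x ≤ α + (β - α) * ((gb (dist x p ^ 2) - gb (a ^ 2)) / (gb (b ^ 2) - gb (a ^ 2))) := by
  have hΔ : 0 < gb (b ^ 2) - gb (a ^ 2) := sub_pos.2 (gb_lt (by positivity) (by gcongr))
  have hg : 0 ≤ gb (dist x p ^ 2) - gb (a ^ 2) :=
    sub_nonneg.2 (gb_mono (by positivity) (by gcongr))
  have hdc : Continuous fun z : M => dist z p := by fun_prop
  have key : ∀ l : ℝ, 0 < l → β - α ≤ l * (gb (b ^ 2) - gb (a ^ 2)) →
      u x ≤ α + l * (gb (dist x p ^ 2) - gb (a ^ 2)) := by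
    intro l hl hl'
    have hKc : IsCompact {z : M | a ≤ dist z p ∧ dist z p ≤ b} :=
      (isCompact_closedBall p b).of_isClosed_subset
        ((isClosed_le continuous_const hdc).inter (isClosed_le hdc continuous_const))
        fun z hz => hz.2
    have hc : ContinuousOn (fun z => u z - l * gb (dist z p ^ 2))
        {z : M | a ≤ dist z p ∧ dist z p ≤ b} := by
      intro z hz
      have h3 : dist z p ^ 2 ≠ 0 := pow_ne_zero 2 (ha.trans_le hz.1).ne'
      exact (hu.1.continuousAt.sub (((continuousAt_gb h3).comp (f := fun z : M => dist z p ^ 2)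
        (by fun_prop)).const_mul l)).continuousWithinAt
    obtain ⟨y, hy, hm⟩ := hKc.exists_isMaxOn ⟨x, hx1, hx2⟩ hc
    have h3 : u x - l * gb (dist x p ^ 2) ≤ u y - l * gb (dist y p ^ 2) := hm ⟨hx1, hx2⟩
    rcases hy.1.eq_or_lt with h4 | h4
    · have h5 := h1 y h4.symm
      rw [← h4] at h3
      linarith only [h3, h5]
    rcases hy.2.eq_or_lt with h5 | h5
    · have h6 := h2 y h5
      rw [h5] at h3
      linarith only [h3, h6, hl']
    refine (no_max hK hnn hu (dist_pos.1 (ha.trans h4)) hl ?_).elim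
    filter_upwards [((isOpen_lt continuous_const hdc).inter
      (isOpen_lt hdc continuous_const)).mem_nhds ⟨h4, h5⟩] with z hz using hm ⟨hz.1.le, hz.2.le⟩
  generalize gb (dist x p ^ 2) - gb (a ^ 2) = g at hg key ⊢
  generalize gb (b ^ 2) - gb (a ^ 2) = Δ at hΔ key ⊢
  refine le_of_forall_pos_le_add fun ε hε => ?_
  have h3 : 0 ≤ (β - α) / Δ := div_nonneg (sub_nonneg.2 hαβ) hΔ.le
  have h4 : 0 < ε / (g + 1) := by positivity
  have h5 := key ((β - α) / Δ + ε / (g + 1)) (by positivity) (by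
    rw [add_mul, div_mul_cancel₀ _ hΔ.ne']
    exact le_add_of_nonneg_right (by positivity))
  have h6 : ε / (g + 1) * g ≤ ε := by
    rw [div_mul_eq_mul_div, div_le_iff₀ (by positivity)]
    linarith only [hε]
  have h7 : (β - α) / Δ * g = (β - α) * (g / Δ) := by ring
  linarith only [h5, h6, h7]

end TC

variable {n : ℕ} {M : Type} [MetricSpace M] [ChartedSpace (Cm n) M]
  [IsManifold 𝓘(ℂ, Cm n) 1 M] [IsManifold 𝓘(ℝ, Cm n) ∞ M]
  [RiemannianBundle (fun x : M => TangentSpace 𝓘(ℝ, Cm n) x)]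
  [IsContMDiffRiemannianBundle 𝓘(ℝ, Cm n) ∞ (Cm n) (fun x : M => TangentSpace 𝓘(ℝ, Cm n) x)]
  [IsRiemannianManifold 𝓘(ℝ, Cm n) M] [CompleteSpace M] [ConnectedSpace M] [NoncompactSpace M]
  [MeasurableSpace M] [BorelSpace M] {μ : Measure M}

theorem tc (c : Ctx n μ) : TC n M := by
  intro p u a b α β hu ha hab hαβ h1 h2 x hx1 hx2
  have : ProperSpace M := properSpace_riemannian (Cm n) M
  exact TC.three c.kahler (fun x => TC.nonneg (c.pos x)) p hu ha hab hαβ h1 h2 hx1 hx2

end Vale.Agent.P253Z
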