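import Vale.Agent.P253Z.VS.Loc

/-!
# P253Z, block VS: Siegel-Thimm
-/

open scoped Manifold ContDiff Topology
open IsManifold Set Filter
open Vale.Agent.P272.K (Cm jacM Chart)

set_option linter.unusedSectionVars false

noncomputable section

namespace Vale.Agent.P253Z

variable {n : ℕ} {M : Type} [MetricSpace M] [ChartedSpace (Cm n) M] [IsManifold 𝓘(ℂ, Cm n) 1 M]

namespace VS

/-- two points with the same image have the same values of all ratios -/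
theorem same_val {Φ : M → Cm n} {g h : M → ℂ} {y y' : M} {P Q : Polynomial (MvPolynomial (Fin n) ℂ)}
    {d : MvPolynomial (Fin n) ℂ} (hd : d ≠ 0) (h1 : map Φ (𝓝 y) = 𝓝 (Φ y))
    (h2 : map Φ (𝓝 y') = 𝓝 (Φ y')) (hg : ContinuousAt g y) (hg' : ContinuousAt g y')
    (hh : ContinuousAt h y) (hh' : ContinuousAt h y') (eΦ : Φ y = Φ y') (eg : g y = g y')
    (hP : ev P.derivative (Φ y) (g y) ≠ 0)
    (hy : ∀ᶠ w in 𝓝 y, ev P (Φ w) (g w) = 0 ∧
      MvPolynomial.eval (Φ w) d * h w = ev Q (Φ w) (g w))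
    (hy' : ∀ᶠ w in 𝓝 y', ev P (Φ w) (g w) = 0 ∧
      MvPolynomial.eval (Φ w) d * h w = ev Q (Φ w) (g w)) : h y = h y' := by
  obtain ⟨R, hR, hR1, hR2⟩ := exists_quot P
  have hΦ : ContinuousAt Φ y := h1.le
  have hfr : ∃ᶠ q : M × M in 𝓝 (y, y'), Φ q.1 = Φ q.2 ∧ MvPolynomial.eval (Φ q.1) d ≠ 0 := by
    rw [nhds_prod_eq, frequently_iff]
    intro U hU
    obtain ⟨N, hN, N', hN', hsub⟩ := mem_prod_iff.1 hU
    have e1 : Φ '' N ∈ 𝓝 (Φ y) := h1 ▸ image_mem_map hN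
    have e2 : Φ '' N' ∈ 𝓝 (Φ y) := eΦ ▸ h2 ▸ image_mem_map hN'
    obtain ⟨ζ, h3, ⟨w, hw, rfl⟩, w', hw', h4⟩ :=
      ((freq_ne hd (Φ y)).and_eventually (inter_mem e1 e2)).exists
    exact ⟨(w, w'), hsub ⟨hw, hw'⟩, h4.symm, h3⟩
  have c1 : Tendsto Prod.fst (𝓝 (y, y')) (𝓝 y) := continuousAt_fst
  have c2 : Tendsto Prod.snd (𝓝 (y, y')) (𝓝 y') := continuousAt_snd
  have hRn : ∀ᶠ q : M × M in 𝓝 (y, y'), R (Φ q.1, g q.1, g q.2) ≠ 0 := by
    have h3 : Tendsto (fun q : M × M => (Φ q.1, g q.1, g q.2)) (𝓝 (y, y'))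
        (𝓝 (Φ y, g y, g y)) :=
      (hΦ.tendsto.comp c1).prodMk_nhds ((hg.tendsto.comp c1).prodMk_nhds
        (eg ▸ hg'.tendsto.comp c2))
    exact ((hR.tendsto _).comp h3).eventually_ne (by rwa [hR1])
  have h5 : ∃ᶠ q : M × M in 𝓝 (y, y'), h q.1 - h q.2 ∈ ({0} : Set ℂ) := by
    refine (hfr.and_eventually (hRn.and ((c1.eventually hy).and (c2.eventually hy')))).mono ?_
    rintro ⟨w, w'⟩ ⟨⟨e1, e2⟩, e3, ⟨e4, e5⟩, e6, e7⟩
    simp only at e1 e2 e3 e4 e5 e6 e7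
    have e8 := hR2 (Φ w) (g w) (g w')
    rw [← e1] at e6 e7
    rw [e4, e6, sub_self] at e8
    have e9 : g w = g w' := sub_eq_zero.1 ((mul_eq_zero.1 e8.symm).resolve_left e3)
    rw [← e9, ← e5] at e7
    exact sub_eq_zero.2 (mul_left_cancel₀ e2 e7).symm
  exact sub_eq_zero.1 (isClosed_singleton.mem_of_frequently_of_tendsto h5
    ((hh.tendsto.comp c1).sub (hh'.tendsto.comp c2)))

end VS

open VS in
theorem vs (hn : 1 ≤ n) (a : B1a n M) : VS n M := by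
  rintro T hT h1 hmul ⟨C, hC⟩ hsep ⟨x, e, he, hx, m, hm, s₀, s, h₀, hs, hx₀, hb⟩
  have : Nonempty M := ⟨x⟩
  have S₀ := hT m s₀ h₀
  have S := fun i => hT m (s i) (hs i)
  set Φ : M → Cm n := fun y i => s i y / s₀ y with hΦ
  have hΦc : ∀ {y}, s₀ y ≠ 0 → ContinuousAt Φ y := fun h =>
    continuousAt_pi.2 fun i => ratio_cont a (S i) S₀ h
  have hs₀ : s₀ ≠ 0 := fun h => hx₀ (congrFun h x)
  obtain ⟨l, u, hu, v, hv, hv0, P, hP, ⟨k, τ, hτ, hτ0, hτP⟩, hall⟩ :=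
    alg hn ⟨h1, hmul⟩ (gen a) (fun m s hs h0 => ⟨m, s, hT m s hs, h0, fun _ h => h⟩) hC hm h₀ hs hs₀
      (by
        intro d hd
        by_contra h0
        have h2 := freq_ne h0 (Φ x)
        rw [← map_nhds (Φ := Φ) hx (Phi_an a S₀ S he hx hx₀) hb.2, frequently_map] at h2
        obtain ⟨w, h3, h4⟩ := (h2.and_eventually (ne_nhds a S₀ hx₀)).exists
        exact h3 (gen_zero a hd
          ((MvPolynomial.continuous_eval d).continuousAt.comp (hΦc h4))))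
  have U := hT l u hu
  have V := hT l v hv
  set g : M → ℂ := fun y => u y / v y with hg
  have hevc : ∀ (Q : Polynomial (MvPolynomial (Fin n) ℂ)) {y}, s₀ y ≠ 0 → v y ≠ 0 →
      ContinuousAt (fun w => ev Q (Φ w) (g w)) y := fun Q y e1 e2 =>
    (continuous_ev Q).continuousAt.comp₂ (hΦc e1) (ratio_cont a U V e2)
  have hP0 : ∀ {y}, s₀ y ≠ 0 → v y ≠ 0 → ev P (Φ y) (g y) = 0 := fun e1 e2 =>
    gen_zero a (u := fun w => ev P (Φ w) (g w)) hP (hevc P e1 e2)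
  have hJ := Jac_sec a hm S₀ S
  have hJ0 : Jac s₀ s ≠ 0 := by
    intro h
    have h2 := co_Jac a hm S₀ S he (e.map_source hx)
    rw [h] at h2
    have h3 : co (-m) s₀ e (e x) ≠ 0 :=
      (co_ne a he (e.map_source hx)).2 (by rwa [e.left_inv hx])
    refine mul_ne_zero (pow_ne_zero _ h3) (DJ_ne.2 hb) (h2.symm.trans ?_)
    simp [co]
  have hJb : ∀ {y}, Jac s₀ s y ≠ 0 → s₀ y ≠ 0 ∧ Function.Bijective (fderiv ℂ
      (fun z => Φ ((chartAt (Cm n) y).symm z)) (chartAt (Cm n) y y)) := fun h =>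
    ⟨fun h0 => h (by simp [Jac, h0]), DJ_ne.1 (right_ne_zero_of_mul h)⟩
  have hmap : ∀ {y}, Jac s₀ s y ≠ 0 → map Φ (𝓝 y) = 𝓝 (Φ y) := fun {y} h =>
    map_nhds (mem_chart_source _ y) (Phi_an a S₀ S (a.chart y) (mem_chart_source _ y) (hJb h).1)
      (hJb h).2.2
  refine ⟨l + k + (m * (2 * n + 1) - 1), v * τ * Jac s₀ s, Φ, g, P,
    sec_mul a (sec_mul a V hτ) hJ, mul_ne a (sec_mul a V hτ) hJ (mul_ne a V hτ hv0 hτ0) hJ0, ?_,
    fun y hy => ?_⟩
  · intro y hy y' hy' hyy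
    by_contra hne
    obtain ⟨m', -, a', ha', b', hb', e1, e2, e3, e4⟩ := hsep y y' hne
    have A := hT m' a' ha'
    have B := hT m' b' hb'
    obtain ⟨d, hd, Q, hQ⟩ := hall m' a' ha' b' hb' fun h => e3 (congrFun h y)
    have key : ∀ {w}, (v * τ * Jac s₀ s) w ≠ 0 → b' w ≠ 0 → ∀ᶠ w' in 𝓝 w,
        ev P (Φ w') (g w') = 0 ∧
          MvPolynomial.eval (Φ w') d * (a' w' / b' w') = ev Q (Φ w') (g w') := by
      intro w f1 f2
      filter_upwards [ne_nhds a S₀ (hJb (right_ne_zero_of_mul f1)).1,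
        ne_nhds a V (left_ne_zero_of_mul (left_ne_zero_of_mul f1)), ne_nhds a B f2] with w' f3 f4 f5
      refine ⟨hP0 f3 f4, sub_eq_zero.1 (gen_zero a (u := fun w =>
        MvPolynomial.eval (Φ w) d * (a' w / b' w) - ev Q (Φ w) (g w))
        (hQ.mono fun w hw => sub_eq_zero.2 hw) ?_)⟩
      exact (((MvPolynomial.continuous_eval d).continuousAt.comp (hΦc f3)).mul
        (ratio_cont a A B f5)).sub (hevc Q f3 f4)
    have h2 := same_val (h := fun w => a' w / b' w) hd (hmap (right_ne_zero_of_mul hy))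
      (hmap (right_ne_zero_of_mul hy'))
      (ratio_cont a U V (left_ne_zero_of_mul (left_ne_zero_of_mul hy)))
      (ratio_cont a U V (left_ne_zero_of_mul (left_ne_zero_of_mul hy')))
      (ratio_cont a A B e3) (ratio_cont a A B e4) (congrArg Prod.fst hyy) (congrArg Prod.snd hyy)
      (hτP y (right_ne_zero_of_mul (left_ne_zero_of_mul hy))) (key hy e3) (key hy' e4)
    simp only [e1, zero_div] at h2
    exact div_ne_zero e2 e4 h2.symm
  · obtain ⟨e1, e2⟩ := hJb (right_ne_zero_of_mul hy)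
    have e3 : v y ≠ 0 := left_ne_zero_of_mul (left_ne_zero_of_mul hy)
    have h2 := has_of (u := Φ) (Phi_an a S₀ S (a.chart y) (mem_chart_source _ y) e1)
    refine ⟨h2.mdifferentiableAt, (has_of (u := g)
      (ratio_an' a U V (a.chart y) (mem_chart_source _ y) e3)).mdifferentiableAt, ?_, hP0 e1 e3,
      hτP y (right_ne_zero_of_mul (left_ne_zero_of_mul hy))⟩
    rw [h2.mfderiv]
    exact e2.comp ((mdifferentiable_chart (I := 𝓘(ℂ, Cm n)) y).mfderiv_bijective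
      (mem_chart_source _ y))

end Vale.Agent.P253Z
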