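import Vale.Agent.P253Z.Spec
import Vale.Agent.P253.R2.H451.Gen4

/-!
# P253Z, block WT: the gauge and the weights
-/

open scoped Manifold ContDiff Bundle ENNReal Topology ComplexConjugate ComplexOrder
open Bundle IsManifold MeasureTheory Set Metric Filter Vale.Agent.P253.Mfd
open Vale.Agent.P272.K (Cm dz dzb cHess jacM Chart)
open Vale.Agent.P253.R2.H451
open Vale.Agent.P253.R2.H618 (gb gb_mono)

set_option linter.unusedSectionVars false

noncomputable section

namespace Vale.Agent.P253Z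

variable {n : ℕ} {M : Type} [MetricSpace M] [ChartedSpace (Cm n) M]

namespace Wt

variable (n) in
/-- `v` is a competitor for the gauge `A` -/
structure Cp (p : M) (R A : ℝ) (v : M → ℝ) : Prop where
  psh : ContPsh (Cm n) v
  nonneg : ∀ x, 0 ≤ v x
  zero : ∀ x ∈ closedBall p (3 / 2), v x = 0
  big : ∃ y ∈ closedBall p 2, 4 ≤ v y
  le : ∀ x, v x ≤ A + tl p R x

theorem tl_nonneg (p : M) (R : ℝ) (x : M) : 0 ≤ tl p R x := le_max_right _ _

theorem le_tl (p : M) (R : ℝ) (x : M) : dist x p ≤ R + tl p R x :=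
  sub_le_iff_le_add'.1 (le_max_left _ _)

theorem tl_le (p : M) (R : ℝ) (x y : M) : tl p R y ≤ tl p R x + dist x y :=
  max_le (by linarith [le_tl p R x, dist_triangle_left y p x])
    (add_nonneg (tl_nonneg p R x) dist_nonneg)

theorem tl_eq {p x : M} {R : ℝ} (h : dist x p ≤ R) : tl p R x = 0 := max_eq_right (sub_nonpos.2 h)

theorem dom_of {p : M} {R A : ℝ} (h : ∀ v, ¬ Cp n p R (A / 2) v) : Dom n p R A := by
  intro w l h1 h2 h3 hl h4 x hx
  by_contra h5
  refine h (fun y => l⁻¹ * w y) ⟨((h1.subS univ).const_mul (inv_pos.2 hl).le).contPsh,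
    fun y => mul_nonneg (inv_pos.2 hl).le (h2 y), fun y hy => by rw [h3 y hy, mul_zero],
    ⟨x, hx, ?_⟩, fun y => (inv_mul_le_iff₀ hl).2 (h4 y)⟩
  rw [le_inv_mul_iff₀ hl]
  linarith

/-- three circles bound the gauge from below -/
theorem log_le [RiemannianBundle (fun x : M => TangentSpace 𝓘(ℝ, Cm n) x)] (h1 : TC n M)
    {p : M} {R A : ℝ} {v : M → ℝ} (hR : 2 ≤ R) (h : Cp n p R A v) : Real.log R ≤ A := by
  obtain ⟨y, hy, hy4⟩ := h.big
  rw [mem_closedBall] at hy
  have hA : 0 ≤ A := by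
    have := (h.nonneg p).trans (h.le p)
    rwa [tl_eq (by rw [dist_self]; linarith), add_zero] at this
  have hy3 : 3 / 2 ≤ dist y p := by
    by_contra hc
    linarith [h.zero y (mem_closedBall.2 (not_le.1 hc).le)]
  have h2 := h1 p v (3 / 2) R 0 A h.psh (by norm_num) (by linarith) hA
    (fun x hx => (h.zero x (mem_closedBall.2 hx.le)).le)
    (fun x hx => by simpa [tl_eq hx.le] using h.le x) y hy3 (hy.trans hR)
  have l2 : Real.log 2 ≤ Real.log R := Real.log_le_log two_pos hR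
  have l3 := Real.log_two_gt_d9
  have l4 : Real.log ((3 / 2) ^ 2) ≤ (3 / 2) ^ 2 - 1 := Real.log_le_sub_one_of_pos (by norm_num)
  have l5 : Real.log (4 / (3 / 2) ^ 2) ≤ 4 / (3 / 2) ^ 2 - 1 :=
    Real.log_le_sub_one_of_pos (by norm_num)
  rw [Real.log_div (by norm_num) (by norm_num)] at l5
  have l6 : 1 / R ^ 2 ≤ 1 / 4 := one_div_le_one_div_of_le (by norm_num) (by nlinarith)
  have hnum : gb (dist y p ^ 2) - gb ((3 / 2) ^ 2) ≤ 1 := by
    have := gb_mono (s := dist y p ^ 2) (t := 4) (by positivity) (by nlinarith)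
    unfold gb at this ⊢
    linarith
  have hden : Real.log R / 4 ≤ gb (R ^ 2) - gb ((3 / 2) ^ 2) := by
    unfold gb
    rw [Real.log_pow R]
    push_cast
    linarith
  have hd0 : 0 < gb (R ^ 2) - gb ((3 / 2) ^ 2) := by linarith
  rw [zero_add, sub_zero, ← mul_div_assoc, le_div_iff₀ hd0] at h2
  nlinarith

/-- the sup-convolution -/
def sc (v : M → ℝ) (x : M) : ℝ := ⨆ y, (v y - 6 / 5 * dist x y)

theorem Cp.sub_le {p : M} {R A : ℝ} {v : M → ℝ} (h : Cp n p R A v) (x y : M) :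
    v y - 6 / 5 * dist x y ≤ A + tl p R x := by
  linarith [h.le y, tl_le p R x y, dist_nonneg (x := x) (y := y)]

theorem Cp.le_sc {p : M} {R A : ℝ} {v : M → ℝ} (h : Cp n p R A v) (x y : M) :
    v y - 6 / 5 * dist x y ≤ sc v x :=
  le_ciSup (f := fun y => v y - 6 / 5 * dist x y) ⟨_, forall_mem_range.2 (h.sub_le x)⟩ y

theorem Cp.sc_lip {p : M} {R A : ℝ} {v : M → ℝ} (h : Cp n p R A v) (x x' : M) :
    sc v x ≤ sc v x' + 6 / 5 * dist x x' :=
  have : Nonempty M := ⟨p⟩
  ciSup_le fun y => by linarith [h.le_sc x' y, dist_triangle_left x' y x]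

end Wt

open Wt

variable [IsManifold 𝓘(ℂ, Cm n) 1 M] [IsManifold 𝓘(ℝ, Cm n) ∞ M]
  [RiemannianBundle (fun x : M => TangentSpace 𝓘(ℝ, Cm n) x)]
  [IsContMDiffRiemannianBundle 𝓘(ℝ, Cm n) ∞ (Cm n) (fun x : M => TangentSpace 𝓘(ℝ, Cm n) x)]
  [IsRiemannianManifold 𝓘(ℝ, Cm n) M] [CompleteSpace M] [ConnectedSpace M] [NoncompactSpace M]
  [MeasurableSpace M] [BorelSpace M] {μ : Measure M}

theorem wtt (_c : Ctx n μ) (h1 : TC n M) (h2 : SUP n M) (h3 : BUS n M) : WT n M := by
  intro p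
  have : Nonempty M := ⟨p⟩
  have := properSpace_riemannian (Cm n) M
  obtain ⟨κ, hκ, hs⟩ := h2 p
  obtain ⟨b, c, hb, hbd, hc, hc0, hbc⟩ := h3 p
  obtain ⟨x₀, -, hx₀⟩ := (isCompact_closedBall p (1 / 8)).exists_isMinOn
    ⟨p, mem_closedBall_self (by norm_num)⟩ hc.continuousOn
  refine ⟨min (c x₀) (κ / 4), lt_min (hc0 _) (by positivity), fun R hR => ?_⟩
  have hR0 : 0 < R := by linarith
  by_cases hS : {A | ∃ v, Cp n p R A v}.Nonempty
  swap
  · refine ⟨R, b, c, (Real.log_le_sub_one_of_pos hR0).trans (by linarith),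
      dom_of fun v hv => hS ⟨_, v, hv⟩, hc, hc0, fun x hx => (min_le_left _ _).trans (hx₀ hx), hbc,
      fun x => by linarith [hbd x, dist_nonneg (x := x) (y := p)], fun x => ?_⟩
    linarith [le_abs_self (b x), hbd x, le_tl p R x, tl_nonneg p R x]
  have hlow : Real.log R ∈ lowerBounds {A | ∃ v, Cp n p R A v} :=
    fun _ ⟨_, hv⟩ => log_le h1 hR hv
  have hA := le_csInf hS hlow
  set A := sInf {A | ∃ v, Cp n p R A v} with hAd
  have hA0 : 0 < A := (Real.log_pos (by linarith)).trans_le hA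
  obtain ⟨A', ⟨v, hv⟩, hA'⟩ := exists_lt_of_csInf_lt hS (lt_add_one A)
  obtain ⟨s1, s2⟩ : ContPsh (Cm n) (sc v) ∧ WeakLevi (Cm n) (sc v) (fun _ => κ) (ball p (1 / 4)) :=
    hs v A' hv.psh hv.nonneg hv.zero hv.big fun x => (hv.le x).trans
      (add_le_add_right (max_le (by linarith) dist_nonneg) _)
  have hRi : 0 < R⁻¹ := inv_pos.2 hR0
  have hRi2 : R⁻¹ ≤ 1 / 2 := by
    rw [one_div]
    exact inv_anti₀ two_pos hR
  let W : M → ℝ := fun x => sc v x + R⁻¹ * b x + -sc v p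
  let c' : M → ℝ := fun x => max (R⁻¹ * c x) (κ * (1 - 4 * dist x p)) / 2
  have hc' : Continuous c' := by fun_prop
  have w1 : WeakLevi (Cm n) W (fun _ => κ) (ball p (1 / 4)) :=
    (s2.add_psh ((hb.subS univ).const_mul hRi.le).contPsh).add_const _
  have w2 : WeakLevi (Cm n) W (fun x => R⁻¹ * c x) univ := by
    have := ((hbc.const_mul hRi).add_psh s1).add_const (-sc v p)
    simpa only [add_comm (R⁻¹ * b _)] using this
  have hp0 : 0 ≤ sc v p := by
    have := hv.le_sc p p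
    rw [dist_self] at this
    linarith [hv.nonneg p]
  refine ⟨A, W, c', hA, dom_of fun w hw => ?_, hc', fun x => ?_, fun x hx => ?_,
    weakLevi_of_tangent w1.1 fun y _ => ?_, fun x => ?_, fun x => ?_⟩
  · linarith [csInf_le ⟨_, hlow⟩ (show A / 2 ∈ {A | ∃ v, Cp n p R A v} from ⟨w, hw⟩)]
  · exact half_pos (lt_max_of_lt_left (mul_pos hRi (hc0 x)))
  · refine (min_le_right _ _).trans ?_
    have h4 := le_max_right (R⁻¹ * c x) (κ * (1 - 4 * dist x p))
    have h5 := mem_closedBall.1 hx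
    simp only [c']
    nlinarith
  · have h4 := mul_pos hRi (hc0 y)
    rcases le_total (κ * (1 - 4 * dist y p)) (R⁻¹ * c y) with h5 | h5
    · refine ⟨{x | c' x < R⁻¹ * c x}, isOpen_lt hc' (by fun_prop), ?_, W, rfl, fun _ _ => le_rfl,
        w2.mono (subset_univ _) fun x hx => le_of_lt hx⟩
      simp only [mem_ofPred_eq, c', max_eq_left h5]
      linarith
    · refine ⟨ball p (1 / 4) ∩ {x | c' x < κ}, isOpen_ball.inter (isOpen_lt hc' continuous_const),
        ⟨mem_ball.2 ?_, ?_⟩, W, rfl, fun _ _ => le_rfl,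
        w1.mono inter_subset_left fun x hx => le_of_lt hx.2⟩
      · linarith [(mul_pos_iff_of_pos_left hκ).1 (h4.trans_le h5)]
      · simp only [mem_ofPred_eq, c', max_eq_right h5]
        nlinarith [dist_nonneg (x := y) (y := p)]
  · have h4 := hv.sc_lip x p
    have h5 := hv.sc_lip p x
    have h6 := abs_le.1 (hbd x)
    have h7 := dist_nonneg (x := x) (y := p)
    rw [dist_comm] at h5
    simp only [W]
    rw [abs_le]
    constructor <;> nlinarith [h6.1, h6.2]
  · have h4 : sc v x ≤ A' + tl p R x := ciSup_le (hv.sub_le x)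
    have h5 : R⁻¹ * b x ≤ R⁻¹ * (R + tl p R x) :=
      mul_le_mul_of_nonneg_left (((le_abs_self _).trans (hbd x)).trans (le_tl p R x)) hRi.le
    rw [mul_add, inv_mul_cancel₀ hR0.ne'] at h5
    have h6 := tl_nonneg p R x
    simp only [W]
    nlinarith

end Vale.Agent.P253Z
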