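import Vale.Agent.P253Z.Core
import Vale.Agent.P253Z.B1a
import Vale.Agent.P253Z.B1b
import Vale.Agent.P253Z.B2
import Vale.Agent.P253Z.B3
import Vale.Agent.P253Z.EXH
import Vale.Agent.P253Z.BG
import Vale.Agent.P253Z.TC
import Vale.Agent.P253Z.SUP
import Vale.Agent.P253Z.BUS
import Vale.Agent.P253Z.WT
import Vale.Agent.P253Z.RB
import Vale.Agent.P253Z.HOR
import Vale.Agent.P253Z.HJ
import Vale.Agent.P253Z.SCH
import Vale.Agent.P253Z.MV
import Vale.Agent.P253Z.GR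
import Vale.Agent.P253Z.FR
import Vale.Agent.P253Z.ORD
import Vale.Agent.P253Z.JET
import Vale.Agent.P253Z.PK1
import Vale.Agent.P253Z.PK23
import Vale.Agent.P253Z.BER
import Vale.Agent.P253Z.ISO
import Vale.Agent.P253Z.COV
import Vale.Agent.P253Z.VS

/-!
# P253Z: all blocks hold
-/

open scoped Manifold ContDiff Bundle ENNReal Topology ComplexConjugate ComplexOrder
open Bundle IsManifold MeasureTheory Set Metric Filter Vale.Agent.P253.Mfd
open Vale.Agent.P272.K (Cm dz dzb cHess jacM Chart)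

noncomputable section

namespace Vale.Agent.P253Z

variable {n : ℕ} {M : Type} [MetricSpace M] [ChartedSpace (Cm n) M]
  [IsManifold 𝓘(ℂ, Cm n) 1 M] [IsManifold 𝓘(ℝ, Cm n) ∞ M]
  [RiemannianBundle (fun x : M => TangentSpace 𝓘(ℝ, Cm n) x)]
  [IsContMDiffRiemannianBundle 𝓘(ℝ, Cm n) ∞ (Cm n) (fun x : M => TangentSpace 𝓘(ℝ, Cm n) x)]
  [IsRiemannianManifold 𝓘(ℝ, Cm n) M] [CompleteSpace M] [ConnectedSpace M] [NoncompactSpace M]

section

variable [MeasurableSpace M] [BorelSpace M] {μ : Measure M}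

theorem ctx_hor (c : Ctx n μ) : HOR n μ :=
  hor c b1a (b1b c.kahler b1a) (exh c.kahler b1a (b1b c.kahler b1a))

theorem ctx_hj (c : Ctx n μ) : HJ n μ :=
  hj b1a (b1b c.kahler b1a) (b3 c.vol b1a (b1b c.kahler b1a)) (ctx_hor c)

theorem ctx_wt (c : Ctx n μ) : WT n M := wtt c (tc c) (sup c) (bus c)

theorem ctx_mv (c : Ctx n μ) : MV n μ :=
  mv b1a (b3 c.vol b1a (b1b c.kahler b1a)) (sch c b1a) (bg c b1a (b1b c.kahler b1a))

theorem all (c : Ctx n μ) : All n μ := by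
  have a : B1a n M := b1a
  have b := b1b c.kahler a
  have r := b2 c.kahler c.pos c.npos a b
  have v := b3 c.vol a b
  have h := ctx_hj c
  exact ⟨a, b, r, v, fr a b (ctx_wt c) (rb c.kahler a b) h (gr a b v (ctx_mv c) (bg c a b)),
    ord a (tc c), jet, pk1 a b r h, pk2 a b r v h, pk3 a b r v h, ber a b r v, iso c a b r v⟩

theorem exists_ctx (hK : IsKahler (Cm n) M) (hp : ∀ x : M, PosBisectionalAt (Cm n) x) :
    ∃ μ : Measure M, Ctx n μ := by
  obtain ⟨μ, h⟩ := exists_vol (b1a (n := n) (M := M)) (b1b hK b1a)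
  exact ⟨μ, npos (M := M), hK, hp, h⟩

end

theorem orbit_bdd (hK : IsKahler (Cm n) M) (hp : ∀ x : M, PosBisectionalAt (Cm n) x) (x : M) :
    ∃ R : ℝ, ∀ φ : M ≃ M, HolIso n φ → dist (φ x) x ≤ R := by
  borelize M
  obtain ⟨μ, c⟩ := exists_ctx hK hp
  exact (all c).orbit x

theorem pi_finite (hK : IsKahler (Cm n) M) (hp : ∀ x : M, PosBisectionalAt (Cm n) x) (x : M) :
    Finite (FundamentalGroup M x) :=
  finite_pi (cov hK hp) (fun _ _ _ _ _ _ _ _ _ _ _ h1 h2 => orbit_bdd h1 h2) x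

theorem emb (hK : IsKahler (Cm n) M) (hp : ∀ x : M, PosBisectionalAt (Cm n) x) : Emb n M := by
  borelize M
  obtain ⟨μ, c⟩ := exists_ctx hK hp
  exact (all c).emb (vs c.npos b1a)

end Vale.Agent.P253Z
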