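import Vale.Agent.P253Z.Spec

/-!
# P253Z: assembly of the blocks
-/

open scoped Manifold ContDiff Bundle ENNReal Topology ComplexConjugate ComplexOrder
open Bundle IsManifold MeasureTheory Set Metric Filter Vale.Agent.P253.Mfd
open Vale.Agent.P272.K (Cm dz dzb cHess jacM Chart)

noncomputable section

namespace Vale.Agent.P253Z

variable {n : ℕ} {M : Type} [MetricSpace M] [ChartedSpace (Cm n) M]

/-- a noncompact connected manifold has positive dimension -/
theorem npos [ConnectedSpace M] [NoncompactSpace M] : 1 ≤ n := by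
  by_contra h
  obtain rfl : n = 0 := by omega
  have hd : DiscreteTopology M := by
    refine discreteTopology_iff_isOpen_singleton.2 fun x => ?_
    have h1 : (chartAt (Cm 0) x).source = {x} := by
      refine Subset.antisymm (fun y hy => ?_) (singleton_subset_iff.2 (mem_chart_source _ x))
      exact (chartAt (Cm 0) x).injOn hy (mem_chart_source _ x) (Subsingleton.elim _ _)
    rw [← h1]
    exact (chartAt (Cm 0) x).open_source
  have hs : Subsingleton M := PreconnectedSpace.trivial_of_discrete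
  have : CompactSpace M := Finite.compactSpace
  exact NoncompactSpace.noncompact_univ (X := M) isCompact_univ

variable [RiemannianBundle (fun x : M => TangentSpace 𝓘(ℝ, Cm n) x)] [MeasurableSpace M]
  {μ : Measure M} {p : M}

theorem tame_sec (F : Fr n μ p) {m : ℕ} {s : M → ℂ} (h : s ∈ F.Tame m) : IsSec n (-m) s := h.1

theorem tame_of_inH (F : Fr n μ p) {m : ℕ} (hm : 1 ≤ m) {s : M → ℂ} (h : InH n μ m s) :
    s ∈ F.Tame m := ⟨h.1, F.l2 m hm s h⟩

theorem hl_le (F : Fr n μ p) {m : ℕ} (hm : 1 ≤ m) : HL n μ m ≤ F.Tame m :=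
  Submodule.span_le.2 fun _ h => tame_of_inH F hm h

theorem one_tame (F : Fr n μ p) : (1 : M → ℂ) ∈ F.Tame 0 := by
  refine ⟨fun e _ z _ => ?_, 0, fun ν x => by simp⟩
  have : co (-((0 : ℕ) : ℤ)) (1 : M → ℂ) e = fun _ => 1 := by funext z; simp [co]
  rw [this]
  exact analyticAt_const

theorem mul_tame (a : B1a n M) (F : Fr n μ p) {m l : ℕ} {s t : M → ℂ} (hs : s ∈ F.Tame m)
    (ht : t ∈ F.Tame l) : s * t ∈ F.Tame (m + l) := by
  obtain ⟨h1, C, hC⟩ := hs
  obtain ⟨h2, D, hD⟩ := ht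
  refine ⟨?_, C + D, fun ν x => ?_⟩
  · have := a.sec_mul _ _ _ _ h1 h2
    rwa [show (-(m : ℤ) + -(l : ℤ)) = -((m + l : ℕ) : ℤ) by push_cast; ring] at this
  · have e1 : (s * t) x * F.Ω ν x ^ (m + l) = s x * F.Ω ν x ^ m * (t x * F.Ω ν x ^ l) := by
      rw [Pi.mul_apply, pow_add]; ring
    have e2 : C + D + F.C₂ * ((m + l : ℕ) : ℝ) * (F.A ν + tl p (F.R ν) x) =
        (C + F.C₂ * m * (F.A ν + tl p (F.R ν) x)) + (D + F.C₂ * l * (F.A ν + tl p (F.R ν) x)) := by
      push_cast; ring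
    rw [e1, e2, norm_mul, Real.exp_add]
    exact mul_le_mul (hC ν x) (hD ν x) (norm_nonneg _) (Real.exp_pos _).le

/-- the coefficient in a chart as a linear map -/
def coL (k : ℤ) (e : Chart n M) : (M → ℂ) →ₗ[ℂ] (Cm n → ℂ) where
  toFun s := co k s e
  map_add' s t := by funext z; simp [co, mul_add]
  map_smul' c s := by funext z; simp [co]; ring

theorem dim_tame (ho : ORD n μ) (hj : JET) (F : Fr n μ p) : ∃ C : ℝ, ∀ m : ℕ, 1 ≤ m →
    Module.Finite ℂ (F.Tame m) ∧ (Module.finrank ℂ (F.Tame m) : ℝ) ≤ C * m ^ n := by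
  obtain ⟨C₃, hC⟩ := ho p F
  refine ⟨(C₃ : ℝ) ^ n, fun m hm => ?_⟩
  have h0 : (0 : Cm n) ∈ F.e.target := F.sub (mem_closedBall_self F.δ_pos.le)
  obtain ⟨h1, h2⟩ := hj n (C₃ * m) (F.Tame m) ((coL (-m) F.e).comp (F.Tame m).subtype)
    (fun v => v.2.1 F.e F.he 0 h0) (fun v hv => Subtype.ext (hC m hm v v.2 hv))
  refine ⟨h1, ?_⟩
  rw [← mul_pow]
  exact_mod_cast h2

theorem dim_hl (ho : ORD n μ) (hj : JET) (F : Fr n μ p) : ∃ C : ℝ, ∀ m : ℕ, 1 ≤ m →
    Module.Finite ℂ (HL n μ m) ∧ (Module.finrank ℂ (HL n μ m) : ℝ) ≤ C * m ^ n := by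
  obtain ⟨C, hC⟩ := dim_tame ho hj F
  refine ⟨C, fun m hm => ?_⟩
  obtain ⟨h1, h2⟩ := hC m hm
  refine ⟨Submodule.finiteDimensional_of_le (hl_le F hm), le_trans ?_ h2⟩
  exact_mod_cast Submodule.finrank_mono (hl_le F hm)

theorem emb_of (a : B1a n M) (ho : ORD n μ) (hj : JET) (F : Fr n μ p) (h2 : PK2 n μ)
    (h3 : PK3 n μ) (hv : VS n M) : Emb n M := by
  refine hv F.Tame (fun _ _ h => h.1) (one_tame F) (fun _ _ _ hs _ ht => mul_tame a F hs ht)
    (dim_tame ho hj F) (fun x y hxy => ?_) ?_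
  · obtain ⟨m, hm, s, t, hs, ht, h⟩ := h2 x y hxy
    exact ⟨m, hm, s, tame_of_inH F hm hs, t, tame_of_inH F hm ht, h⟩
  · obtain ⟨e, he, hx, m, hm, s₀, s, h0, hs, h⟩ := h3 p
    exact ⟨p, e, he, hx, m, hm, s₀, s, tame_of_inH F hm h0, fun i => tame_of_inH F hm (hs i), h⟩

end Vale.Agent.P253Z
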