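import Vale.Agent.P253Z.Asm

/-!
# P253Z: the assembly, from the block theorems
-/

open scoped Manifold ContDiff Bundle ENNReal Topology ComplexConjugate ComplexOrder
open Bundle IsManifold MeasureTheory Set Metric Filter Vale.Agent.P253.Mfd
open Vale.Agent.P272.K (Cm dz dzb cHess jacM Chart)

noncomputable section

namespace Vale.Agent.P253Z

variable {n : ℕ} {M : Type} [MetricSpace M] [ChartedSpace (Cm n) M]
  [RiemannianBundle (fun x : M => TangentSpace 𝓘(ℝ, Cm n) x)] [MeasurableSpace M]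
  {μ : Measure M}

variable (n) in
/-- everything that is proved about one manifold -/
structure All (μ : Measure M) : Prop where
  a : B1a n M
  b : B1b n M
  r : B2 n M
  v : B3 n μ
  fr : FR n μ
  ord : ORD n μ
  jet : JET
  pk1 : PK1 n μ
  pk2 : PK2 n μ
  pk3 : PK3 n μ
  ber : BER n μ
  iso : ISO n μ

namespace All

theorem dim [Nonempty M] (h : All n μ) : ∃ C : ℝ, ∀ m : ℕ, 1 ≤ m →
    Module.Finite ℂ (HL n μ m) ∧ (Module.finrank ℂ (HL n μ m) : ℝ) ≤ C * m ^ n := by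
  obtain ⟨F⟩ := h.fr (Classical.arbitrary M)
  exact dim_hl h.ord h.jet F

theorem ric_fin [Nonempty M] (h : All n μ) : ∫⁻ x, ENNReal.ofReal (ricDen n x) ∂μ < ⊤ :=
  (h.ber h.dim h.pk1).1

theorem orbit [Nonempty M] (h : All n μ) (x : M) :
    ∃ R : ℝ, ∀ φ : M ≃ M, HolIso n φ → dist (φ x) x ≤ R := h.iso h.ric_fin x

theorem dims [Nonempty M] (h : All n μ) : ∃ c C : ℝ, 0 < c ∧ ∀ᶠ m : ℕ in atTop,
    ∃ V : Submodule ℂ (M → ℂ), (∀ s, s ∈ V ↔ IsSec n (-m) s ∧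
      ∫⁻ x, ENNReal.ofReal (nrm n (-m) s x) ∂μ < ⊤) ∧ FiniteDimensional ℂ V ∧
      c * m ^ n ≤ Module.finrank ℂ V ∧ Module.finrank ℂ V ≤ C * m ^ n := by
  obtain ⟨C, hC⟩ := h.dim
  obtain ⟨c, hc, h1⟩ := (h.ber ⟨C, hC⟩ h.pk1).2
  refine ⟨c, C, hc, ?_⟩
  filter_upwards [h1, eventually_ge_atTop 1] with m h2 hm
  exact ⟨HL n μ m, h.v.mem m, (hC m hm).1, h2, (hC m hm).2⟩

theorem emb [Nonempty M] (h : All n μ) (hv : VS n M) : Emb n M := by
  obtain ⟨F⟩ := h.fr (Classical.arbitrary M)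
  exact emb_of h.a h.ord h.jet F h.pk2 h.pk3 hv

end All

omit [MeasurableSpace M] in
/-- bounded orbits on the universal covering make the fundamental group finite -/
theorem finite_pi (hc : COV n M)
    (H : ∀ (N : Type) [MetricSpace N] [ChartedSpace (Cm n) N] [IsManifold 𝓘(ℂ, Cm n) 1 N]
      [IsManifold 𝓘(ℝ, Cm n) ∞ N] [RiemannianBundle fun x : N => TangentSpace 𝓘(ℝ, Cm n) x]
      [IsContMDiffRiemannianBundle 𝓘(ℝ, Cm n) ∞ (Cm n) fun x : N => TangentSpace 𝓘(ℝ, Cm n) x]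
      [IsRiemannianManifold 𝓘(ℝ, Cm n) N] [CompleteSpace N] [ConnectedSpace N]
      [NoncompactSpace N], IsKahler (Cm n) N → (∀ y : N, PosBisectionalAt (Cm n) y) →
      ∀ y : N, ∃ R : ℝ, ∀ φ : N ≃ N, HolIso n φ → dist (φ y) y ≤ R) (x : M) :
    Finite (FundamentalGroup M x) := by
  obtain ⟨N, i1, i2, i3, i4, i5, i6, i7, i8, i9, i10, hK, hp, h⟩ := hc
  obtain ⟨y, ι, h1, h2⟩ := h x
  obtain ⟨R, hR⟩ := H N hK hp y
  have : {γ | dist (ι γ y) y ≤ R} = univ := eq_univ_of_forall fun γ => hR _ (h1 γ)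
  exact finite_univ_iff.1 (this ▸ h2 R)

end Vale.Agent.P253Z
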