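import Vale.Agent.P253.Mfd.Defs
import Vale.Agent.P272.K.Stmt

/-!
# P253Z: definitions of the statement

`M` is a complex manifold modelled on `ℂⁿ = Cm n = Fin n → ℂ` with a Riemannian metric.
-/

open scoped Manifold ContDiff Bundle ENNReal
open Bundle IsManifold MeasureTheory Vale.Agent.P253.Mfd
open Vale.Agent.P272.K (Cm dz dzb cHess jacM Chart)

noncomputable section

namespace Vale.Agent.P253Z

variable {n : ℕ} {M : Type} [MetricSpace M] [ChartedSpace (Cm n) M]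

/-- `e` is a holomorphic chart -/
def Hc (e : Chart n M) : Prop := e ∈ maximalAtlas 𝓘(ℂ, Cm n) 1 M

/-- A section of `K^k` (`K` the canonical bundle, `k` an integer) is given by its values `s x` in the
frame `(dz_1 ∧ … ∧ dz_n)^k` of the preferred chart at `x`. This is its coefficient in the chart `e`. -/
def co (k : ℤ) (s : M → ℂ) (e : Chart n M) (z : Cm n) : ℂ :=
  (jacM e (chartAt (Cm n) (e.symm z)) (e.symm z)).det ^ k * s (e.symm z)

variable (n) in
/-- `s` is a holomorphic section of `K^k` -/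
def IsSec (k : ℤ) (s : M → ℂ) : Prop :=
  ∀ e : Chart n M, Hc e → ∀ z ∈ e.target, AnalyticAt ℂ (co k s e) z

variable [RiemannianBundle (fun x : M => TangentSpace 𝓘(ℝ, Cm n) x)]

/-- the matrix `(g_{j k̄})` of the Hermitian metric `h(u, v) = g(u, v) - i g(iu, v)` -/
def hm (e : Chart n M) (z : Cm n) : Matrix (Fin n) (Fin n) ℂ :=
  Matrix.of fun j k => (chartMetric e z (Pi.single j 1) (Pi.single k 1) : ℂ) -
    Complex.I * (chartMetric e z (Pi.single j Complex.I) (Pi.single k 1) : ℂ)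

/-- the density `det (g_{j k̄})` of the volume -/
def vd (e : Chart n M) (z : Cm n) : ℝ := (hm e z).det.re

/-- the Ricci form `R_{j k̄} = - ∂_j ∂_k̄ log det g` -/
def ric (e : Chart n M) (z : Cm n) : Matrix (Fin n) (Fin n) ℂ :=
  cHess (fun y => -Real.log (vd e y)) z

variable (n) in
/-- the function `Ric^n / ω^n` -/
def ricDen (x : M) : ℝ :=
  (ric (chartAt (Cm n) x) (chartAt (Cm n) x x)).det.re / vd (chartAt (Cm n) x) (chartAt (Cm n) x x)

variable (n) in
/-- the square of the norm at `x` of the section `s` of `K^k` -/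
def nrm (k : ℤ) (s : M → ℂ) (x : M) : ℝ :=
  ‖s x‖ ^ 2 * vd (chartAt (Cm n) x) (chartAt (Cm n) x x) ^ (-k)

variable (n) in
/-- `μ` is the Riemannian volume -/
def IsVol [MeasurableSpace M] (μ : Measure M) : Prop :=
  ∀ e : Chart n M, Hc e → ∀ f : M → ℝ≥0∞, Measurable f → (∀ x ∉ e.source, f x = 0) →
    ∫⁻ x, f x ∂μ = ∫⁻ z in e.target, f (e.symm z) * ENNReal.ofReal (vd e z)

variable (n) in
/-- `φ` is a holomorphic isometry of `M` -/
structure HolIso (φ : M ≃ M) : Prop where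
  hol : MDifferentiable 𝓘(ℂ, Cm n) 𝓘(ℂ, Cm n) φ
  hol_symm : MDifferentiable 𝓘(ℂ, Cm n) 𝓘(ℂ, Cm n) φ.symm
  isom : ∀ x (v w : TangentSpace 𝓘(ℝ, Cm n) x),
    inner ℝ (mfderiv 𝓘(ℝ, Cm n) 𝓘(ℝ, Cm n) φ x v) (mfderiv 𝓘(ℝ, Cm n) 𝓘(ℝ, Cm n) φ x w)
      = inner ℝ v w

end Vale.Agent.P253Z
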