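import Vale.Agent.P253Z.Spec

/-!
# P253Z: the growth of the functions `s Ω^m`
-/

open scoped Manifold ContDiff Bundle ENNReal Topology ComplexConjugate ComplexOrder
open Bundle IsManifold MeasureTheory Set Metric Filter Vale.Agent.P253.Mfd
open Vale.Agent.P272.K (Cm dz dzb cHess jacM Chart)

noncomputable section

namespace Vale.Agent.P253Z

variable {n : ℕ} {M : Type} [MetricSpace M] [ChartedSpace (Cm n) M]
  [IsManifold 𝓘(ℂ, Cm n) 1 M] [IsManifold 𝓘(ℝ, Cm n) ∞ M]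
  [RiemannianBundle (fun x : M => TangentSpace 𝓘(ℝ, Cm n) x)]
  [IsContMDiffRiemannianBundle 𝓘(ℝ, Cm n) ∞ (Cm n) (fun x : M => TangentSpace 𝓘(ℝ, Cm n) x)]
  [IsRiemannianManifold 𝓘(ℝ, Cm n) M] [CompleteSpace M] [ConnectedSpace M] [NoncompactSpace M]
  [MeasurableSpace M] [BorelSpace M] {μ : Measure M}

namespace GR

theorem rpow_le_add {t a b : ℝ} {m : ℕ} (ht : 0 ≤ t) (ha : 0 ≤ a) (hb : 0 ≤ b)
    (h : t ^ 2 = a * b ^ m) : t ^ (2 / (m + 1 : ℝ)) ≤ a + b := by
  have h1 : t ^ 2 ≤ (a + b) ^ (m + 1) := by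
    rw [h, pow_succ']
    gcongr <;> linarith
  have h2 : (m + 1 : ℝ) ≠ 0 := by positivity
  calc t ^ (2 / (m + 1 : ℝ)) = (t ^ 2) ^ (m + 1 : ℝ)⁻¹ := by
        rw [div_eq_mul_inv, Real.rpow_mul ht, Real.rpow_two]
    _ ≤ ((a + b) ^ (m + 1)) ^ (m + 1 : ℝ)⁻¹ := by gcongr
    _ = a + b := by
        rw [← Nat.cast_succ, Real.pow_rpow_inv_natCast (by positivity) (Nat.succ_ne_zero m)]

theorem le_exp {t K X : ℝ} {m : ℕ} (hm : 1 ≤ m) (ht : 0 ≤ t) (hK : 0 < K) (hX : 0 ≤ X)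
    (h : t ^ (2 / (m + 1 : ℝ)) ≤ K * Real.exp X) :
    t ≤ Real.exp ((m + 1) / 2 * Real.log K + m * X) := by
  have h1 : (1 : ℝ) ≤ m := by exact_mod_cast hm
  have h2 := Real.rpow_le_rpow (by positivity) h (show (0 : ℝ) ≤ (m + 1) / 2 by positivity)
  rw [← Real.rpow_mul ht, show 2 / (m + 1 : ℝ) * ((m + 1) / 2) = 1 by field_simp, Real.rpow_one,
    ← Real.exp_log hK, ← Real.exp_add, ← Real.exp_mul] at h2
  refine h2.trans (Real.exp_le_exp.2 ?_)
  nlinarith

end GR

open GR in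
theorem gr (a : B1a n M) (b : B1b n M) (v : B3 n μ) (h1 : MV n μ) (h2 : BG n μ) : GR n μ := by
  intro p m hm s ⟨hs, hS⟩ C₁
  obtain ⟨A, hA, h1⟩ := h1
  obtain ⟨B, hB, h2⟩ := h2
  have := properSpace_riemannian (Cm n) M
  have fin : ∀ (x : M) r, μ (ball x r) ≠ ⊤ := fun x r =>
    ((measure_mono ball_subset_closedBall).trans_lt (v.fin _ (isCompact_closedBall x r))).ne
  have hp : 0 < μ.real (ball p 1) :=
    ENNReal.toReal_pos (v.pos _ isOpen_ball ⟨p, mem_ball_self one_pos⟩).ne' (fin p 1)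
  set S := (∫⁻ x, ENNReal.ofReal (nrm n (-m) s x) ∂μ).toReal with hS'
  have hS0 : 0 ≤ S := ENNReal.toReal_nonneg
  set q : ℝ := 2 / (m + 1) with hq
  have hm' : (1 : ℝ) ≤ m := by exact_mod_cast hm
  have q0 : 0 < q := by positivity
  have q1 : q ≤ 1 := (div_le_one (by positivity)).2 (by linarith)
  set K := A * (1 / q) ^ (2 * n) * (S + |C₁| + 1) with hK
  have K0 : 0 < K := by positivity
  refine ⟨(m + 1) / 2 * Real.log (K * B / μ.real (ball p 1)), fun Ω ψ hΩ _ hL x T hT hψ => ?_⟩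
  have d0 := dist_nonneg (x := x) (y := p)
  have hl : 0 ≤ Real.log (dist x p + 1) := Real.log_nonneg (by linarith)
  refine le_exp hm (norm_nonneg _) (by positivity) (by positivity) ?_
  have s1 : ∀ k : ℕ, IsSec n ((k + 1 : ℕ) : ℤ) (Ω ^ (k + 1)) := fun k => by
    induction k with
    | zero => simpa using hΩ
    | succ k ih =>
      rw [pow_succ, Nat.cast_succ]
      exact a.sec_mul _ _ _ _ ih hΩ
  have s2 : IsSec n 0 (s * Ω ^ m) := by
    obtain ⟨k, rfl⟩ : ∃ k, m = k + 1 := ⟨m - 1, by omega⟩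
    simpa only [neg_add_cancel] using a.sec_mul _ _ _ _ hs (s1 k)
  have D0 : ∀ y : M, 0 < vd (chartAt (Cm n) y) (chartAt (Cm n) y y) := fun y =>
    b.vd_pos _ (a.chart y) _ (mem_chart_target _ y)
  have n0 : ∀ k t y, 0 ≤ nrm n k t (y : M) := fun k t y =>
    mul_nonneg (sq_nonneg _) (zpow_pos (D0 y) _).le
  have e1 : ∀ y ∈ ball x 1, ENNReal.ofReal (‖(s * Ω ^ m) y‖ ^ q) ≤
      ENNReal.ofReal (nrm n (-m) s y) +
        ENNReal.ofReal (Real.exp T) * ENNReal.ofReal (nrm n 1 Ω y * Real.exp (-ψ y)) := by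
    intro y hy
    rw [← ENNReal.ofReal_mul (Real.exp_pos _).le,
      ← ENNReal.ofReal_add (n0 _ _ _) (by have := n0 1 Ω y; positivity)]
    refine ENNReal.ofReal_le_ofReal ((rpow_le_add (norm_nonneg _) (n0 (-m) s y) (n0 1 Ω y)
      ?_).trans (add_le_add le_rfl ?_))
    · have := (D0 y).ne'
      simp only [nrm, Pi.mul_apply, Pi.pow_apply, norm_mul, norm_pow, neg_neg, zpow_natCast,
        zpow_neg, zpow_one, mul_pow, inv_pow]
      field_simp
      ring
    · rw [mul_left_comm, ← Real.exp_add]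
      exact le_mul_of_one_le_right (n0 _ _ _) (Real.one_le_exp (by linarith [hψ y hy]))
  have c1 : Continuous (nrm n (-m) s) := b.nrm_cont _ _ fun e he z hz =>
    (hs e he z hz).contDiffAt.restrict_scalars ℝ
  have e2 : ∫⁻ y in ball x 1, ENNReal.ofReal (‖(s * Ω ^ m) y‖ ^ q) ∂μ ≤
      ENNReal.ofReal ((S + |C₁| + 1) * Real.exp T) := by
    refine (setLIntegral_mono' measurableSet_ball e1).trans
      ((setLIntegral_le_lintegral _ _).trans ?_)
    rw [lintegral_add_left c1.measurable.ennreal_ofReal,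
      lintegral_const_mul' _ _ ENNReal.ofReal_ne_top, ← ENNReal.ofReal_toReal hS.ne, ← hS']
    refine (add_le_add le_rfl (mul_le_mul_right
      (hL.trans (ENNReal.ofReal_le_ofReal (le_abs_self C₁))) _)).trans ?_
    rw [← ENNReal.ofReal_mul (Real.exp_pos _).le, ← ENNReal.ofReal_add hS0 (by positivity)]
    have := Real.one_le_exp hT
    exact ENNReal.ofReal_le_ofReal (by nlinarith)
  have e3 := (h1 _ s2 x 1 q one_pos q0 q1).trans (mul_le_mul_right e2 _)
  rw [← ENNReal.ofReal_mul (by positivity), ← ENNReal.ofReal_toReal (fin x 1),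
    ← ENNReal.ofReal_mul (by positivity), ENNReal.ofReal_le_ofReal_iff (by positivity)] at e3
  have e4 : μ.real (ball p 1) ≤ B * (dist x p + 1) ^ (2 * n) * μ.real (ball x 1) := by
    have h3 := h2 x 1 (dist x p + 1) one_pos (by linarith)
    rw [div_one] at h3
    refine (measureReal_mono (ball_subset ?_) (fin _ _)).trans h3
    rw [dist_comm]
    linarith
  have e5 : (dist x p + 1) ^ (2 * n) = Real.exp (2 * n * Real.log (dist x p + 1)) := by
    rw [← Real.exp_log (show 0 < (dist x p + 1) ^ (2 * n) by positivity), Real.log_pow]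
    push_cast
    rfl
  rw [div_mul_eq_mul_div, le_div_iff₀ hp, Real.exp_add, ← e5]
  refine (mul_le_mul_of_nonneg_left e4 (by positivity)).trans ?_
  have e6 := mul_le_mul_of_nonneg_left e3 (show 0 ≤ B * (dist x p + 1) ^ (2 * n) by positivity)
  rw [mul_left_comm]
  refine e6.trans (le_of_eq ?_)
  rw [hK]
  ring

end Vale.Agent.P253Z
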