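import Vale.Agent.P253Z.Defs

/-!
# P253Z: holomorphic isometries and local biholomorphisms
-/

open scoped Manifold ContDiff Bundle
open Bundle Vale.Agent.P253.Mfd

namespace Vale.Agent.P253Z

variable (E : Type) [NormedAddCommGroup E] [NormedSpace ℂ E]
  {M : Type} [MetricSpace M] [ChartedSpace E M]

/-- `g` is complex differentiable at `x` -/
def HolAt (g : M → ℂ) (x : M) : Prop := MDifferentiableAt 𝓘(ℂ, E) 𝓘(ℂ, ℂ) g x

/-- `Φ` is complex differentiable at `x` with invertible differential -/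
def EtaleAt (Φ : M → E) (x : M) : Prop :=
  MDifferentiableAt 𝓘(ℂ, E) 𝓘(ℂ, E) Φ x ∧ Function.Bijective (mfderiv 𝓘(ℂ, E) 𝓘(ℂ, E) Φ x)

variable (M) in
/-- a Riemannian metric on the tangent spaces of `M` -/
abbrev Metr := RiemannianBundle (fun x : M => TangentSpace 𝓘(ℝ, E) x)

variable (M) in
/-- the manifolds of Yau's conjecture: `M` is a complete connected noncompact Kähler manifold,
modelled on `E`, with positive holomorphic bisectional curvature -/
structure IsYau [Metr E M] : Prop where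
  complex : IsManifold 𝓘(ℂ, E) 1 M
  [real : IsManifold 𝓘(ℝ, E) ∞ M]
  smooth : IsContMDiffRiemannianBundle 𝓘(ℝ, E) ∞ E (fun x : M => TangentSpace 𝓘(ℝ, E) x)
  dist : IsRiemannianManifold 𝓘(ℝ, E) M
  complete : CompleteSpace M
  connected : ConnectedSpace M
  noncompact : NoncompactSpace M
  kahler : IsKahler E M
  pos : ∀ x : M, PosBisectionalAt E x

/-- `φ` is a biholomorphic isometry of `M` -/
structure IsHolIsometry [Metr E M] (φ : M ≃ M) : Prop where
  hol : MDifferentiable 𝓘(ℂ, E) 𝓘(ℂ, E) φ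
  hol_symm : MDifferentiable 𝓘(ℂ, E) 𝓘(ℂ, E) φ.symm
  isom : ∀ x (v w : TangentSpace 𝓘(ℝ, E) x),
    inner ℝ (mfderiv 𝓘(ℝ, E) 𝓘(ℝ, E) φ x v) (mfderiv 𝓘(ℝ, E) 𝓘(ℝ, E) φ x w) = inner ℝ v w

end Vale.Agent.P253Z
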